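import Vale.Agent.P253W.Flow

/-!
# P253W, block V: algebra of pull-backs, smoothness of determinants, inverses and traces
-/

open scoped ContDiff ComplexConjugate ComplexOrder Matrix
open Set Vale.Agent.P253Z
open Vale.Agent.P272.K (Cm)

noncomputable section

namespace Vale.Agent.P253W.V

namespace Alg

variable {n : ℕ}

theorem pb_one (A : Mx n) : pb 1 A = A := by simp [pb]

theorem pb_mul (S T A : Mx n) : pb (S * T) A = pb T (pb S A) := by
  simp only [pb, Matrix.transpose_mul, Matrix.map_mul, Matrix.mul_assoc]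

theorem pb_add (S A B : Mx n) : pb S (A + B) = pb S A + pb S B := by
  simp only [pb, Matrix.mul_add, Matrix.add_mul]

theorem pb_sub (S A B : Mx n) : pb S (A - B) = pb S A - pb S B := by
  simp only [pb, Matrix.mul_sub, Matrix.sub_mul]

theorem pb_neg (S A : Mx n) : pb S (-A) = -pb S A := by
  simp only [pb, Matrix.mul_neg, Matrix.neg_mul]

theorem pb_smul (S A : Mx n) (c : ℂ) : pb S (c • A) = c • pb S A := by
  simp only [pb, Matrix.mul_smul, Matrix.smul_mul]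

theorem det_conj (S : Mx n) : (S.map (starRingEnd ℂ)).det = conj S.det := by
  rw [RingHom.map_det]; rfl

theorem det_pb (S A : Mx n) : (pb S A).det = ((‖S.det‖ ^ 2 : ℝ) : ℂ) * A.det := by
  have h2 : S.det * conj S.det = ((‖S.det‖ ^ 2 : ℝ) : ℂ) := by
    rw [Complex.mul_conj, Complex.normSq_eq_norm_sq]
  rw [pb, Matrix.det_mul, Matrix.det_mul, Matrix.det_transpose, det_conj]
  linear_combination A.det * h2

theorem det_pb_re (S A : Mx n) : (pb S A).det.re = ‖S.det‖ ^ 2 * A.det.re := by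
  rw [det_pb, Complex.re_ofReal_mul]

theorem unit_T {S : Mx n} (h : S.det ≠ 0) : IsUnit Sᵀ.det := by
  rw [Matrix.det_transpose]; exact h.isUnit

theorem unit_conj {S : Mx n} (h : S.det ≠ 0) : IsUnit (S.map (starRingEnd ℂ)).det := by
  rw [det_conj]; exact ((map_ne_zero _).2 h).isUnit

theorem inv_pb (S g : Mx n) : (pb S g)⁻¹ = (S.map (starRingEnd ℂ))⁻¹ * g⁻¹ * Sᵀ⁻¹ := by
  rw [pb, Matrix.mul_inv_rev, Matrix.mul_inv_rev, Matrix.mul_assoc]

theorem trg_pb {S : Mx n} (h : S.det ≠ 0) (g a : Mx n) : trg (pb S g) (pb S a) = trg g a := by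
  rw [trg, trg, inv_pb, pb]
  simp only [Matrix.mul_assoc]
  rw [Matrix.nonsing_inv_mul_cancel_left _ _ (unit_T h), Matrix.trace_mul_comm]
  simp only [Matrix.mul_assoc]
  rw [Matrix.mul_nonsing_inv _ (unit_conj h), Matrix.mul_one]

theorem star_vecMul' (ξ : Cm n) (S : Mx n) :
    star (ξ ᵥ* S) = star ξ ᵥ* S.map (starRingEnd ℂ) := by
  ext j
  simp [Matrix.vecMul, dotProduct]

theorem inv_pb_mulVec {S : Mx n} (h : S.det ≠ 0) (g : Mx n) (ξ : Cm n) :
    (pb S g)⁻¹ *ᵥ (ξ ᵥ* S) = (S.map (starRingEnd ℂ))⁻¹ *ᵥ (g⁻¹ *ᵥ ξ) := by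
  rw [inv_pb, ← Matrix.mulVec_transpose, Matrix.mulVec_mulVec, Matrix.mulVec_mulVec,
    Matrix.nonsing_inv_mul_cancel_right _ _ (unit_T h)]

theorem hq_pb {S : Mx n} (h : S.det ≠ 0) (g : Mx n) (ξ : Cm n) :
    hq (pb S g) (ξ ᵥ* S) = hq g ξ := by
  rw [hq, hq, inv_pb_mulVec h, star_vecMul', ← Matrix.dotProduct_mulVec, Matrix.mulVec_mulVec,
    Matrix.mul_nonsing_inv _ (unit_conj h), Matrix.one_mulVec]

theorem pb_eq (S A : Mx n) : pb S A = (S.map (starRingEnd ℂ))ᴴ * A * S.map (starRingEnd ℂ) := by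
  rw [pb]
  congr 2
  ext i j
  simp

theorem pb_psd (S : Mx n) {A : Mx n} (h : A.PosSemidef) : (pb S A).PosSemidef := by
  rw [pb_eq]; exact h.conjTranspose_mul_mul_same _

theorem det_pos {A : Mx n} (h : A.PosDef) : 0 < A.det.re := (Complex.pos_iff.1 h.det_pos).1

theorem hq_pos {g : Mx n} (h : g.PosDef) {ξ : Cm n} (hξ : ξ ≠ 0) : 0 < hq g ξ :=
  (Complex.pos_iff.1 (h.inv.dotProduct_mulVec_pos hξ)).1

/-! ### smoothness -/

variable {E : Type*} [NormedAddCommGroup E] [NormedSpace ℝ E] {m : WithTop ℕ∞} {s : Set E}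
  {A B : E → Mx n}

theorem sm_re {f : E → ℂ} (h : ContDiffOn ℝ m f s) : ContDiffOn ℝ m (fun q => (f q).re) s :=
  Complex.reCLM.contDiff.comp_contDiffOn h

theorem sm_det (h : ∀ i j, ContDiffOn ℝ m (fun q => A q i j) s) :
    ContDiffOn ℝ m (fun q => (A q).det) s := by
  simp only [Matrix.det_apply']
  exact ContDiffOn.sum fun σ _ => contDiffOn_const.mul (contDiffOn_prod fun i _ => h _ _)

theorem sm_adj (h : ∀ i j, ContDiffOn ℝ m (fun q => A q i j) s) (i j : Fin n) :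
    ContDiffOn ℝ m (fun q => (A q).adjugate i j) s := by
  simp only [Matrix.adjugate_apply]
  refine sm_det fun k l => ?_
  simp only [Matrix.updateRow_apply]
  split_ifs
  · exact contDiffOn_const
  · exact h k l

theorem sm_inv (h : ∀ i j, ContDiffOn ℝ m (fun q => A q i j) s) (h0 : ∀ q ∈ s, (A q).det ≠ 0)
    (i j : Fin n) : ContDiffOn ℝ m (fun q => (A q)⁻¹ i j) s := by
  simp only [Matrix.inv_def, Ring.inverse_eq_inv', Matrix.smul_apply, smul_eq_mul]
  exact ((sm_det h).inv h0).mul (sm_adj h i j)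

theorem sm_mul (hA : ∀ i j, ContDiffOn ℝ m (fun q => A q i j) s)
    (hB : ∀ i j, ContDiffOn ℝ m (fun q => B q i j) s) (i j : Fin n) :
    ContDiffOn ℝ m (fun q => (A q * B q) i j) s := by
  simp only [Matrix.mul_apply]
  exact ContDiffOn.sum fun k _ => (hA i k).mul (hB k j)

theorem sm_trg (hA : ∀ i j, ContDiffOn ℝ m (fun q => A q i j) s) (h0 : ∀ q ∈ s, (A q).det ≠ 0)
    (hB : ∀ i j, ContDiffOn ℝ m (fun q => B q i j) s) :
    ContDiffOn ℝ m (fun q => trg (A q) (B q)) s := by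
  simp only [trg, Matrix.trace, Matrix.diag_apply]
  exact sm_re (ContDiffOn.sum fun i _ => sm_mul (sm_inv hA h0) hB i i)

theorem sm_hq {ξ : E → Cm n} (hA : ∀ i j, ContDiffOn ℝ m (fun q => A q i j) s)
    (h0 : ∀ q ∈ s, (A q).det ≠ 0) (hξ : ∀ i, ContDiffOn ℝ m (fun q => ξ q i) s) :
    ContDiffOn ℝ m (fun q => hq (A q) (ξ q)) s := by
  simp only [hq, dotProduct, Matrix.mulVec, Pi.star_apply]
  exact sm_re (ContDiffOn.sum fun i _ =>
    ((Complex.conjCLE : ℂ →L[ℝ] ℂ).contDiff.comp_contDiffOn (hξ i)).mul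
      (ContDiffOn.sum fun j _ => (sm_inv hA h0 i j).mul (hξ j)))

end Alg

end Vale.Agent.P253W.V
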