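import Vale.Agent.P210.R2.H53.SpecR

/-!
# P253W, block V, row GEO: minimal geodesics in a compact ball
-/

open scoped Topology
open Set Metric Filter
open Vale.Agent.P210.R2.H53 (MinGeo ApproxMid)

namespace Vale.Agent.P253W.V.GeoA

/-- finite approximations of geodesics -/
theorem finset_geo {X : Type*} [MetricSpace X] (x y : X)
    (hmid : ∀ p : X, dist x p + dist p y = dist x y → ∀ s : ℝ, 0 ≤ s → s ≤ dist p y →
      ∃ z, dist p z = s ∧ dist z y = dist p y - s) (F : Finset ℝ) :
    (∀ s ∈ F, s ∈ Icc 0 (dist x y)) → ∃ c : ℝ → X,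
      (∀ s ∈ F, ∀ t ∈ F, dist (c s) (c t) = |s - t|) ∧
      ∀ s ∈ F, dist x (c s) = s ∧ dist (c s) y = dist x y - s := by
  classical
  induction F using Finset.induction_on_max with
  | empty => intro _; exact ⟨fun _ => x, by simp, by simp⟩
  | insert a F hF ih =>
    intro hmem
    obtain ⟨c, hc1, hc2⟩ := ih (fun s hs => hmem s (Finset.mem_insert_of_mem hs))
    have ha : a ∈ Icc 0 (dist x y) := hmem a (Finset.mem_insert_self _ _)
    have haF : a ∉ F := fun h => lt_irrefl _ (hF a h)
    -- the new point
    obtain ⟨z, hz1, hz2, hz3⟩ : ∃ z, (dist x z = a ∧ dist z y = dist x y - a) ∧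
        (∀ s ∈ F, dist (c s) z ≤ a - s) ∧ True := by
      rcases F.eq_empty_or_nonempty with h0 | h0
      · obtain ⟨z, h1, h2⟩ := hmid x (by simp) a ha.1 ha.2
        exact ⟨z, ⟨h1, h2⟩, by simp [h0], trivial⟩
      · set m := F.max' h0 with hm
        have hmF : m ∈ F := F.max'_mem h0
        have hma : m < a := hF m hmF
        obtain ⟨h3, h4⟩ := hc2 m hmF
        obtain ⟨z, h1, h2⟩ := hmid (c m) (by linarith only [h3, h4]) (a - m)
          (by linarith only [hma])
          (by rw [h4]; linarith only [ha.2])
        have h5 : dist x z ≤ a := by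
          have := dist_triangle x (c m) z
          linarith only [this, h3, h1]
        have h6 := dist_triangle x z y
        have h7 : dist z y = dist x y - a := by rw [h2, h4]; ring
        refine ⟨z, ⟨le_antisymm h5 (by linarith only [h6, h7]), h7⟩, ?_, trivial⟩
        intro s hs
        have h8 := hc1 s hs m hmF
        have h9 : s ≤ m := F.le_max' s hs
        rw [abs_of_nonpos (by linarith only [h9])] at h8
        have := dist_triangle (c s) (c m) z
        linarith only [this, h8, h1]
    have hz4 : ∀ s ∈ F, dist (c s) z = a - s := by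
      intro s hs
      refine le_antisymm (hz2 s hs) ?_
      have h1 := dist_triangle (c s) z y
      have h2 := (hc2 s hs).2
      linarith only [h1, h2, hz1.2]
    refine ⟨Function.update c a z, ?_, ?_⟩
    · intro s hs t ht
      rcases Finset.mem_insert.1 hs with hsa | hs'
      · rcases Finset.mem_insert.1 ht with hta | ht'
        · rw [hsa, hta]; simp
        · have hne : t ≠ a := fun h => haF (h ▸ ht')
          rw [hsa, Function.update_self, Function.update_of_ne hne, dist_comm, hz4 t ht',
            abs_of_nonneg (by have := hF t ht'; linarith only [this])]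
      · have hne : s ≠ a := fun h => haF (h ▸ hs')
        rcases Finset.mem_insert.1 ht with hta | ht'
        · rw [hta, Function.update_self, Function.update_of_ne hne, hz4 s hs',
            abs_of_nonpos (by have := hF s hs'; linarith only [this])]
          ring
        · have hne' : t ≠ a := fun h => haF (h ▸ ht')
          rw [Function.update_of_ne hne, Function.update_of_ne hne', hc1 s hs' t ht']
    · intro s hs
      rcases Finset.mem_insert.1 hs with rfl | hs
      · rw [Function.update_self]; exact hz1
      · have hne : s ≠ a := fun h => haF (h ▸ hs)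
        rw [Function.update_of_ne hne]; exact hc2 s hs

/-- existence of a minimal geodesic in a compact ball -/
theorem minGeo_of {X : Type*} [MetricSpace X] (x y : X)
    (hK : IsCompact (closedBall x (dist x y)))
    (hmid : ∀ p : X, dist x p + dist p y = dist x y → ∀ s : ℝ, 0 ≤ s → s ≤ dist p y →
      ∃ z, dist p z = s ∧ dist z y = dist p y - s) :
    ∃ c : ℝ → X, MinGeo c 0 (dist x y) ∧ c 0 = x ∧ c (dist x y) = y := by
  classical
  set d := dist x y with hd
  let I := {F : Finset ℝ // ∀ s ∈ F, s ∈ Icc 0 d}
  let K : I → Set (ℝ → X) := fun F => {c | (∀ s, c s ∈ closedBall x d) ∧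
      (∀ s ∈ F.1, ∀ t ∈ F.1, dist (c s) (c t) = |s - t|) ∧
      ∀ s ∈ F.1, dist x (c s) = s ∧ dist (c s) y = d - s}
  have hball : IsCompact (Set.pi univ (fun _ : ℝ => closedBall x d)) :=
    isCompact_univ_pi (fun _ => hK)
  have hclosed : ∀ F, IsClosed (K F) := by
    intro F
    have e : K F = (⋂ s, {c : ℝ → X | c s ∈ closedBall x d}) ∩
        ((⋂ s ∈ F.1, ⋂ t ∈ F.1, {c : ℝ → X | dist (c s) (c t) = |s - t|}) ∩
        (⋂ s ∈ F.1, {c : ℝ → X | dist x (c s) = s ∧ dist (c s) y = d - s})) := by
      ext c
      simp [K]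
    rw [e]
    refine (isClosed_iInter fun s => ?_).inter ((isClosed_biInter fun s _ =>
      isClosed_biInter fun t _ => ?_).inter (isClosed_biInter fun s _ => ?_))
    · exact isClosed_closedBall.preimage (continuous_apply s)
    · exact isClosed_eq ((continuous_apply s).dist (continuous_apply t)) continuous_const
    · exact (isClosed_eq (continuous_const.dist (continuous_apply s)) continuous_const).inter
        (isClosed_eq ((continuous_apply s).dist continuous_const) continuous_const)
  have hcompact : ∀ F, IsCompact (K F) := by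
    intro F
    refine hball.of_isClosed_subset (hclosed F) ?_
    intro c hc s _
    exact hc.1 s
  have hne : ∀ F, (K F).Nonempty := by
    intro F
    obtain ⟨c, hc1, hc2⟩ := finset_geo x y hmid F.1 F.2
    refine ⟨fun s => if s ∈ F.1 then c s else x, ?_, ?_, ?_⟩
    · intro s
      by_cases hs : s ∈ F.1
      · simp only [hs, if_true]
        rw [mem_closedBall, dist_comm, (hc2 s hs).1]
        exact (F.2 s hs).2
      · simp only [hs, if_false]
        exact mem_closedBall_self dist_nonneg
    · intro s hs t ht
      simp only [hs, ht, if_true]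
      exact hc1 s hs t ht
    · intro s hs
      simp only [hs, if_true]
      exact hc2 s hs
  have hdir : Directed (· ⊇ ·) K := by
    intro F F'
    refine ⟨⟨F.1 ∪ F'.1, fun s hs => ?_⟩, ?_, ?_⟩
    · rcases Finset.mem_union.1 hs with h | h
      · exact F.2 s h
      · exact F'.2 s h
    · intro c hc
      exact ⟨hc.1, fun s hs t ht => hc.2.1 s (Finset.mem_union_left _ hs) t
        (Finset.mem_union_left _ ht), fun s hs => hc.2.2 s (Finset.mem_union_left _ hs)⟩
    · intro c hc
      exact ⟨hc.1, fun s hs t ht => hc.2.1 s (Finset.mem_union_right _ hs) t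
        (Finset.mem_union_right _ ht), fun s hs => hc.2.2 s (Finset.mem_union_right _ hs)⟩
  have : Nonempty I := ⟨⟨∅, by simp⟩⟩
  obtain ⟨c, hc⟩ := IsCompact.nonempty_iInter_of_directed_nonempty_isCompact_isClosed K hdir hne
    hcompact hclosed
  rw [mem_iInter] at hc
  refine ⟨c, ?_, ?_, ?_⟩
  · intro s hs t ht
    have h := hc ⟨{s, t}, by
      intro r hr
      rw [Finset.mem_insert, Finset.mem_singleton] at hr
      rcases hr with rfl | rfl
      · exact hs
      · exact ht⟩
    exact h.2.1 s (by simp) t (by simp)
  · have h := hc ⟨{0}, by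
      intro r hr
      rw [Finset.mem_singleton] at hr
      rw [hr]
      exact ⟨le_rfl, dist_nonneg⟩⟩
    have h1 := (h.2.2 0 (by simp)).1
    exact (dist_eq_zero.1 h1).symm
  · have h := hc ⟨{d}, by
      intro r hr
      rw [Finset.mem_singleton] at hr
      rw [hr]
      exact ⟨dist_nonneg, le_rfl⟩⟩
    have h1 := (h.2.2 d (by simp)).2
    rw [sub_self] at h1
    exact dist_eq_zero.1 h1

theorem mid_of {X : Type*} [MetricSpace X] (h : ApproxMid X) (x y : X)
    (s : ℝ) (hs : 0 ≤ s) (hsd : s ≤ dist x y) (hcomp : IsCompact (sphere x s)) :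
    ∃ z : X, dist x z = s ∧ dist z y = dist x y - s := by
  obtain ⟨z₀, hz₀, -⟩ := h x y s hs hsd 1 one_pos
  obtain ⟨z, hz, hmin⟩ := hcomp.exists_isMinOn (f := fun z => dist z y)
    ⟨z₀, by rw [mem_sphere, dist_comm, hz₀]⟩ (by fun_prop)
  rw [mem_sphere, dist_comm] at hz
  refine ⟨z, hz, le_antisymm ?_ ?_⟩
  · refine le_of_forall_pos_le_add fun ε hε => ?_
    obtain ⟨w, hw1, hw2⟩ := h x y s hs hsd ε hε
    exact (hmin (by rw [mem_sphere, dist_comm, hw1] : w ∈ sphere x s)).trans hw2
  · have := dist_triangle x z y
    linarith only [hz, this]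

theorem geo_ball {X : Type*} [MetricSpace X] (h : ApproxMid X) (o y : X) (l : ℝ)
    (hK : IsCompact (closedBall o l)) (hl : dist o y ≤ l) :
    ∃ c : ℝ → X, MinGeo c 0 (dist o y) ∧ c 0 = o ∧ c (dist o y) = y := by
  refine minGeo_of o y (hK.of_isClosed_subset isClosed_closedBall
    (closedBall_subset_closedBall hl)) fun p hp s hs hsd => mid_of h p y s hs hsd ?_
  refine hK.of_isClosed_subset isClosed_sphere fun z hz => ?_
  rw [mem_sphere] at hz
  rw [mem_closedBall]
  have h1 := dist_triangle z p o
  rw [dist_comm p o] at h1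
  linarith only [h1, hz, hp, hsd, hl]

end Vale.Agent.P253W.V.GeoA
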