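import Vale.Agent.P253W.V.Defs
import Vale.Agent.P253W.V.GeoA
import Vale.Agent.P210.R2.H196.Geo
import Vale.Agent.P210.R2.H265.Jet
import Vale.Agent.P253Z.B1a.Ch
import Vale.Agent.P253Z.B1b.Lin

/-!
# P253W, block V, row GEO: length of curves, existence and regularity of minimal geodesics
-/

open scoped Manifold ContDiff Bundle ENNReal Topology ComplexConjugate ComplexOrder Matrix
open Bundle IsManifold MeasureTheory Set Metric Filter Manifold Vale.Agent.P253Z
open Vale.Agent.P272.K (Cm jacM Chart)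
open Vale.Agent.P210.R2.H53 (MinGeo chartG GeoAt)

set_option maxSynthPendingDepth 3

noncomputable section

namespace Vale.Agent.P253W.V

namespace GeoA

section real

variable {E : Type} [NormedAddCommGroup E] [NormedSpace ℝ E] [FiniteDimensional ℝ E]
  {M : Type} [MetricSpace M] [ChartedSpace E M]
  [RiemannianBundle (fun x : M => TangentSpace 𝓘(ℝ, E) x)] [IsManifold 𝓘(ℝ, E) ∞ M]
  [IsContMDiffRiemannianBundle 𝓘(ℝ, E) ∞ E (fun x : M => TangentSpace 𝓘(ℝ, E) x)]
  [IsRiemannianManifold 𝓘(ℝ, E) M]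

/-- the right slope of the distance along a curve -/
theorem slope_lt {c : ℝ → M} {s r : ℝ} {e : OpenPartialHomeomorph M E}
    (he : e ∈ maximalAtlas 𝓘(ℝ, E) ∞ M) (hs : c s ∈ e.source)
    (hc : Tendsto c (𝓝[>] s) (𝓝 (c s))) {v : E}
    (hv : HasDerivWithinAt (fun r => e (c r)) v (Ici s) s)
    (hr : √(chartG e (e (c s)) v v) < r) :
    ∀ᶠ t in 𝓝[>] s, dist (c t) (c s) < r * (t - s) := by
  set G := chartG e (e (c s)) with hG
  have hcont : Continuous fun p : ℝ × E => (1 + p.1) * √(G p.2 p.2) := by fun_prop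
  have h0 : ∀ᶠ p in 𝓝 ((0 : ℝ), v), (1 + p.1) * √(G p.2 p.2) < r :=
    hcont.continuousAt.eventually_lt continuousAt_const (by simpa using hr)
  rw [nhds_prod_eq] at h0
  obtain ⟨pa, hpa, pb, hpb, hp⟩ := eventually_prod_iff.1 h0
  obtain ⟨ε, hε1, hε⟩ := ((hpa.filter_mono (nhdsWithin_le_nhds (s := Ioi 0))).and
    self_mem_nhdsWithin).exists
  have h1 := Vale.Agent.P210.R2.H265.jet3 he (e.map_source hs) (ε := ε) hε
  have h2 : Tendsto (fun t => (e (c t), e (c s))) (𝓝[>] s) (𝓝 (e (c s), e (c s))) :=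
    ((e.continuousAt hs).tendsto.comp hc).prodMk_nhds tendsto_const_nhds
  have h3 : Tendsto (slope (fun r => e (c r)) s) (𝓝[>] s) (𝓝 v) :=
    (hasDerivWithinAt_iff_tendsto_slope' (by simp)).1 (hv.mono Ioi_subset_Ici_self)
  filter_upwards [h2.eventually h1, h3.eventually hpb, hc.eventually (e.open_source.mem_nhds hs),
    self_mem_nhdsWithin] with t ht1 ht2 ht3 ht4
  have hts : 0 < t - s := sub_pos.2 ht4
  simp only [e.left_inv ht3, e.left_inv hs] at ht1
  set w := slope (fun r => e (c r)) s t with hw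
  have h4 : e (c t) - e (c s) = (t - s) • w := by
    rw [hw, slope_def_module, smul_smul, mul_inv_cancel₀ hts.ne', one_smul]
  have h5 : √(G ((t - s) • w) ((t - s) • w)) = (t - s) * √(G w w) := by
    simp only [map_smul, _root_.smul_apply, smul_eq_mul]
    rw [← mul_assoc, Real.sqrt_mul (mul_self_nonneg _), Real.sqrt_mul_self hts.le]
  rw [h4, ← hG, h5] at ht1
  have h6 : (1 + ε) * √(G w w) < r := hp hε1 ht2
  calc dist (c t) (c s) ≤ (1 + ε) * ((t - s) * √(G w w)) := ht1
    _ = (1 + ε) * √(G w w) * (t - s) := by ring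
    _ < r * (t - s) := by gcongr

theorem length (c : ℝ → M) (m : ℝ → ℝ) (a b : ℝ) (hab : a ≤ b) (hc : ContinuousOn c (Icc a b))
    (hm : ContinuousOn m (Icc a b))
    (h : ∀ s ∈ Ico a b, ∃ e ∈ maximalAtlas 𝓘(ℝ, E) ∞ M, c s ∈ e.source ∧ ∃ v,
      HasDerivWithinAt (fun r => e (c r)) v (Ici s) s ∧ √(chartG e (e (c s)) v v) ≤ m s) :
    dist (c a) (c b) ≤ ∫ s in a..b, m s := by
  set m' : ℝ → ℝ := fun r => m (projIcc a b hab r) with hm'
  have hc' : Continuous m' :=
    hm.comp_continuous (continuous_subtype_val.comp continuous_projIcc) fun r => Subtype.prop _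
  have heq : ∀ r ∈ Icc a b, m' r = m r := fun r hr => by simp only [hm', projIcc_of_mem hab hr]
  have hB : ∀ x, HasDerivAt (fun u => ∫ r in a..u, m' r) (m' x) x := fun x =>
    (hc'.integral_hasStrictDerivAt a x).hasDerivAt
  have key := image_le_of_liminf_slope_right_le_deriv_boundary
    (f := fun s => dist (c a) (c s)) (a := a) (b := b) (B := fun u => ∫ r in a..u, m' r)
    (B' := m') ((continuous_const.dist continuous_id).comp_continuousOn hc) (by simp)
    (fun x _ => (hB x).continuousAt.continuousWithinAt) (fun x _ => (hB x).hasDerivWithinAt)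
    (fun x hx r hr => ?_) (right_mem_Icc.2 hab)
  · refine key.trans (le_of_eq (intervalIntegral.integral_congr fun r hr => heq r ?_))
    rwa [uIcc_of_le hab] at hr
  · obtain ⟨e, he, hs, v, hv, hvm⟩ := h x hx
    have hx' : x ∈ Icc a b := Ico_subset_Icc_self hx
    rw [heq x hx'] at hr
    have h1 : Tendsto c (𝓝[>] x) (𝓝 (c x)) :=
      (hc x hx').tendsto.mono_left (nhdsWithin_le_of_mem (Icc_mem_nhdsGT_of_mem hx))
    refine Eventually.frequently ?_
    filter_upwards [slope_lt he hs h1 hv (hvm.trans_lt hr), self_mem_nhdsWithin] with t ht1 ht2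
    have hts : 0 < t - x := sub_pos.2 ht2
    rw [slope_def_field, div_lt_iff₀ hts]
    have h2 := dist_triangle (c a) (c x) (c t)
    rw [dist_comm (c x) (c t)] at h2
    linarith

theorem reg {c : ℝ → M} {l : ℝ} (hl : 0 < l) (hc : MinGeo c 0 l) {e : OpenPartialHomeomorph M E}
    (he : e ∈ maximalAtlas 𝓘(ℝ, E) ∞ M) {s : ℝ} (hs : s ∈ Icc 0 l) (hcs : c s ∈ e.source) :
    ContinuousWithinAt (derivWithin (fun r => e (c r)) (Icc 0 l)) (Icc 0 l) s ∧
    HasDerivWithinAt (fun r => e (c r)) (derivWithin (fun r => e (c r)) (Icc 0 l) s) (Icc 0 l) s ∧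
    chartG e (e (c s)) (derivWithin (fun r => e (c r)) (Icc 0 l) s)
      (derivWithin (fun r => e (c r)) (Icc 0 l) s) = 1 ∧
    ∀ᶠ r in 𝓝[Icc 0 l] s, c r ∈ e.source := by
  obtain ⟨δ, hδ, w, w', h1, h2⟩ := Vale.Agent.P210.R2.H196.geo_two he c 0 l s hl hc hs hcs
  have hnear : ∀ t, |t - s| < δ → ∀ᶠ r in 𝓝[Icc 0 l] t, r ∈ Icc 0 l ∧ |r - s| < δ := by
    intro t ht
    refine Eventually.and self_mem_nhdsWithin (mem_nhdsWithin_of_mem_nhds ?_)
    have : Continuous fun r : ℝ => |r - s| := by fun_prop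
    exact this.continuousAt.eventually_lt continuousAt_const ht
  have hd : ∀ t ∈ Icc 0 l, |t - s| < δ →
      HasDerivWithinAt (fun r => e (c r)) (w' t) (Icc 0 l) t := by
    intro t ht hts
    refine (h1 t hts).1.hasDerivWithinAt.congr_of_eventuallyEq ?_ (h2 t ht hts).2
    filter_upwards [hnear t hts] with r hr using (h2 r hr.1 hr.2).2
  have hv : ∀ t ∈ Icc 0 l, |t - s| < δ → derivWithin (fun r => e (c r)) (Icc 0 l) t = w' t :=
    fun t ht hts => (hd t ht hts).derivWithin (uniqueDiffOn_Icc hl t ht)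
  have h0 : |s - s| < δ := by simpa using hδ
  refine ⟨?_, ?_, ?_, ?_⟩
  · refine (h1 s h0).2.1.continuousAt.continuousWithinAt.congr_of_eventuallyEq ?_ (hv s hs h0)
    filter_upwards [hnear s h0] with r hr using hv r hr.1 hr.2
  · rw [hv s hs h0]
    exact hd s hs h0
  · rw [hv s hs h0, (h2 s hs h0).2]
    exact (h1 s h0).2.2.2
  · filter_upwards [hnear s h0] with r hr using (h2 r hr.1 hr.2).1

end real

theorem front (E : Type) [NormedAddCommGroup E] [NormedSpace ℝ E]
    {M : Type} [MetricSpace M] [ChartedSpace E M]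
    [RiemannianBundle (fun x : M => TangentSpace 𝓘(ℝ, E) x)] [IsRiemannianManifold 𝓘(ℝ, E) M]
    (o x : M) (U : Set M) (hU : IsOpen U) (ho : o ∈ U) (hx : x ∉ U) (ε : ℝ)
    (hε : 0 < ε) : ∃ y ∈ frontier U, dist o y + dist y x ≤ dist o x + ε := by
  have hlt : riemannianEDist 𝓘(ℝ, E) o x < ENNReal.ofReal (dist o x + ε) := by
    rw [← IsRiemannianManifold.out (I := 𝓘(ℝ, E)), edist_dist]
    rw [ENNReal.ofReal_lt_ofReal_iff (by positivity)]
    linarith
  obtain ⟨γ, hγ0, hγ1, hγ, hlen⟩ := exists_lt_of_riemannianEDist_lt hlt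
  obtain ⟨t, ht, hts⟩ : ∃ t ∈ Icc (0 : ℝ) 1, γ t ∈ frontier U := by
    by_contra hcon
    push Not at hcon
    have h1 : IsPreconnected (γ '' Icc 0 1) := isPreconnected_Icc.image γ hγ.continuousOn
    have h2 : γ '' Icc 0 1 ⊆ U := h1.subset_left_of_subset_union hU isClosed_closure.isOpen_compl
      (disjoint_compl_right_iff_subset.2 (subset_closure (s := U))) ?_
      ⟨o, mem_inter (hγ0 ▸ mem_image_of_mem γ (left_mem_Icc.2 zero_le_one)) ho⟩
    · exact hx (h2 ⟨1, by simp, hγ1⟩)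
    · rintro _ ⟨t, ht, rfl⟩
      by_contra h3
      rw [mem_union, not_or, mem_compl_iff, not_not] at h3
      exact hcon t ht (by rw [hU.frontier_eq]; exact ⟨h3.2, h3.1⟩)
  refine ⟨γ t, hts, ?_⟩
  have h1 := riemannianEDist_le_pathELength (I := 𝓘(ℝ, E))
    (hγ.mono (Icc_subset_Icc le_rfl ht.2)) hγ0 rfl ht.1
  have h2 := riemannianEDist_le_pathELength (I := 𝓘(ℝ, E))
    (hγ.mono (Icc_subset_Icc ht.1 le_rfl)) rfl hγ1 ht.2
  have h3 := (add_le_add h1 h2).trans_lt ((pathELength_add ht.1 ht.2).trans_lt hlen)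
  rw [← IsRiemannianManifold.out (I := 𝓘(ℝ, E)), ← IsRiemannianManifold.out (I := 𝓘(ℝ, E)),
    edist_dist, edist_dist, ← ENNReal.ofReal_add dist_nonneg dist_nonneg,
    ENNReal.ofReal_lt_ofReal_iff (by positivity)] at h3
  exact h3.le

variable {n : ℕ} {M : Type} [MetricSpace M] [ChartedSpace (Cm n) M]
  [RiemannianBundle (fun x : M => TangentSpace 𝓘(ℝ, Cm n) x)]

theorem qf_hm (hK : Vale.Agent.P253.Mfd.IsKahler (Cm n) M) {e : Chart n M} (he : Hc e) {z : Cm n}
    (hz : z ∈ e.target) (v : Cm n) : qf (hm e z) v = chartG e z v v := by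
  have h1 : hm e z = MC.hmat (chartG e z) := by
    ext j k
    rw [hm, MC.hmat, Matrix.of_apply, Matrix.of_apply, MC.hf, MC.single_I]
    rfl
  have h2 := MC.hf_expand (B := chartG e z) (hK e he z hz).1 v v
  rw [← MC.hf_re, h2, qf, h1]
  congr 1
  simp only [dotProduct, Matrix.mulVec, Finset.mul_sum, Pi.star_apply, Complex.star_def]
  refine Finset.sum_congr rfl fun j _ => Finset.sum_congr rfl fun k _ => by ring

end GeoA

/-- **GEO** -/
theorem geo_row : GEO := by
  intro n M _ _ _ _ _ _ _ hK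
  refine ⟨fun c m a b hab hc hm h => GeoA.length (E := Cm n) c m a b hab hc hm fun s hs => ?_,
    fun o y l => GeoA.geo_ball (Vale.Agent.P210.R2.H53.approxMid_of_riemannian (Cm n) M) o y l,
    fun c l hl hc => ⟨fun e => derivWithin (fun r => e (c r)) (Icc 0 l), fun e he => ?_⟩,
    GeoA.front (Cm n)⟩
  · obtain ⟨e, he, hcs, v, hv, hvm⟩ := h s hs
    rw [GeoA.qf_hm hK he (e.map_source hcs)] at hvm
    exact ⟨e, Vale.Agent.P253.Mfd.mem_maximalAtlas_real he, hcs, v, hv, hvm⟩
  · have her := Vale.Agent.P253.Mfd.mem_maximalAtlas_real he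
    refine ⟨fun s hs => (GeoA.reg hl hc her hs.1 hs.2).1.mono inter_subset_left,
      fun s hs hcs => ?_⟩
    obtain ⟨-, h1, h2, h3⟩ := GeoA.reg hl hc her hs hcs
    refine ⟨h1, by rw [GeoA.qf_hm hK he (e.map_source hcs)]; exact h2, fun e' he' hcs' => ?_⟩
    have hd := (B1aP.hol' he he' hcs hcs').differentiableAt
    have h4 := (hd.hasFDerivAt.restrictScalars ℝ).comp_hasDerivWithinAt s h1
    have h5 : HasDerivWithinAt (fun r => e' (c r)) (fderiv ℂ (fun y => e' (e.symm y)) (e (c s))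
        (derivWithin (fun r => e (c r)) (Icc 0 l) s)) (Icc 0 l) s := by
      refine h4.congr_of_eventuallyEq ?_ (by simp [e.left_inv hcs])
      filter_upwards [h3] with r hr
      simp [e.left_inv hr]
    rw [B1aP.jac_eq he he' hcs hcs', LinearMap.toMatrix'_mulVec]
    exact h5.derivWithin (uniqueDiffOn_Icc hl s hs)

end Vale.Agent.P253W.V
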