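import Vale.Agent.P253W.V.Defs
import Vale.Agent.P253W.FG.Calc
import Vale.Agent.P253W.FG.Lam
import Vale.Agent.P253Z.B1b
import Vale.Agent.P253Z.B1a

/-!
# P253W, block V, row BAS2: evolution equations and elementary inequalities
-/

open scoped Manifold ContDiff Bundle Topology ComplexConjugate ComplexOrder Matrix
open Bundle IsManifold MeasureTheory Set Metric Filter Vale.Agent.P253.Mfd Vale.Agent.P253Z
open Vale.Agent.P272.K (Cm dz dzb cHess jacM Chart)
open Vale.Agent.P272.K.C2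

set_option linter.unusedSectionVars false

noncomputable section

namespace Vale.Agent.P253W.V

namespace Bas2

section alg

variable {n : ℕ} {g h : Mx n}

theorem unit (hg : g.PosDef) : IsUnit g.det := hg.det_pos.ne'.isUnit

/-- the inverse is antitone -/
theorem inv_anti (hg : g.PosDef) (hh : h.PosDef) (hl : (h - g).PosSemidef) :
    (g⁻¹ - h⁻¹).PosSemidef := by
  have h1 := Matrix.nonsing_inv_mul _ (unit hg)
  have h2 := Matrix.mul_nonsing_inv _ (unit hg)
  have h3 := Matrix.nonsing_inv_mul _ (unit hh)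
  have h4 := Matrix.mul_nonsing_inv _ (unit hh)
  have e : g⁻¹ - h⁻¹ = (h⁻¹)ᴴ * (h - g) * h⁻¹ + ((h - g) * h⁻¹)ᴴ * g⁻¹ * ((h - g) * h⁻¹) := by
    rw [Matrix.conjTranspose_mul, hl.1.eq, hh.inv.1.eq]
    simp only [Matrix.mul_sub, Matrix.sub_mul, h3, h4, Matrix.one_mul, Matrix.mul_one,
      Matrix.mul_assoc, ← Matrix.mul_assoc g⁻¹ g, h1, h2]
    abel
  rw [e]
  exact (hl.conjTranspose_mul_mul_same _).add (hg.inv.posSemidef.conjTranspose_mul_mul_same _)

theorem hq_anti (hg : g.PosDef) (hh : h.PosDef) (hl : (h - g).PosSemidef) (ξ : Cm n) :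
    hq h ξ ≤ hq g ξ := by
  have := (inv_anti hg hh hl).re_dotProduct_nonneg ξ
  rw [Matrix.sub_mulVec, dotProduct_sub] at this
  exact sub_nonneg.1 this

theorem hq_pos (hg : g.PosDef) {ξ : Cm n} (h0 : ξ ≠ 0) : 0 < hq g ξ := hg.inv.re_dotProduct_pos h0

theorem hq_smul (hg : g.PosDef) {c : ℝ} (hc : c ≠ 0) (ξ : Cm n) :
    hq ((c : ℂ) • g) ξ = c⁻¹ * hq g ξ := by
  have e : ((c : ℂ) • g)⁻¹ = ((c⁻¹ : ℝ) : ℂ) • g⁻¹ := by
    refine Matrix.inv_eq_left_inv ?_
    rw [Matrix.smul_mul, Matrix.mul_smul, smul_smul, Matrix.nonsing_inv_mul _ (unit hg),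
      ← Complex.ofReal_mul, inv_mul_cancel₀ hc, Complex.ofReal_one, one_smul]
  rw [hq, hq, e, Matrix.smul_mulVec, dotProduct_smul, smul_eq_mul, Complex.re_ofReal_mul]

theorem det_pos (hg : g.PosDef) : 0 < g.det.re := (Complex.pos_iff.1 hg.det_pos).1

theorem hq_le (hg : g.PosDef) (hh : h.PosDef) (hl : (h - g).PosSemidef) (ξ : Cm n) :
    hq g ξ ≤ h.det.re / g.det.re * hq h ξ := by
  have hc : 0 < g.det.re / h.det.re := div_pos (det_pos hg) (det_pos hh)
  have := hq_anti (hh.smul (by exact_mod_cast hc)) hg (A.Lin.two hg hh hl) ξ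
  rwa [hq_smul hh hc.ne', inv_div] at this

theorem trg_self (hg : g.PosDef) : trg g g = n := (FG.eig n).self g hg

theorem trg_mono (hg : g.PosDef) {a b : Mx n} (hl : (b - a).PosSemidef) : trg g a ≤ trg g b :=
  (FG.eig n).mono g a b hg hl

theorem trg_sub (g a b : Mx n) : trg g (a - b) = trg g a - trg g b := by
  simp only [trg, Matrix.mul_sub, Matrix.trace_sub, Complex.sub_re]

theorem trg_neg (g a : Mx n) : trg g (-a) = -trg g a := by
  simp only [trg, Matrix.mul_neg, Matrix.trace_neg, Complex.neg_re]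

theorem trg_smul (g a : Mx n) (c : ℝ) : trg g ((c : ℂ) • a) = c * trg g a := by
  simp only [trg, Matrix.mul_smul, Matrix.trace_smul, smul_eq_mul, Complex.re_ofReal_mul]

theorem trg_le (hg : g.PosDef) (hh : h.PosDef) (hl : (h - g).PosSemidef) :
    trg g h ≤ n * (h.det.re / g.det.re) := by
  have h1 := trg_mono hg (A.Lin.two hg hh hl)
  rw [trg_smul, trg_self hg, div_mul_eq_mul_div, div_le_iff₀ (det_pos hh)] at h1
  rw [← mul_div_assoc, le_div_iff₀ (det_pos hg), mul_comm]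
  exact h1

/-- the derivative of `|ξ|²_g` -/
theorem hq_deriv {G : ℝ → Mx n} {G' : Mx n} {t : ℝ}
    (hd : ∀ j k, HasDerivAt (fun s => G s j k) (-G' j k) t) (hp : (G t).PosDef) (ξ : Cm n) :
    HasDerivAt (fun s => hq (G s) ξ)
      (star ((G t)⁻¹ *ᵥ ξ) ⬝ᵥ (G' *ᵥ ((G t)⁻¹ *ᵥ ξ))).re t := by
  have h1 := FG.Calc.inv (g' := -G') hd hp.det_pos.ne'
  have h2 := HasDerivAt.fun_sum (u := Finset.univ) fun j _ =>
    (HasDerivAt.fun_sum (u := Finset.univ) fun k _ => (h1 j k).mul_const (ξ k)).const_mul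
      (star ξ j)
  have h3 := Complex.reCLM.hasFDerivAt.comp_hasDerivAt t h2
  refine HasDerivAt.congr_deriv h3 (Eq.symm ?_)
  change _ = (star ξ ⬝ᵥ ((-((G t)⁻¹ * -G' * (G t)⁻¹)) *ᵥ ξ)).re
  rw [Matrix.star_mulVec, hp.inv.1.eq, ← Matrix.dotProduct_mulVec, Matrix.mulVec_mulVec,
    Matrix.mulVec_mulVec, Matrix.mul_neg, Matrix.neg_mul, neg_neg]

end alg

variable {n : ℕ} {M : Type} [MetricSpace M] [ChartedSpace (Cm n) M] [IsManifold 𝓘(ℂ, Cm n) 1 M]
  [IsManifold 𝓘(ℝ, Cm n) ∞ M] [RiemannianBundle fun x : M => TangentSpace 𝓘(ℝ, Cm n) x]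
  [IsContMDiffRiemannianBundle 𝓘(ℝ, Cm n) ∞ (Cm n) fun x : M => TangentSpace 𝓘(ℝ, Cm n) x]
  [IsRiemannianManifold 𝓘(ℝ, Cm n) M] [CompleteSpace M] [ConnectedSpace M] [NoncompactSpace M]
  [MeasurableSpace M] [BorelSpace M] {F : Flow n M} {t : ℝ} {e : Chart n M} {z : Cm n}

theorem hpc (x : M) : Hc (pc n x) := b1a.chart x

theorem mpc (x : M) : pc n x x ∈ (pc n x).target := (pc n x).map_source (mem_chart_source _ x)

theorem spc (x : M) : (pc n x).symm (pc n x x) = x := (pc n x).left_inv (mem_chart_source _ x)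

theorem co_ne (h : F.Is) (he : Hc e) (hz : z ∈ e.target) : co 1 F.Ω e z ≠ 0 :=
  mul_ne_zero (zpow_ne_zero _ (b1a.jac_ne _ _ he (hpc _) _ (e.map_target hz)
    (mem_chart_source _ _))) (h.ne _)

theorem gx_pos (h : F.Is) (ht : 0 ≤ t) (x : M) : (F.gx t x).PosDef :=
  h.pos t ht _ (hpc x) _ (mpc x)

theorem gx_le (h : F.Is) (b : F.Bas1) (ht : 0 ≤ t) (x : M) : (F.gx 0 x - F.gx t x).PosSemidef := by
  rw [Flow.gx, b.g_zero, Flow.gx, Flow.g, sub_sub_cancel]
  exact h.le t ht _ (hpc x) _ (mpc x)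

theorem u_split (h : F.Is) (ht : 0 ≤ t) (x : M) :
    F.u t x = Real.log (‖F.Ω x‖ ^ 2) - Real.log (F.gx t x).det.re :=
  Real.log_div (pow_ne_zero _ (norm_ne_zero_iff.2 (h.ne x))) (det_pos (gx_pos h ht x)).ne'

theorem exp_u (h : F.Is) (ht : 0 ≤ t) (x : M) :
    Real.exp (F.u t x - F.u 0 x) = (F.gx 0 x).det.re / (F.gx t x).det.re := by
  rw [u_split h ht, u_split h le_rfl, sub_sub_sub_cancel_left, Real.exp_sub,
    Real.exp_log (det_pos (gx_pos h ht x)), Real.exp_log (det_pos (gx_pos h le_rfl x))]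

theorem u_hs (h : F.Is) (b : F.Bas1) (ht : 0 ≤ t) (he : Hc e) (hz : z ∈ e.target) :
    hs (F.u t) e z = cHess (fun y => -Real.log (F.g t e y).det.re) z := by
  have h1 : (fun y => -Real.log (F.g t e y).det.re) =ᶠ[𝓝 z]
      fun y => F.u t (e.symm y) - Real.log (‖co 1 F.Ω e y‖ ^ 2) := by
    filter_upwards [e.open_target.mem_nhds hz] with y hy
    rw [b.u_eq t ht e he y hy, Real.log_div (pow_ne_zero _ (norm_ne_zero_iff.2 (co_ne h he hy)))
      (det_pos (h.pos t ht e he y hy)).ne']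
    ring
  rw [cHess_congr h1]
  exact (MC.hess_tw (u := fun y => F.u t (e.symm y)) (τ := fun y => y) analyticAt_id
    ((b.sm_at _ b.u_sm t ht e he z hz).of_le MC.two_le) (h.sec e he z hz) (co_ne h he hz)).symm

theorem g_t (h : F.Is) (ht : 0 < t) (he : Hc e) (hz : z ∈ e.target) (j k : Fin n) :
    HasDerivAt (fun s => F.g s e z j k) (-hs (F.u t) e z j k) t :=
  (FG.Calc.comm (Φ := ch e F.ψ) (Ψ := ch e F.u) (Ici_mem_nhds ht) e.open_target (h.sm e he)
    (fun y _ => h.eq t ht (e.symm y)) hz j k).const_sub _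

theorem u_t (h : F.Is) (ht : 0 < t) (x : M) : HasDerivAt (fun s => F.u s x) (F.R t x) t := by
  have h1 := (FG.Calc.ldet (g := fun s => F.gx s x) (g' := -hs (F.u t) (pc n x) (pc n x x))
    (g_t h ht (hpc x) (mpc x)) (gx_pos h ht.le x)).const_sub (Real.log (‖F.Ω x‖ ^ 2))
  refine HasDerivAt.congr_deriv (h1.congr_of_eventuallyEq ?_) ?_
  · filter_upwards [Ici_mem_nhds ht] with s hs using u_split h hs x
  · exact (congrArg Neg.neg (trg_neg _ _)).trans (neg_neg _)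

theorem cont (b : F.Bas1) {f : ℝ → M → ℝ} (hf : SmT n (Ici 0) f) (x : M) :
    ContinuousOn (fun s => f s x) (Ici 0) :=
  (b.sm_cont f hf).comp (f := fun s : ℝ => (s, x)) (by fun_prop) fun _ hs => ⟨hs, mem_univ _⟩

theorem R_nonneg (h : F.Is) (b : F.Bas1) (ht : 0 ≤ t) (x : M) : 0 ≤ F.R t x := by
  have h1 : ∀ s, 0 < s → 0 ≤ F.R s x := fun s hs => by
    rw [← ((u_t h hs x).hasDerivWithinAt (s := Ici 0)).derivWithin (uniqueDiffOn_Ici 0 s hs.le)]
    exact (h.mono x).derivWithin_nonneg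
  rcases ht.eq_or_lt with rfl | ht
  · exact ge_of_tendsto ((cont b b.R_sm x 0 self_mem_Ici).mono Ioi_subset_Ici_self).tendsto
      (eventually_mem_nhdsWithin.mono h1)
  · exact h1 t ht

theorem y_eq (b : F.Bas1) (t : ℝ) (x : M) : F.y t x = trg (F.gx t x) (F.gx 0 x) := by
  rw [Flow.y, ← b.g_zero]
  rfl

theorem lap_psi (h : F.Is) (ht : 0 ≤ t) (x : M) : F.lap t (F.ψ t) x = F.y t x - n := by
  rw [← trg_self (gx_pos h ht x), Flow.y, ← trg_sub, Flow.gx, Flow.g, sub_sub_cancel]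
  rfl

theorem psi_le (h : F.Is) (b : F.Bas1) (ht : 0 ≤ t) (x : M) :
    t * F.u 0 x ≤ F.ψ t x ∧ F.ψ t x ≤ t * F.u t x := by
  rcases ht.eq_or_lt with rfl | ht
  · simp [h.zero]
  obtain ⟨c, hc, h1⟩ := exists_hasDerivAt_eq_slope (fun s => F.ψ s x) (fun s => F.u s x) ht
    ((cont b h.sm x).mono Icc_subset_Ici_self) fun s hs => h.eq s hs.1 x
  rw [h.zero, sub_zero, sub_zero, eq_div_iff ht.ne', mul_comm] at h1
  rw [← h1]
  exact ⟨mul_le_mul_of_nonneg_left (h.mono x self_mem_Ici hc.1.le hc.1.le) ht.le,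
    mul_le_mul_of_nonneg_left (h.mono x hc.1.le ht.le hc.2.le) ht.le⟩

theorem psi_up (h : F.Is) : ∃ C : ℝ, ∀ t, 0 ≤ t → ∀ x, F.ψ t x ≤ C * (1 + t) * (1 + t + F.r x) := by
  obtain ⟨C, hC⟩ := h.up
  have hr : ∀ x, 0 ≤ F.r x := fun x => dist_nonneg
  refine ⟨n + 3 / 2 + C ^ 2, fun t ht x => ?_⟩
  have h0 := hr x
  have hq : 0 < 1 + t + F.r x := by positivity
  rcases ht.eq_or_lt with rfl | ht
  · rw [h.zero]
    positivity
  set q := 1 + t + F.r x with hq'
  have ha : 0 < (1 + t) / (4 * q) := by positivity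
  have h1 := h.ys t ((1 + t) / (4 * q)) (C ^ 2 * (1 + t) * q) ht ha
    (by rw [div_le_div_iff₀ (by positivity) (by norm_num)]; linarith) (fun y => by
      have h2 : t * F.u 0 y ≤ (1 + t) * |C| * (1 + F.r y) := by
        have h3 : F.u 0 y ≤ |C| * (1 + F.r y) :=
          (hC y).trans (mul_le_mul_of_nonneg_right (le_abs_self C) (by linarith [hr y]))
        have h4 : 0 ≤ |C| * (1 + F.r y) := mul_nonneg (abs_nonneg C) (by linarith [hr y])
        nlinarith
      have h3 : (1 + t) / (4 * q) * (1 + F.r y) ^ 2 + C ^ 2 * (1 + t) * q -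
          (1 + t) * |C| * (1 + F.r y) = (1 + t) / (4 * q) * (1 + F.r y - 2 * q * |C|) ^ 2 := by
        rw [← sq_abs C]
        field_simp
        ring
      have h4 := mul_nonneg ha.le (sq_nonneg (1 + F.r y - 2 * q * |C|))
      linarith) t ht.le x
  have h2 : 6 * ((1 + t) / (4 * q)) * (1 + F.r x) ^ 2 ≤ 3 / 2 * (1 + t) * q := by
    calc 6 * ((1 + t) / (4 * q)) * (1 + F.r x) ^ 2 ≤ 6 * ((1 + t) / (4 * q)) * q ^ 2 := by
          gcongr
          linarith
      _ = 3 / 2 * (1 + t) * q := by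
          field_simp
          ring
  have h3 : (n : ℝ) * t ≤ n * (1 + t) * q := by
    rw [mul_assoc]
    refine mul_le_mul_of_nonneg_left ?_ n.cast_nonneg
    nlinarith
  rw [sub_self, zero_mul, add_zero] at h1
  linarith

end Bas2

open Bas2

/-- **BAS2** -/
theorem bas2_row : BAS2 := fun _ _ _ _ _ _ _ _ _ _ _ _ _ _ _ F _ h b =>
  { u_hs := fun _ ht _ he _ hz => u_hs h b ht he hz
    g_t := fun _ ht _ he _ hz => g_t h ht he hz
    u_t := fun _ ht => u_t h ht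
    H_t := fun _ ht x ξ => hq_deriv (G := fun s => F.gx s x) (g_t h ht (hpc x) (mpc x))
      (gx_pos h ht.le x) ξ
    R_nonneg := fun _ ht => R_nonneg h b ht
    lap_psi := fun _ ht => lap_psi h ht
    y_ge := fun t ht x => by
      rw [y_eq b, ← trg_self (gx_pos h ht x)]
      exact trg_mono (gx_pos h ht x) (gx_le h b ht x)
    y_le := fun t ht x => by
      rw [y_eq b, exp_u h ht]
      exact trg_le (gx_pos h ht x) (gx_pos h le_rfl x) (gx_le h b ht x)
    H_pos := fun _ ht x _ h0 => hq_pos (gx_pos h ht x) h0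
    H_ge := fun _ ht x => hq_anti (gx_pos h ht x) (gx_pos h le_rfl x) (gx_le h b ht x)
    H_le := fun t ht x ξ => by
      rw [exp_u h ht]
      exact hq_le (gx_pos h ht x) (gx_pos h le_rfl x) (gx_le h b ht x) ξ
    psi_le := fun _ ht => psi_le h b ht
    psi_up := psi_up h }

end Vale.Agent.P253W.V
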