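import Vale.Agent.P253W.V.Defs2
import Vale.Agent.P253W.V.Bas2
import Vale.Agent.P253Z.BUS

/-!
# P253W, row V.ARF: `ψ_s - ψ_t` along holomorphic maps
-/

open scoped Manifold ContDiff Bundle ENNReal NNReal Topology ComplexConjugate ComplexOrder Matrix
open Bundle IsManifold MeasureTheory Set Metric Filter Vale.Agent.P253.Mfd Vale.Agent.P253Z
open Vale.Agent.P272.K (Cm dz dzb cHess jacM Chart)
open Vale.Agent.P253.R2.H451 (levi2)

set_option linter.unusedSectionVars false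

noncomputable section

namespace Vale.Agent.P253W.V

namespace Arf

variable {n : ℕ}

theorem qf_eq (A : Mx n) (v : Cm n) : qf A v = (∑ j, ∑ k, A j k * (v j * conj (v k))).re := by
  simp only [qf, dotProduct, Matrix.mulVec, Finset.mul_sum]
  exact congrArg _ (Finset.sum_congr rfl fun j _ => Finset.sum_congr rfl fun k _ => by
    rw [Pi.star_apply, Complex.star_def]; ring)

theorem qf_nonneg {A : Mx n} (h : A.PosSemidef) (v : Cm n) : 0 ≤ qf A v := by
  have := h.dotProduct_mulVec_nonneg (star v)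
  rw [star_star] at this
  exact (Complex.nonneg_iff.1 this).1

theorem qf_sub (A B : Mx n) (v : Cm n) : qf (A - B) v = qf A v - qf B v := by
  simp only [qf, Matrix.sub_mulVec, dotProduct_sub, Complex.sub_re]

/-- the inverse reverses the order -/
theorem qf_le_of_hq {g h : Mx n} (hg : g.PosDef) (hh : h.PosDef) {c : ℝ} (hc : 0 < c)
    (hl : ∀ ξ, c * hq g ξ ≤ hq h ξ) (v : Cm n) : qf h v ≤ c⁻¹ * qf g v := by
  have h1 : (((c⁻¹ : ℝ) : ℂ) • g).PosDef := hg.smul (by exact_mod_cast inv_pos.2 hc)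
  have h2 := Bas2.inv_anti h1.inv hh.inv (.of_dotProduct_mulVec_nonneg (hh.inv.1.sub h1.inv.1)
    fun ξ => Complex.nonneg_iff.2 ⟨?_,
      ((hh.inv.1.sub h1.inv.1).im_star_dotProduct_mulVec_self ξ).symm⟩)
  · rw [Matrix.nonsing_inv_nonsing_inv _ (Bas2.unit h1),
      Matrix.nonsing_inv_nonsing_inv _ (Bas2.unit hh)] at h2
    have h3 := qf_nonneg h2 v
    rw [qf_sub, qf, Matrix.smul_mulVec, dotProduct_smul, smul_eq_mul, Complex.re_ofReal_mul] at h3
    exact sub_nonneg.1 h3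
  · have h3 := Bas2.hq_smul hg (inv_pos.2 hc).ne' ξ
    rw [inv_inv] at h3
    rw [Matrix.sub_mulVec, dotProduct_sub, Complex.sub_re]
    exact sub_nonneg.2 (h3.trans_le (hl ξ))

variable {M : Type} [MetricSpace M] [ChartedSpace (Cm n) M] [IsManifold 𝓘(ℂ, Cm n) 1 M]
  {E : Type} [NormedAddCommGroup E] [NormedSpace ℂ E] [FiniteDimensional ℂ E]
  {O : Set E} {Φ : E → M} {e : Chart n M}

/-- a holomorphic map in a chart -/
theorem chart_sm (hO : IsOpen O) (hΦ : MDifferentiableOn 𝓘(ℂ, E) 𝓘(ℂ, Cm n) Φ O) (he : Hc e) :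
    IsOpen (O ∩ Φ ⁻¹' e.source) ∧ ContDiffOn ℂ ∞ (fun q => e (Φ q)) (O ∩ Φ ⁻¹' e.source) := by
  have h1 := hΦ.continuousOn.isOpen_inter_preimage hO e.open_source
  refine ⟨h1, contDiffOn_of_differentiableOn_complex h1 (mdifferentiableOn_iff_differentiableOn.1
    (((contMDiffOn_of_mem_maximalAtlas he).mdifferentiableOn (by simp)).comp
      (hΦ.mono inter_subset_left) inter_subset_right))⟩

/-- the Levi form of a smooth function along a holomorphic map -/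
theorem levi (hO : IsOpen O) (hΦ : MDifferentiableOn 𝓘(ℂ, E) 𝓘(ℂ, Cm n) Φ O) (he : Hc e)
    {a : M → ℝ} {q : E} (hq : q ∈ O) (hx : Φ q ∈ e.source)
    (ha : ContDiffAt ℝ 2 (fun y => a (e.symm y)) (e (Φ q))) :
    ContDiffAt ℝ 2 (fun q => a (Φ q)) q ∧ ∀ V, levi2 (fun q => a (Φ q)) q V =
      4 * qf (hs a e (e (Φ q))) (fderiv ℂ (fun q => e (Φ q)) q V) := by
  obtain ⟨h1, h2⟩ := chart_sm hO hΦ he
  have h0 := h1.mem_nhds (⟨hq, hx⟩ : q ∈ O ∩ Φ ⁻¹' e.source)
  have h3 : (fun q => a (Φ q)) =ᶠ[𝓝 q] (fun y => a (e.symm y)) ∘ fun q => e (Φ q) := by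
    filter_upwards [h0] with r hr
    rw [Function.comp, e.left_inv hr.2]
  refine ⟨(ha.comp q (((h2.restrict_scalars ℝ).contDiffAt h0).of_le Bu.two_le)).congr_of_eventuallyEq
    h3, fun V => ?_⟩
  have h4 := Bu.levi2_comp h1 h2 ⟨hq, hx⟩ ha V
  rw [levi2, h3.fderiv.fderiv_eq]
  refine h4.trans ?_
  rw [qf_eq, levi2, MC.levi ha,
    (((h2.contDiffAt h0).differentiableAt (by simp)).hasFDerivAt.restrictScalars ℝ).fderiv]
  rfl

variable [IsManifold 𝓘(ℝ, Cm n) ∞ M] [RiemannianBundle fun x : M => TangentSpace 𝓘(ℝ, Cm n) x]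
  {F : Flow n M}

theorem levi_ψ (hF : F.Is) (b : F.Bas1) (hO : IsOpen O)
    (hΦ : MDifferentiableOn 𝓘(ℂ, E) 𝓘(ℂ, Cm n) Φ O) (he : Hc e) {s t : ℝ} (hs : 0 ≤ s)
    (ht : 0 ≤ t) {q : E} (hq : q ∈ O) (hx : Φ q ∈ e.source) :
    ContDiffAt ℝ 2 (fun q => F.ψ s (Φ q) - F.ψ t (Φ q)) q ∧
      ∀ V, levi2 (fun q => F.ψ s (Φ q) - F.ψ t (Φ q)) q V =
        4 * qf (F.g t e (e (Φ q)) - F.g s e (e (Φ q))) (fderiv ℂ (fun q => e (Φ q)) q V) := by
  have h1 := (b.sm_at _ hF.sm s hs e he _ (e.map_source hx)).of_le Bu.two_le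
  have h2 := (b.sm_at _ hF.sm t ht e he _ (e.map_source hx)).of_le Bu.two_le
  have h3 := levi (a := fun x => F.ψ s x - F.ψ t x) hO hΦ he hq hx (h1.sub h2)
  refine ⟨h3.1, fun V => (h3.2 V).trans ?_⟩
  rw [Flow.g, Flow.g, sub_sub_sub_cancel_left, P253W.hs, P272.K.C2.cHess_sub h1 h2]
  rfl

variable {U : Set ℂ} {f : ℂ → M}

/-- the speed of a holomorphic curve in any chart -/
theorem nv_eq (a : B1a n M) (b : F.Bas1) (hU : IsOpen U) (hf : H1 n f U) (he : Hc e) {t : ℝ}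
    (ht : 0 ≤ t) {τ : ℂ} (hτ : τ ∈ U) (hx : f τ ∈ e.source) :
    F.nv t (f τ) (d1 n f τ) = qf (F.g t e (e (f τ))) (deriv (fun s => e (f s)) τ) := by
  have hp := mem_chart_source (Cm n) (f τ)
  obtain ⟨h1, h2⟩ := chart_sm hU hf (a.chart (f τ))
  have h0 := h1.mem_nhds (⟨hτ, hp⟩ : τ ∈ U ∩ f ⁻¹' (pc n (f τ)).source)
  have h3 : (fun s => e (f s)) =ᶠ[𝓝 τ]
      (fun y => e ((pc n (f τ)).symm y)) ∘ fun s => pc n (f τ) (f s) := by
    filter_upwards [h0] with r hr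
    rw [Function.comp, (pc n (f τ)).left_inv hr.2]
  have h4 := (a.hol _ e (a.chart (f τ)) he _ ((pc n (f τ)).map_source hp)
    (by rwa [(pc n (f τ)).left_inv hp])).differentiableAt.hasFDerivAt.comp_hasDerivAt τ
    ((h2.contDiffAt h0).differentiableAt (by simp)).hasDerivAt
  rw [h3.deriv_eq, h4.deriv, Flow.nv, Flow.gx, b.g_ch t ht _ e (a.chart _) he _ hp hx, qf_pb,
    a.jac_eq _ e (a.chart _) he _ hp hx, LinearMap.toMatrix'_mulVec]
  rfl

theorem nv_cont (a : B1a n M) (b : F.Bas1) (hU : IsOpen U) (hf : H1 n f U) {t : ℝ}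
    (ht : 0 ≤ t) : ContinuousOn (fun τ => F.nv t (f τ) (d1 n f τ)) U := fun τ hτ => by
  have hp := mem_chart_source (Cm n) (f τ)
  have he := a.chart (f τ)
  obtain ⟨h1, h2⟩ := chart_sm hU hf he
  have h0 := h1.mem_nhds (⟨hτ, hp⟩ : τ ∈ U ∩ f ⁻¹' (pc n (f τ)).source)
  have h3 : ContinuousAt (deriv fun s => pc n (f τ) (f s)) τ :=
    (h2.continuousOn_deriv_of_isOpen h1 (by simp)).continuousAt h0
  have h4 : ∀ j k, ContinuousAt (fun s => F.g t (pc n (f τ)) (pc n (f τ) (f s)) j k) τ :=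
    fun j k => (b.g_at t ht _ he _ ((pc n (f τ)).map_source hp) j k).continuousAt.comp
      (f := fun s => pc n (f τ) (f s)) (h2.continuousOn.continuousAt h0)
  have h5 : ContinuousAt (fun s => qf (F.g t (pc n (f τ)) (pc n (f τ) (f s)))
      (deriv (fun s => pc n (f τ) (f s)) s)) τ := by
    simp only [qf_eq]
    have h6 := fun j => (continuous_apply j).continuousAt.comp h3
    exact Complex.continuous_re.continuousAt.comp (tendsto_finsetSum _ fun j _ =>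
      tendsto_finsetSum _ fun k _ => (h4 j k).mul ((h6 j).mul (h6 k).star))
  refine (h5.congr ?_).continuousWithinAt
  filter_upwards [h0] with r hr using (nv_eq a b hU hf he ht hr.1 hr.2).symm

theorem nv_nonneg (a : B1a n M) (hF : F.Is) {t : ℝ} (ht : 0 ≤ t) (x : M) (v : Cm n) :
    0 ≤ F.nv t x v :=
  qf_nonneg (hF.pos t ht _ (a.chart x) _ ((pc n x).map_source (mem_chart_source _ x))).posSemidef v

theorem int_mul {χ w : ℂ → ℝ} (hχ : Tf U χ) (hw : ContinuousOn w U) :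
    Integrable fun τ => χ τ * w τ :=
  (integrableOn_iff_integrable_of_support_subset
    ((Function.support_mul_subset_left _ _).trans (subset_tsupport χ))).1
    ((hχ.1.continuous.continuousOn.mul (hw.mono hχ.2.2.2)).integrableOn_compact hχ.2.2.1)

theorem green (a : B1a n M) (hF : F.Is) (b : F.Bas1) (hG : GRN) (hU : IsOpen U) (hf : H1 n f U)
    {χ : ℂ → ℝ} (hχ : Tf U χ) {s t : ℝ} (hs : 0 ≤ s) (ht : 0 ≤ t) :
    Integrable (fun τ => (F.ψ s (f τ) - F.ψ t (f τ)) * Lp χ τ) ∧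
      ∫ τ, (F.ψ s (f τ) - F.ψ t (f τ)) * Lp χ τ =
        4 * (∫ τ, χ τ * F.nv t (f τ) (d1 n f τ)) - 4 * ∫ τ, χ τ * F.nv s (f τ) (d1 n f τ) := by
  have h1 := fun τ (hτ : τ ∈ U) =>
    levi_ψ hF b hU hf (a.chart (f τ)) hs ht hτ (mem_chart_source _ _)
  obtain ⟨h2, -, h3⟩ := hG.1 U _ χ hU (fun τ hτ => (h1 τ hτ).1.contDiffWithinAt) hχ
  refine ⟨h2, h3.trans ?_⟩
  rw [← mul_sub, ← integral_sub (int_mul hχ (nv_cont a b hU hf ht))
    (int_mul hχ (nv_cont a b hU hf hs)), ← integral_const_mul]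
  refine integral_congr_ae (Eventually.of_forall fun τ => ?_)
  by_cases hτ : τ ∈ U
  · have h4 : Lp (fun q => F.ψ s (f q) - F.ψ t (f q)) τ =
        4 * (F.nv t (f τ) (d1 n f τ) - F.nv s (f τ) (d1 n f τ)) := by
      rw [Lp, (h1 τ hτ).2, qf_sub]
      rfl
    simp only [h4]
    ring
  · simp only [image_eq_zero_of_notMem_tsupport fun h => hτ (hχ.2.2.2 h)]
    ring

end Arf

open Arf

/-- **Row ARF.** -/
theorem arf_row : ARF := by
  intro n M _ _ _ _ _ _ _ _ _ _ _ _ μ F _ hF hG b _ h3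
  have a : B1a n M := b1a
  refine ⟨fun O Φ s t hO hΦ ht hs => ⟨fun q hq => (levi_ψ hF b hO hΦ (a.chart (Φ q)) (ht.trans hs)
    ht hq (mem_chart_source _ _)).1.contDiffWithinAt, fun q hq V e he hx => ?_⟩,
    fun U f χ t hU hf hχ ht => ⟨nv_cont a b hU hf ht, fun s hs => ?_, fun B hB => ?_⟩⟩
  · rw [(levi_ψ hF b hO hΦ he (ht.trans hs) ht hq hx).2]
    have h1 := qf_nonneg (h3.g_anti t s ht hs e he _ (e.map_source hx)).1
      (fderiv ℂ (fun q => e (Φ q)) q V)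
    have h2 := qf_nonneg (hF.pos s (ht.trans hs) e he _ (e.map_source hx)).posSemidef
      (fderiv ℂ (fun q => e (Φ q)) q V)
    refine ⟨by linarith, ?_⟩
    rw [qf_sub]
    linarith
  · obtain ⟨h1, h2⟩ := green a hF b hG hU hf hχ (ht.trans hs) ht
    have h4 : 0 ≤ ∫ τ, χ τ * F.nv s (f τ) (d1 n f τ) :=
      integral_nonneg fun τ => mul_nonneg (hχ.2.1 τ) (nv_nonneg a hF (ht.trans hs) _ _)
    exact ⟨h1, by linarith⟩
  · obtain ⟨c, hc, hK⟩ := h3.decay _
      (hχ.2.2.1.isCompact.image_of_continuousOn (hf.continuousOn.mono hχ.2.2.2))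
    have h1 : Tendsto (fun s : ℝ => B + 4 * (s ^ (-c) * ∫ τ, χ τ * F.nv 0 (f τ) (d1 n f τ)))
        atTop (𝓝 (B + 4 * (0 * ∫ τ, χ τ * F.nv 0 (f τ) (d1 n f τ)))) :=
      (((tendsto_rpow_neg_atTop hc).mul_const _).const_mul 4).const_add B
    rw [zero_mul, mul_zero, add_zero] at h1
    refine ge_of_tendsto h1 ?_
    filter_upwards [eventually_ge_atTop t, eventually_ge_atTop 1] with s hs hs1
    have h2 := (green a hF b hG hU hf hχ (ht.trans hs) ht).2
    have h4 : ∫ τ, χ τ * F.nv s (f τ) (d1 n f τ) ≤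
        s ^ (-c) * ∫ τ, χ τ * F.nv 0 (f τ) (d1 n f τ) := by
      rw [← integral_const_mul]
      refine integral_mono (int_mul hχ (nv_cont a b hU hf (ht.trans hs)))
        ((int_mul hχ (nv_cont a b hU hf le_rfl)).const_mul _) fun τ => ?_
      by_cases hτ : τ ∈ tsupport χ
      · have hp := (pc n (f τ)).map_source (mem_chart_source _ (f τ))
        have h5 := qf_le_of_hq (hF.pos 0 le_rfl _ (a.chart _) _ hp)
          (hF.pos s (ht.trans hs) _ (a.chart _) _ hp) (Real.rpow_pos_of_pos (by linarith) c)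
          (hK s hs1 _ (mem_image_of_mem f hτ)) (d1 n f τ)
        rw [← Real.rpow_neg (by linarith)] at h5
        exact (mul_le_mul_of_nonneg_left h5 (hχ.2.1 τ)).trans_eq (mul_left_comm _ _ _)
      · simp only [image_eq_zero_of_notMem_tsupport hτ, zero_mul, mul_zero, le_refl]
    linarith [hB s hs]

end Vale.Agent.P253W.V
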