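import Vale.Agent.P253W.V.Defs2
import Vale.Agent.P253W.V.Geo
import Vale.Agent.P253Z.B1a.Sec

/-!
# P253W, block V, row ULI: uniform local inverses
-/

open scoped Manifold ContDiff Bundle ENNReal Topology
open Bundle IsManifold MeasureTheory Set Metric Filter Vale.Agent.P253Z
open Vale.Agent.P272.K (Cm Chart)
open Vale.Agent.P210.R2.H53 (chartG contDiffOn_chartG)

set_option maxSynthPendingDepth 3

noncomputable section

namespace Vale.Agent.P253W.V

namespace UliA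

variable {n : ℕ} {M : Type} [MetricSpace M] [ChartedSpace (Cm n) M] [IsManifold 𝓘(ℂ, Cm n) 1 M]

/-- holomorphic functions with independent differentials are a chart -/
theorem chart_of {z : Fin n → M → ℂ} (hz : ∀ i, IsSec n 0 (z i)) {x : M}
    (hd : (Matrix.of fun i => da n (z i) x).det ≠ 0) :
    ∃ e : Chart n M, Hc e ∧ x ∈ e.source ∧ ∀ y ∈ e.source, e y = fun i => z i y := by
  have he := B1aP.chart (n := n) x
  have hx := mem_chart_source (Cm n) x
  have e0 : ∀ f : Cm n → Cm n, ∀ y, (LinearMap.toMatrix' (fderiv ℂ f y : Cm n →ₗ[ℂ] Cm n)).det =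
    (fderiv ℂ f y).det := fun f y => LinearMap.det_toMatrix' _
  unfold da pc at hd
  set e := chartAt (Cm n) x
  set f : Cm n → Cm n := fun y i => z i (e.symm y) with hf0
  have an : ∀ y ∈ e.target, AnalyticAt ℂ f y := fun y hy =>
    analyticAt_pi_iff.2 fun i => by
      have := hz i e he y hy
      rwa [B1aP.co_zero] at this
  have d0 : (fderiv ℂ f (e x)).det ≠ 0 := by
    rw [← e0]
    convert hd using 2
    ext p i
    exact (B1aP.dz_comp (an _ (e.map_source hx)).differentiableAt p i).symm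
  have hf : ∀ y ∈ e.target, ∀ h : (fderiv ℂ f y).det ≠ 0, HasFDerivAt f
      ((ContinuousLinearMap.toContinuousLinearEquivOfDetNeZero _ h : Cm n ≃L[ℂ] Cm n) :
        Cm n →L[ℂ] Cm n) y := fun y hy h => by
    rw [ContinuousLinearMap.coe_toContinuousLinearEquivOfDetNeZero]
    exact (an y hy).differentiableAt.hasFDerivAt
  have oW : IsOpen {y ∈ e.target | (fderiv ℂ f y).det ≠ 0} :=
    isOpen_iff_mem_nhds.2 fun y hy => inter_mem (e.open_target.mem_nhds hy.1) (by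
      simp only [← e0] at hy ⊢
      exact (B1aP.analyticAt_det (an y hy.1)).continuousAt.eventually_ne hy.2)
  have c1 : ContDiffAt ℂ 1 f (e x) := (an _ (e.map_source hx)).contDiffAt
  set k := (c1.toOpenPartialHomeomorph _ (hf _ (e.map_source hx) d0) one_ne_zero).restrOpen _ oW
  have k1 : ContDiffOn ℂ 1 k k.source := fun y hy => (an y hy.2.1).contDiffAt.contDiffWithinAt
  have k2 : ContDiffOn ℂ 1 k.symm k.target := fun y hy =>
    (k.contDiffAt_symm hy (hf _ (k.map_target hy).2.1 (k.map_target hy).2.2)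
      (an _ (k.map_target hy).2.1).contDiffAt).contDiffWithinAt
  refine ⟨e ≫ₕ k, OpenPartialHomeomorph.mem_maximalAtlas_of_contMDiffOn _ ?_ ?_,
    ⟨hx, c1.mem_toOpenPartialHomeomorph_source _ _, e.map_source hx, d0⟩,
    fun y hy => congrArg (fun p i => z i p) (e.left_inv hy.1)⟩
  · exact k1.contMDiffOn.comp ((contMDiffOn_of_mem_maximalAtlas he).mono inter_subset_left)
      inter_subset_right
  · exact (contMDiffOn_symm_of_mem_maximalAtlas he).comp (k2.contMDiffOn.mono inter_subset_left)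
      inter_subset_right

omit [ChartedSpace (Cm n) M] [IsManifold 𝓘(ℂ, Cm n) 1 M] in
/-- uniform openness -/
theorem unif_open {Z : M → Cm n} {K : Set M} (hK : IsCompact K)
    (h : ∀ x ∈ K, ∃ e : Chart n M, x ∈ e.source ∧ ∀ y ∈ e.source, e y = Z y) {δ : ℝ}
    (hδ : 0 < δ) : ∃ ε : ℝ, 0 < ε ∧ ∀ x ∈ K, ∀ w ∈ ball (Z x) ε, ∃ y ∈ ball x δ, Z y = w := by
  refine hK.induction_on (p := fun S => ∃ ε : ℝ, 0 < ε ∧ ∀ x ∈ S, ∀ w ∈ ball (Z x) ε,
    ∃ y ∈ ball x δ, Z y = w) ⟨1, one_pos, by simp⟩ ?_ ?_ ?_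
  · rintro s t hst ⟨ε, h1, h2⟩
    exact ⟨ε, h1, fun x hx => h2 x (hst hx)⟩
  · rintro s t ⟨ε, h1, h2⟩ ⟨ε', h1', h2'⟩
    refine ⟨min ε ε', lt_min h1 h1', ?_⟩
    rintro x (hx | hx) w hw
    · exact h2 x hx w (ball_subset_ball (min_le_left _ _) hw)
    · exact h2' x hx w (ball_subset_ball (min_le_right _ _) hw)
  · intro x₀ hx₀
    obtain ⟨e, he, hZ⟩ := h x₀ hx₀
    have h1 : e '' (ball x₀ (δ / 2) ∩ e.source) ∈ 𝓝 (e x₀) :=
      e.image_mem_nhds he (inter_mem (ball_mem_nhds _ (half_pos hδ)) (e.open_source.mem_nhds he))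
    obtain ⟨ε, hε, h2⟩ := Metric.mem_nhds_iff.1 h1
    have h3 : ∀ᶠ x in 𝓝 x₀, e x ∈ ball (e x₀) (ε / 2) :=
      (e.continuousAt he).eventually (ball_mem_nhds _ (half_pos hε))
    refine ⟨_, mem_nhdsWithin_of_mem_nhds (h3.and ((e.open_source.eventually_mem he).and
      (ball_mem_nhds x₀ (half_pos hδ)))), ε / 2, half_pos hε, fun x hx w hw => ?_⟩
    obtain ⟨h4, h5, h6⟩ := hx
    rw [← hZ x h5] at hw
    have h7 : w ∈ ball (e x₀) ε := by
      rw [mem_ball] at hw h4 ⊢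
      linarith [dist_triangle w (e x) (e x₀)]
    obtain ⟨y, hy, rfl⟩ := h2 h7
    refine ⟨y, ?_, (hZ y hy.2).symm⟩
    have h8 : dist y x₀ < δ / 2 := hy.1
    have h9 : dist x x₀ < δ / 2 := h6
    rw [mem_ball]
    linarith [dist_triangle_right y x x₀]

variable [IsManifold 𝓘(ℝ, Cm n) ∞ M] [RiemannianBundle fun x : M => TangentSpace 𝓘(ℝ, Cm n) x]
  [IsContMDiffRiemannianBundle 𝓘(ℝ, Cm n) ∞ (Cm n) fun x : M => TangentSpace 𝓘(ℝ, Cm n) x]

/-- uniform charts -/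
theorem unif_chart {Z : M → Cm n} {K : Set M} (hK : IsCompact K)
    (h : ∀ x ∈ K, ∃ e : Chart n M, Hc e ∧ x ∈ e.source ∧ ∀ y ∈ e.source, e y = Z y) :
    ∃ δ C : ℝ, 0 < δ ∧ ∀ x ∈ K, ∃ e : Chart n M, Hc e ∧ ball x δ ⊆ e.source ∧
      (∀ y ∈ e.source, e y = Z y) ∧ ∀ y ∈ ball x δ, ‖chartG e (e y)‖ ≤ C := by
  refine hK.induction_on (p := fun S => ∃ δ C : ℝ, 0 < δ ∧ ∀ x ∈ S, ∃ e : Chart n M, Hc e ∧
    ball x δ ⊆ e.source ∧ (∀ y ∈ e.source, e y = Z y) ∧ ∀ y ∈ ball x δ, ‖chartG e (e y)‖ ≤ C)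
    ⟨1, 0, one_pos, by simp⟩ ?_ ?_ ?_
  · rintro s t hst ⟨δ, C, h1, h2⟩
    exact ⟨δ, C, h1, fun x hx => h2 x (hst hx)⟩
  · rintro s t ⟨δ, C, h1, h2⟩ ⟨δ', C', h1', h2'⟩
    refine ⟨min δ δ', max C C', lt_min h1 h1', ?_⟩
    rintro x (hx | hx)
    · obtain ⟨e, a1, a2, a3, a4⟩ := h2 x hx
      have hs := ball_subset_ball (x := x) (min_le_left δ δ')
      exact ⟨e, a1, hs.trans a2, a3, fun y hy => (a4 y (hs hy)).trans (le_max_left _ _)⟩
    · obtain ⟨e, a1, a2, a3, a4⟩ := h2' x hx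
      have hs := ball_subset_ball (x := x) (min_le_right δ δ')
      exact ⟨e, a1, hs.trans a2, a3, fun y hy => (a4 y (hs hy)).trans (le_max_right _ _)⟩
  · intro x₀ hx₀
    obtain ⟨e, he, hx, hZ⟩ := h x₀ hx₀
    have h1 : ContinuousAt (fun y => ‖chartG e (e y)‖) x₀ :=
      (((contDiffOn_chartG (Vale.Agent.P253.Mfd.mem_maximalAtlas_real he)).continuousOn.continuousAt
        (e.open_target.mem_nhds (e.map_source hx))).comp (e.continuousAt hx)).norm
    have h2 : ∀ᶠ y in 𝓝 x₀, ‖chartG e (e y)‖ < ‖chartG e (e x₀)‖ + 1 :=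
      h1.eventually_lt continuousAt_const (lt_add_one _)
    obtain ⟨r, hr, h3⟩ := Metric.mem_nhds_iff.1 (h2.and (e.open_source.eventually_mem hx))
    refine ⟨_, mem_nhdsWithin_of_mem_nhds (ball_mem_nhds x₀ (half_pos hr)), r / 2,
      ‖chartG e (e x₀)‖ + 1, half_pos hr, fun x hx' => ?_⟩
    have h4 : ball x (r / 2) ⊆ ball x₀ r := ball_subset_ball' (by linarith [mem_ball.1 hx'])
    exact ⟨e, he, fun y hy => (h3 (h4 hy)).2, hZ, fun y hy => (h3 (h4 hy)).1.le⟩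

end UliA

/-- **ULI** -/
theorem uli_row : ULI := by
  classical
  intro n M _ _ _ _ _ _ _ _ _ _ _ _ μ F c _ z K hz hK hj
  have h0 : ∀ x ∈ K, ∃ e : Chart n M, Hc e ∧ x ∈ e.source ∧ ∀ y ∈ e.source, e y = fun i => z i y :=
    fun x hx => UliA.chart_of hz fun h => hj x hx (by rw [Flow.jc, h, zero_div])
  obtain ⟨δ, C, hδ, h1⟩ := UliA.unif_chart hK h0
  obtain ⟨ε, hε, h2⟩ := UliA.unif_open (Z := fun y i => z i y) hK
    (fun x hx => (h0 x hx).imp fun e he => he.2) (δ := δ / 4) (by positivity)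
  set ι : M → Cm n → M := fun x w =>
    if h : ∃ y ∈ ball x (δ / 2), (fun i => z i y) = w then h.choose else x with hι
  have key : ∀ (e : Chart n M) (x y : M), ball x (δ / 2) ⊆ e.source →
      (∀ y ∈ e.source, e y = fun i => z i y) → y ∈ ball x (δ / 2) → ι x (fun i => z i y) = y := by
    intro e x y a2 a3 hy
    have h : ∃ y' ∈ ball x (δ / 2), (fun i => z i y') = fun i => z i y := ⟨y, hy, rfl⟩
    simp only [hι, dif_pos h]
    refine e.injOn (a2 h.choose_spec.1) (a2 hy) ?_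
    rw [a3 _ (a2 h.choose_spec.1), a3 _ (a2 hy)]
    exact h.choose_spec.2
  refine ⟨δ / 2, ε, C, ι, half_pos hδ, hε, fun x hx => ?_⟩
  obtain ⟨e, he, a2, a3, a4⟩ := h1 x hx
  refine ⟨fun y hy => key e x y ((ball_subset_ball (by linarith)).trans a2) a3 hy, fun w hw => ?_⟩
  obtain ⟨y, hy, rfl⟩ := h2 x hx w hw
  have hy' : y ∈ ball x δ := ball_subset_ball (by linarith) hy
  rw [← a3 y (a2 hy')]
  have ht := e.map_source (a2 hy')
  refine ⟨e, he, ht, fun v => ?_, mem_nhdsWithin_of_mem_nhds ?_⟩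
  · rw [GeoA.qf_hm c.kahler he ht]
    calc chartG e (e y) v v ≤ ‖chartG e (e y) v v‖ := Real.le_norm_self _
      _ ≤ ‖chartG e (e y)‖ * ‖v‖ * ‖v‖ := ContinuousLinearMap.le_opNorm₂ _ _ _
      _ ≤ C * ‖v‖ * ‖v‖ := by gcongr; exact a4 y hy'
      _ = C * ‖v‖ ^ 2 := by ring
  · have b1 : ∀ᶠ w in 𝓝 (e y), e.symm w ∈ ball x (δ / 4) :=
      (e.continuousAt_symm ht).eventually (by
        rw [e.left_inv (a2 hy')]; exact isOpen_ball.mem_nhds hy)
    have b2 : ∀ᶠ p in 𝓝 x, p ∈ ball x (δ / 4) := ball_mem_nhds x (by positivity)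
    filter_upwards [b2.prod_nhds (b1.and (e.open_target.eventually_mem ht))] with p hp
    obtain ⟨p1, p2, p3⟩ := hp
    rw [mem_ball] at p1 p2
    have b3 := key e p.1 (e.symm p.2) ((ball_subset_ball' (by linarith)).trans a2) a3
      (by rw [mem_ball]; linarith [dist_triangle_right (e.symm p.2) p.1 x])
    rwa [← a3 _ (e.map_target p3), e.right_inv p3] at b3

end Vale.Agent.P253W.V
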