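import Vale.Agent.P253W.V.Asm

/-!
# P253W, block V, row LFP: pull-back of the flow by local biholomorphisms
-/

open scoped Manifold ContDiff Bundle ENNReal NNReal Topology ComplexConjugate ComplexOrder Matrix
open Bundle IsManifold MeasureTheory Set Metric Filter Vale.Agent.P253.Mfd Vale.Agent.P253Z
open Vale.Agent.P272.K (Cm dz dzb cHess jacM Chart)
open Vale.Agent.P272.K.C2

noncomputable section

namespace Vale.Agent.P253W.V

namespace LfpA

variable {n : ℕ}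

theorem rho_ev {W W' : Cm n → Mx n} {z : Cm n} (h : W =ᶠ[𝓝 z] W') : rho W =ᶠ[𝓝 z] rho W' :=
  cHess_eventuallyEq (h.mono fun y hy => by simp only [hy])

theorem DX_congr {W W' : Cm n → Mx n} {z : Cm n} (h : W =ᶠ[𝓝 z] W') (X : Cm n) :
    DX X W z = DX X W' z := by
  simp only [DX, DM_congr h]

/-- `LF` is a local property -/
theorem lf_loc {U : Set (Cm n)} {W : ℝ → Cm n → Mx n} (hU : IsOpen U)
    (h : ∀ z ∈ U, ∃ V W', LF V W' ∧ z ∈ V ∧ ∀ t, 0 < t → ∀ y ∈ V, W t y = W' t y) : LF U W := by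
  have k : ∀ z ∈ U, ∃ V W', LF V W' ∧ z ∈ V ∧ (∀ t, 0 < t → ∀ y ∈ V, W t y = W' t y) ∧
      ∀ t, 0 < t → W t =ᶠ[𝓝 z] W' t := fun z hz => by
    obtain ⟨V, W', l, hV, e⟩ := h z hz
    exact ⟨V, W', l, hV, e, fun t ht => mem_of_superset (l.op.mem_nhds hV) (e t ht)⟩
  refine ⟨hU, fun j i q hq => ?_, fun t ht z hz => ?_, fun t ht z hz j i l => ?_,
    fun t ht z hz j i => ?_, fun t ht z hz X c => ?_⟩
  · obtain ⟨V, W', l, hV, e, -⟩ := k q.2 hq.2
    have nb := (isOpen_Ioi.prod l.op).mem_nhds (show q ∈ Ioi 0 ×ˢ V from ⟨hq.1, hV⟩)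
    exact (((l.sm j i).contDiffAt nb).congr_of_eventuallyEq (mem_of_superset nb fun p hp =>
      congrFun₂ (e p.1 hp.1 p.2 hp.2) j i)).contDiffWithinAt
  · obtain ⟨V, W', l, hV, e, -⟩ := k z hz
    rw [e t ht z hV]
    exact l.pos t ht z hV
  · obtain ⟨V, W', l', hV, -, e⟩ := k z hz
    rw [dz_congr l ((e t ht).mono fun y hy => congrFun₂ hy j i),
      dz_congr j ((e t ht).mono fun y hy => congrFun₂ hy l i)]
    exact l'.cl t ht z hV j i l
  · obtain ⟨V, W', l, hV, e, e'⟩ := k z hz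
    rw [(rho_ev (e' t ht)).eq_of_nhds]
    exact (l.eq t ht z hV j i).congr_of_eventuallyEq
      (mem_of_superset (Ioi_mem_nhds ht) fun s hs => congrFun₂ (e s hs z hV) j i)
  · obtain ⟨V, W', l, hV, -, e⟩ := k z hz
    have r := rho_ev (e t ht)
    have d : ∀ j i, deriv (fun s => rho (W s) z j i) t = deriv (fun s => rho (W' s) z j i) t :=
      fun j i => EventuallyEq.deriv_eq (mem_of_superset (Ioi_mem_nhds ht) fun s hs =>
        congrFun₂ (rho_ev (e s hs)).eq_of_nhds j i)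
    have := l.mh t ht z hV X c
    simp only [Kxx, Kxt, Ktt, RM_congr (e t ht), DX_congr r, DX_congr (e t ht), r.eq_of_nhds,
      (e t ht).eq_of_nhds, d] at this ⊢
    exact this

variable {M : Type} [MetricSpace M] [ChartedSpace (Cm n) M] [IsManifold 𝓘(ℂ, Cm n) 1 M]

/-- the local inverse is a chart -/
theorem chart_of {U : Set (Cm n)} {Φ : Cm n → M} (hU : IsOpen U)
    (hΦ : MDifferentiableOn 𝓘(ℂ, Cm n) 𝓘(ℂ, Cm n) Φ U) {z : Cm n} (hz : z ∈ U)
    (hd : (jm Φ z).det ≠ 0) :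
    ∃ e : Chart n M, Hc e ∧ z ∈ e.target ∧ ∀ y ∈ e.target, e.symm y = Φ y := by
  have he := B1aP.chart (n := n) (Φ z)
  have hx := mem_chart_source (Cm n) (Φ z)
  have e0 : ∀ f : Cm n → Cm n, ∀ y, (LinearMap.toMatrix' (fderiv ℂ f y : Cm n →ₗ[ℂ] Cm n)).det =
    (fderiv ℂ f y).det := fun f y => LinearMap.det_toMatrix' _
  set e := chartAt (Cm n) (Φ z)
  have oV : IsOpen (U ∩ Φ ⁻¹' e.source) := hΦ.continuousOn.isOpen_inter_preimage hU e.open_source
  have an : ∀ y ∈ U ∩ Φ ⁻¹' e.source, AnalyticAt ℂ (fun y => e (Φ y)) y := fun y hy =>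
    P268.analyticAt_of_differentiableOn oV (mdifferentiableOn_iff_differentiableOn.1
      (((contMDiffOn_of_mem_maximalAtlas he).mdifferentiableOn one_ne_zero).comp
        (hΦ.mono inter_subset_left) inter_subset_right)) hy
  have d0 : (fderiv ℂ (fun y => e (Φ y)) z).det ≠ 0 := by
    rw [← e0]
    convert hd using 2
    ext p i
    exact (B1aP.dz_comp (an z ⟨hz, hx⟩).differentiableAt p i).symm
  have hf : ∀ y ∈ U ∩ Φ ⁻¹' e.source, ∀ h : (fderiv ℂ (fun y => e (Φ y)) y).det ≠ 0,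
      HasFDerivAt (fun y => e (Φ y))
        ((ContinuousLinearMap.toContinuousLinearEquivOfDetNeZero _ h : Cm n ≃L[ℂ] Cm n) :
          Cm n →L[ℂ] Cm n) y := fun y hy h => by
    rw [ContinuousLinearMap.coe_toContinuousLinearEquivOfDetNeZero]
    exact (an y hy).differentiableAt.hasFDerivAt
  have oW : IsOpen {y ∈ U ∩ Φ ⁻¹' e.source | (fderiv ℂ (fun y => e (Φ y)) y).det ≠ 0} :=
    isOpen_iff_mem_nhds.2 fun y hy => inter_mem (oV.mem_nhds hy.1) (by
      simp only [← e0] at hy ⊢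
      exact (B1aP.analyticAt_det (an y hy.1)).continuousAt.eventually_ne hy.2)
  have c1 : ContDiffAt ℂ 1 (fun y => e (Φ y)) z := (an z ⟨hz, hx⟩).contDiffAt
  set k := (c1.toOpenPartialHomeomorph _ (hf z ⟨hz, hx⟩ d0) one_ne_zero).restrOpen _ oW
  have k1 : ContDiffOn ℂ 1 k k.source := fun y hy => (an y hy.2.1).contDiffAt.contDiffWithinAt
  have k2 : ContDiffOn ℂ 1 k.symm k.target := fun y hy =>
    (k.contDiffAt_symm hy (hf _ (k.map_target hy).2.1 (k.map_target hy).2.2)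
      (an _ (k.map_target hy).2.1).contDiffAt).contDiffWithinAt
  refine ⟨e ≫ₕ k.symm, OpenPartialHomeomorph.mem_maximalAtlas_of_contMDiffOn _ ?_ ?_,
    ⟨⟨c1.mem_toOpenPartialHomeomorph_source _ _, ⟨hz, hx⟩, d0⟩, e.map_source hx⟩,
    fun y hy => e.left_inv hy.1.2.1.2⟩
  · exact k2.contMDiffOn.comp ((contMDiffOn_of_mem_maximalAtlas he).mono inter_subset_left)
      inter_subset_right
  · exact (contMDiffOn_symm_of_mem_maximalAtlas he).comp (k1.contMDiffOn.mono inter_subset_left)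
      inter_subset_right

end LfpA

open LfpA in
theorem lfp_row : LFP := by
  intro n M _ _ _ _ _ _ _ _ _ _ _ _ μ F _ _ h1 h2 lf U Φ hU hΦ hd
  have key : ∀ z ∈ U, ∃ e : Chart n M, Hc e ∧ z ∈ e.target ∧ ∀ y ∈ e.target, e.symm y = Φ y ∧
      jm Φ y = jacM e (pc n (Φ y)) (Φ y) ∧ ∀ t, 0 ≤ t → F.pull Φ t y = F.g t e y := fun z hz => by
    obtain ⟨e, he, hze, h⟩ := chart_of hU hΦ hz (hd z hz)
    refine ⟨e, he, hze, fun y hy => ?_⟩
    have e1 : e (Φ y) = y := by rw [← h y hy, e.right_inv hy]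
    have e2 : jm Φ y = jacM e (pc n (Φ y)) (Φ y) := by
      ext p i
      rw [jacM, e1]
      exact dz_congr i (mem_of_superset (e.open_target.mem_nhds hy) fun w hw =>
        congrArg (fun x => pc n (Φ y) x p) (h w hw).symm)
    refine ⟨h y hy, e2, fun t ht => ?_⟩
    rw [Flow.pull, e2, Flow.gx, ← h1.g_ch t ht e _ he (B1aP.chart _) _ (h y hy ▸ e.map_target hy)
      (mem_chart_source _ _), e1]
  refine ⟨lf_loc hU fun z hz => ?_, fun t ht z hz => ?_⟩
  · obtain ⟨e, he, hze, h⟩ := key z hz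
    exact ⟨_, _, lf e he, hze, fun t ht y hy => (h y hy).2.2 t ht.le⟩
  obtain ⟨e, he, hze, h⟩ := key z hz
  obtain ⟨e1, e2, e3⟩ := h z hze
  have su := h1.sm_at _ h1.u_sm t ht.le
  have r : rho (F.pull Φ t) z = hs (F.u t) e z := by
    rw [h2.u_hs t ht.le e he z hze]
    exact (rho_ev (W' := F.g t e) (mem_of_superset (e.open_target.mem_nhds hze) fun y hy =>
      (h y hy).2.2 t ht.le)).eq_of_nhds
  rw [r, e3 t ht.le, e2, ← h1.lap_eq t ht.le _ e he z hze ((su e he z hze).of_le (by norm_cast)),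
    e1, Flow.ρx, ← h1.hs_ch _ e _ he (B1aP.chart _) _ (e1 ▸ e.map_target hze)
      (mem_chart_source _ _) ((su _ (B1aP.chart _) _ (mem_chart_target _ _)).of_le (by norm_cast)),
    ← e1, e.right_inv hze]
  exact ⟨rfl, rfl⟩

end Vale.Agent.P253W.V
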