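import Vale.Agent.P253W.V.Defs
import Vale.Agent.P253W.V.Alg
import Vale.Agent.P253Z.BUS
import Vale.Agent.P253Z.B2
import Vale.Agent.P253Z.B1a
import Vale.Agent.P253Z.B1b
import Vale.Agent.P253.R2.H618.Exh1

/-!
# P253W, block V, row G0: `log H_0` has the sub-mean value property along discs
-/

open scoped Manifold ContDiff Bundle ENNReal NNReal Topology ComplexConjugate ComplexOrder Matrix
open Bundle IsManifold MeasureTheory Set Metric Filter Vale.Agent.P253.Mfd Vale.Agent.P253Z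
open Vale.Agent.P272.K (Cm dz dzb cHess jacM Chart)
open Vale.Agent.P272.K.C2 (DM RM MC)
open Vale.Agent.P253.R2.H451 (levi2)
open Complex (I)

noncomputable section

namespace Vale.Agent.P253W.V

namespace G0a

/-- functions of class `C²` with nonnegative Laplacian -/
theorem sub_of_levi {u : ℂ → ℝ} {c : ℂ} {R : ℝ} (hR : 0 < R)
    (hu : ContinuousOn u (closedBall c R))
    (h : ∀ z ∈ ball c R, ContDiffAt ℝ 2 u z ∧ 0 ≤ levi2 u z 1) :
    u c ≤ Real.circleAverage u c R := by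
  refine P253.R2.H618.four_submean hR hu fun z₀ hz η hη => ?_
  have h3 := (P253.R2.H618.four_taylor isOpen_ball
    (fun z hz => (h z hz).1.contDiffWithinAt) hz (1 : ℂ) isSmall_zero).def hη
  filter_upwards [h3] with t ht
  rw [Real.norm_of_nonneg (show 0 ≤ t ^ 2 by positivity)] at ht
  have h4 := (abs_le.1 (by rwa [Real.norm_eq_abs] at ht)).1
  have h5 := mul_nonneg (sq_nonneg t) (h z₀ hz).2
  unfold levi2 at h5
  simp only [add_zero, smul_eq_mul, mul_one] at h4 h5 ⊢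
  linarith

/-- the Levi form of a logarithm -/
theorem levi_log {E : Type*} [NormedAddCommGroup E] [NormedSpace ℂ E] {f : E → ℝ} {p : E}
    (hf : ContDiffAt ℝ 2 f p) (h0 : 0 < f p) (V : E) :
    levi2 (fun q => Real.log (f q)) p V = levi2 f p V / f p -
      (fderiv ℝ f p V ^ 2 + fderiv ℝ f p (I • V) ^ 2) / f p ^ 2 := by
  have h1 : fderiv ℝ (fun q => Real.log (f q)) =ᶠ[𝓝 p] fun y => (f y)⁻¹ • fderiv ℝ f y := by
    filter_upwards [hf.eventually (by simp), hf.continuousAt.eventually (lt_mem_nhds h0)]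
      with y h1 h2
    exact ((h1.differentiableAt (by simp)).hasFDerivAt.log h2.ne').fderiv
  have h2 := (hf.differentiableAt (by simp)).hasFDerivAt
  have h3 := ((hf.fderiv_right (m := 1) le_rfl).differentiableAt (by simp)).hasFDerivAt
  have h4 : ∀ k, fderiv ℝ (fderiv ℝ fun q => Real.log (f q)) p k k =
      fderiv ℝ (fderiv ℝ f) p k k / f p - fderiv ℝ f p k ^ 2 / f p ^ 2 := fun k => by
    have h5 := ((hasDerivAt_inv h0.ne').comp_hasFDerivAt p h2).smul h3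
    rw [h1.fderiv_eq.trans h5.fderiv]
    simp only [ContinuousLinearMap.add_apply, ContinuousLinearMap.smul_apply,
      ContinuousLinearMap.smulRight_apply, smul_eq_mul, Function.comp_apply]
    field_simp
    ring
  rw [levi2, levi2, h4, h4]
  ring

variable {n : ℕ}

/-- Cauchy-Schwarz -/
theorem cs {A : Mx n} (hA : A.PosSemidef) (ξ β : Cm n) {s : ℝ} (hs : 0 < s)
    (h : (star ξ ⬝ᵥ (A *ᵥ ξ)).re ≤ s) :
    (star ξ ⬝ᵥ (A *ᵥ β)).re ^ 2 + (star ξ ⬝ᵥ (A *ᵥ β)).im ^ 2 ≤ s * (star β ⬝ᵥ (A *ᵥ β)).re := by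
  set p := star ξ ⬝ᵥ (A *ᵥ β) with hp
  have h1 : star β ⬝ᵥ (A *ᵥ ξ) = conj p := by
    rw [hp, ← Complex.star_def, ← Matrix.star_dotProduct_star, star_star, Matrix.star_mulVec,
      hA.isHermitian.eq, ← Matrix.dotProduct_mulVec]
  have h2 := (Complex.nonneg_iff.1 (hA.dotProduct_mulVec_nonneg (β - (p / s) • ξ))).1
  have h3 := hA.isHermitian.im_star_dotProduct_mulVec_self ξ
  rw [star_sub, star_smul, Matrix.mulVec_sub, Matrix.mulVec_smul, sub_dotProduct, dotProduct_sub,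
    dotProduct_sub, smul_dotProduct, smul_dotProduct, dotProduct_smul, dotProduct_smul, h1,
    ← hp] at h2
  set Q := star ξ ⬝ᵥ (A *ᵥ ξ)
  have h3' : Q.im = 0 := h3
  simp only [smul_eq_mul, Complex.sub_re, Complex.mul_re, Complex.star_def, map_div₀,
    Complex.conj_ofReal, Complex.div_ofReal_re, Complex.div_ofReal_im, Complex.conj_re,
    Complex.conj_im, Complex.mul_im, h3'] at h2
  have h4 : 0 ≤ s ^ 2 * (star β ⬝ᵥ (A *ᵥ β)).re - 2 * s * (p.re ^ 2 + p.im ^ 2) +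
      (p.re ^ 2 + p.im ^ 2) * Q.re := by
    refine (mul_nonneg (sq_nonneg s) h2).trans_eq ?_
    field_simp
    ring
  have h5 := mul_le_mul_of_nonneg_left h (show 0 ≤ p.re ^ 2 + p.im ^ 2 by positivity)
  refine le_of_mul_le_mul_left ?_ hs
  nlinarith

/-- `log (|ξ|²_W + η)` is plurisubharmonic for nonnegative curvature -/
theorem levi_nonneg (hHQ : HQ) {W : Cm n → Mx n} {z : Cm n} (hW : MC 2 W z)
    (hp : ∀ᶠ y in 𝓝 z, (W y).PosDef) (hb : ∀ X a, 0 ≤ bk W z X a) (ξ : Cm n) {η : ℝ} (hη : 0 < η)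
    (V : Cm n × Cm n) :
    ContDiffAt ℝ 2 (fun q : Cm n × Cm n => Real.log (hq (W q.1) q.2 + η)) (z, ξ) ∧
      0 ≤ levi2 (fun q : Cm n × Cm n => Real.log (hq (W q.1) q.2 + η)) (z, ξ) V := by
  obtain ⟨X, β⟩ := V
  obtain ⟨h1, h2, h3⟩ := hHQ n n W z X ξ β hW hp
  have h4 := (hHQ n n W z (I • X) ξ (I • β) hW hp).2.1
  have hA := hp.self_of_nhds.inv.posSemidef
  have h0 : 0 ≤ hq (W z) ξ := (Complex.nonneg_iff.1 (hA.dotProduct_mulVec_nonneg ξ)).1
  have hs : 0 < hq (W z) ξ + η := by linarith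
  have h5 : ContDiffAt ℝ 2 (fun q : Cm n × Cm n => hq (W q.1) q.2 + η) (z, ξ) :=
    h1.add contDiffAt_const
  refine ⟨h5.log hs.ne', ?_⟩
  have e1 : fderiv ℝ (fun q : Cm n × Cm n => hq (W q.1) q.2 + η) =
      fderiv ℝ fun q : Cm n × Cm n => hq (W q.1) q.2 := funext fun _ => fderiv_add_const _
  have e2 : levi2 (fun q : Cm n × Cm n => hq (W q.1) q.2 + η) (z, ξ) (X, β) =
      levi2 (fun q : Cm n × Cm n => hq (W q.1) q.2) (z, ξ) (X, β) := by
    rw [levi2, levi2, e1]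
  set β' := β - (∑ k, X k • DM k W z) *ᵥ ((W z)⁻¹ *ᵥ ξ) with hβ'
  have e3 : I • β - (∑ k, (I • X) k • DM k W z) *ᵥ ((W z)⁻¹ *ᵥ ξ) = I • β' := by
    rw [hβ', smul_sub, ← Matrix.smul_mulVec, Finset.smul_sum]
    simp only [Pi.smul_apply, smul_eq_mul, smul_smul]
  rw [e3, Matrix.mulVec_smul, dotProduct_smul, smul_eq_mul, Complex.mul_re, Complex.I_re,
    Complex.I_im] at h4
  have h6 := hb X (star ((W z)⁻¹ *ᵥ ξ))
  rw [bk, qf, star_star, Kxx] at h6
  have h7 := cs hA ξ β' hs (le_add_of_nonneg_right hη.le)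
  rw [levi_log h5 hs, e1, e2, h3, h2, Prod.smul_mk, h4, sub_nonneg, div_le_div_iff₀ (by positivity) hs]
  change _ ≤ 4 * (_ + (star β' ⬝ᵥ ((W z)⁻¹ *ᵥ β')).re) * (hq (W z) ξ + η) ^ 2
  change _ * (hq (W z) ξ + η) ≤ _
  have h8 := mul_nonneg h6 (sq_nonneg (hq (W z) ξ + η))
  have h9 := mul_le_mul_of_nonneg_right h7 hs.le
  nlinarith

variable {M : Type} [MetricSpace M] [ChartedSpace (Cm n) M] [IsManifold 𝓘(ℂ, Cm n) 1 M]
  [IsManifold 𝓘(ℝ, Cm n) ∞ M] [RiemannianBundle fun x : M => TangentSpace 𝓘(ℝ, Cm n) x]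
  [IsContMDiffRiemannianBundle 𝓘(ℝ, Cm n) ∞ (Cm n) fun x : M => TangentSpace 𝓘(ℝ, Cm n) x]

theorem bk_nonneg (hK : IsKahler (Cm n) M) (hp : ∀ x : M, PosBisectionalAt (Cm n) x)
    (b : B1b n M) {e : Chart n M} (he : Hc e) {z : Cm n} (hz : z ∈ e.target) (X a : Cm n) :
    0 ≤ bk (hm e) z X a := by
  have hU : ∀ᶠ y in 𝓝 z, y ∈ e.target := e.open_target.mem_nhds hz
  by_cases hX : X = 0
  · simp [bk, qf, Kxx, hX]
  by_cases ha : a = 0
  · simp [bk, qf, ha]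
  have h1 := B2A.rm_eq (localKahler_chartG hK he) hz
    (fun j k => (b.wsm e he z hz j k).of_le B2A.two_le) (hU.mono fun y hy => b.wpos e he y hy)
    (hU.mono fun y hy => b.quad e he y hy) b.levi X a
  exact (Rc_pos_chartG hK he hz (hp _) X a hX ha).le.trans_eq h1.symm

variable {F : Flow n M} {S : ℝ}

omit [IsManifold 𝓘(ℝ, Cm n) ∞ M]
  [IsContMDiffRiemannianBundle 𝓘(ℝ, Cm n) ∞ (Cm n) fun x : M => TangentSpace 𝓘(ℝ, Cm n) x] in
/-- `H` is continuous along a disc -/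
theorem H_cont (hI : F.Is) (b : F.Bas1) (D : Disc n M S) {t : ℂ → ℝ}
    (ht : ContinuousOn t (closedBall 0 1)) (h0 : ∀ τ, 0 ≤ t τ) :
    ContinuousOn (fun τ => F.H (t τ) (D.f τ) (D.ξ τ)) (closedBall 0 1) := by
  intro τ₀ hτ₀
  set e := pc n (D.f τ₀)
  have he : Hc e := chart_mem_maximalAtlas _
  have hs : D.f τ₀ ∈ e.source := mem_chart_source _ _
  have h1 : ContDiffOn ℝ 0 (fun q : (ℝ × Cm n) × Cm n => hq (F.g q.1.1 e q.1.2) q.2)
      ((Ici 0 ×ˢ e.target) ×ˢ univ) :=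
    Alg.sm_hq (A := fun q : (ℝ × Cm n) × Cm n => F.g q.1.1 e q.1.2) (ξ := fun q => q.2)
      (fun i j => ((b.g_sm e he i j).of_le (by simp)).comp contDiffOn_fst fun q hq => hq.1)
      (fun q hq => (hI.pos _ hq.1.1 e he _ hq.1.2).det_pos.ne')
      fun i => (contDiff_apply ℝ ℂ i).comp_contDiffOn contDiffOn_snd
  have h2 : ContinuousOn (fun τ => ((t τ, e (D.f τ)), cv e (D.f τ) (D.ξ τ)))
      (closedBall 0 1 ∩ D.f ⁻¹' e.source) :=
    ((ht.mono inter_subset_left).prodMk (e.continuousOn.comp (D.cf.mono inter_subset_left)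
      fun τ hτ => hτ.2)).prodMk (D.cξ e he)
  have h3 := h1.continuousOn.comp h2 fun τ hτ => ⟨⟨h0 τ, e.map_source hτ.2⟩, mem_univ _⟩
  have h4 : closedBall 0 1 ∩ D.f ⁻¹' e.source ∈ 𝓝[closedBall 0 1] τ₀ :=
    inter_mem self_mem_nhdsWithin (D.cf τ₀ hτ₀ (e.open_source.mem_nhds hs))
  exact ((h3.congr fun τ hτ => b.H_eq _ (h0 τ) e he _ hτ.2 _) τ₀ ⟨hτ₀, hs⟩).mono_of_mem_nhdsWithin h4

theorem log_sub (hK : IsKahler (Cm n) M) (hp : ∀ x : M, PosBisectionalAt (Cm n) x)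
    (bb : B1b n M) (hHQ : HQ) (b : F.Bas1) (D : Disc n M S) {η : ℝ} (hη : 0 < η) {τ₀ : ℂ}
    (hτ₀ : τ₀ ∈ ball (0 : ℂ) 1) :
    ContDiffAt ℝ 2 (fun τ => Real.log (F.H 0 (D.f τ) (D.ξ τ) + η)) τ₀ ∧
      0 ≤ levi2 (fun τ => Real.log (F.H 0 (D.f τ) (D.ξ τ) + η)) τ₀ 1 := by
  set e := pc n (D.f τ₀)
  have he : Hc e := chart_mem_maximalAtlas _
  have hs : D.f τ₀ ∈ e.source := mem_chart_source _ _
  have hV : IsOpen (ball (0 : ℂ) 1 ∩ D.f ⁻¹' e.source) :=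
    (D.cf.mono ball_subset_closedBall).isOpen_inter_preimage isOpen_ball e.open_source
  have h1 : DifferentiableOn ℂ (fun τ => e (D.f τ)) (ball (0 : ℂ) 1 ∩ D.f ⁻¹' e.source) :=
    (((contMDiffOn_of_mem_maximalAtlas he).mdifferentiableOn one_ne_zero).comp
      (D.hf.mono inter_subset_left) fun τ hτ => hτ.2).differentiableOn
  have hT : ContDiffOn ℂ ∞ (fun τ => (e (D.f τ), cv e (D.f τ) (D.ξ τ)))
      (ball (0 : ℂ) 1 ∩ D.f ⁻¹' e.source) := (h1.prodMk (D.hξ e he)).contDiffOn hV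
  have hz := e.map_source hs
  have hN := levi_nonneg hHQ (W := hm e) (fun j k => (bb.wsm e he _ hz j k).of_le B2A.two_le)
    (mem_of_superset (e.open_target.mem_nhds hz) fun y hy => bb.wpos e he y hy)
    (bk_nonneg hK hp bb he hz) (cv e (D.f τ₀) (D.ξ τ₀)) hη
  have hE : (fun τ => Real.log (F.H 0 (D.f τ) (D.ξ τ) + η)) =ᶠ[𝓝 τ₀]
      (fun q : Cm n × Cm n => Real.log (hq (hm e q.1) q.2 + η)) ∘
        fun τ => (e (D.f τ), cv e (D.f τ) (D.ξ τ)) := by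
    filter_upwards [hV.mem_nhds ⟨hτ₀, hs⟩] with τ hτ
    rw [b.H_eq 0 le_rfl e he _ hτ.2, b.g_zero]
    rfl
  refine ⟨ContDiffAt.congr_of_eventuallyEq (ContDiffAt.comp τ₀ (hN 0).1
    (((hT.restrict_scalars ℝ).contDiffAt (hV.mem_nhds ⟨hτ₀, hs⟩)).of_le B2A.two_le)) hE, ?_⟩
  have h2 := Bu.levi2_comp hV hT ⟨hτ₀, hs⟩ (hN 0).1 1
  have h3 := (hE.fderiv (𝕜 := ℝ)).fderiv_eq (𝕜 := ℝ)
  rw [levi2, h3]
  exact (hN _).2.trans_eq h2.symm

end G0a

open G0a in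
theorem g0_row : G0 := by
  intro n M _ _ _ _ _ _ _ _ _ _ _ _ μ F c hI hHQ b1 b2 S D h0
  have bb : B1b n M := b1b c.kahler b1a
  have hc0 := H_cont hI b1 D (t := fun _ => 0) continuousOn_const fun _ => le_rfl
  have hζ : ContinuousOn D.ζ (closedBall 0 1) := by
    have := D.hζ.continuousOn
    rwa [closure_ball _ one_ne_zero] at this
  have hc1 := (H_cont hI b1 D (t := fun τ => Real.exp (2 * (D.ζ τ).re))
    (Real.continuous_exp.comp_continuousOn (continuousOn_const.mul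
      (Complex.continuous_re.comp_continuousOn hζ))) fun _ => (Real.exp_pos _).le).mono
    sphere_subset_closedBall
  have hn : ∀ x ξ, 0 ≤ F.H 0 x ξ := fun x ξ => by
    by_cases h : ξ = 0
    · simp [Flow.H, hq, h]
    · exact (b2.H_pos 0 le_rfl x ξ h).le
  obtain ⟨τ₁, hτ₁, hm⟩ := (isCompact_sphere (0 : ℂ) 1).exists_isMinOn
    (NormedSpace.sphere_nonempty.2 zero_le_one) hc1
  set m := F.H (Real.exp (2 * (D.ζ τ₁).re)) (D.f τ₁) (D.ξ τ₁)
  have hm0 : 0 < m := b2.H_pos _ (Real.exp_pos _).le _ _ (D.ne τ₁ hτ₁)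
  have hpos : ∀ τ ∈ sphere (0 : ℂ) 1, 0 < F.H (Real.exp (2 * (D.ζ τ).re)) (D.f τ) (D.ξ τ) :=
    fun τ hτ => hm0.trans_le (hm hτ)
  refine le_of_forall_pos_le_add fun ε hε => ?_
  have hη : 0 < ε * m := mul_pos hε hm0
  have hc2 : ContinuousOn (fun τ => Real.log (F.H 0 (D.f τ) (D.ξ τ) + ε * m)) (closedBall 0 1) :=
    (hc0.add continuousOn_const).log fun τ _ => (add_pos_of_nonneg_of_pos (hn _ _) hη).ne'
  have h1 := sub_of_levi one_pos hc2 fun τ hτ => log_sub c.kahler c.pos bb hHQ b1 D hη hτ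
  have i1 := (hc1.log fun τ hτ => (hpos τ hτ).ne').circleIntegrable zero_le_one
  have h2 : Real.circleAverage (fun τ => Real.log (F.H 0 (D.f τ) (D.ξ τ) + ε * m)) 0 1 ≤
      Real.circleAverage (fun τ =>
        Real.log (F.H (Real.exp (2 * (D.ζ τ).re)) (D.f τ) (D.ξ τ)) + ε) 0 1 := by
    refine Real.circleAverage_mono ((hc2.mono sphere_subset_closedBall).circleIntegrable zero_le_one)
      (i1.add (circleIntegrable_const _ _ _)) fun τ hτ => ?_
    rw [abs_one] at hτ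
    have a1 := b2.H_ge _ (Real.exp_pos (2 * (D.ζ τ).re)).le (D.f τ) (D.ξ τ)
    have a2 : m ≤ _ := hm hτ
    have a3 := hpos τ hτ
    rw [Real.log_le_iff_le_exp (add_pos_of_nonneg_of_pos (hn _ _) hη), Real.exp_add,
      Real.exp_log a3]
    have a4 := mul_le_mul_of_nonneg_left (Real.add_one_le_exp ε) a3.le
    nlinarith
  rw [Real.circleAverage_fun_add i1 (circleIntegrable_const _ _ _), Real.circleAverage_const] at h2
  exact (Real.log_le_log (b2.H_pos 0 le_rfl _ _ h0) (le_add_of_nonneg_right hη.le)).trans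
    (h1.trans h2)

end Vale.Agent.P253W.V
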