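import Vale.Agent.P253W.V.Defs
import Vale.Agent.P253Z.BUS
import Vale.Agent.P253Z.B1b.Lin

/-!
# P253W, row V.HQ: derivatives of the norm of a covector (helper24)
-/

set_option linter.all false

open scoped ContDiff Topology ComplexConjugate ComplexOrder Matrix
open Set Filter Complex
open Vale.Agent.P272.K (Cm dz dzb cHess)
open Vale.Agent.P272.K.C2
open Vale.Agent.P253.R2.H451 (levi2)

noncomputable section

namespace Vale.Agent.P253W.V

namespace Hq

/-- complex lines -/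
def ln {E : Type*} [AddCommGroup E] [Module ℂ E] (q v : E) (τ : Cm 1) : E := q + τ 0 • v

section line

variable {E : Type*} [NormedAddCommGroup E] [NormedSpace ℂ E] (q v : E)

@[simp] theorem ln_zero : ln q v 0 = q := by simp [ln]

theorem ln_sm : ContDiff ℂ ∞ (ln q v) := by unfold ln; fun_prop

theorem ln_smR (m : ℕ) : ContDiff ℝ m (ln q v) :=
  ((ln_sm q v).restrict_scalars ℝ).of_le (by exact_mod_cast le_top)

theorem ln_fd (τ u : Cm 1) : fderiv ℝ (ln q v) τ u = u 0 • v := by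
  have := ((((ContinuousLinearMap.proj (R := ℂ) (φ := fun _ : Fin 1 => ℂ) 0).smulRight
    v).restrictScalars ℝ).hasFDerivAt (x := τ)).const_add q
  exact congrArg (fun T : Cm 1 →L[ℝ] E => T u) this.fderiv

theorem fd_ln {F : Type*} [NormedAddCommGroup F] [NormedSpace ℝ F] {f : E → F} {τ : Cm 1}
    (hf : DifferentiableAt ℝ f (ln q v τ)) (u : Cm 1) :
    fderiv ℝ (fun τ => f (ln q v τ)) τ u = fderiv ℝ f (ln q v τ) (u 0 • v) := by
  rw [← ln_fd q v τ u]
  exact congrArg (fun T : Cm 1 →L[ℝ] F => T u)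
    (fderiv_comp τ hf ((ln_smR q v 1).differentiable (by simp) τ))

end line

variable {m n : ℕ} {z X : Cm m} {τ : Cm 1} {f : Cm m → ℂ} {ι κ : Type*}

theorem dz_ln (hf : DifferentiableAt ℝ f (ln z X τ)) :
    dz 0 (fun τ => f (ln z X τ)) τ = ∑ k, X k * dz k f (ln z X τ) := by
  rw [dz, fd_ln _ _ hf, fd_ln _ _ hf, P272.K.fderiv_eq, P272.K.fderiv_eq, Finset.mul_sum,
    ← Finset.sum_sub_distrib, Finset.sum_div]
  refine Finset.sum_congr rfl fun k _ => ?_
  simp only [Pi.single_eq_same, Pi.smul_apply, smul_eq_mul, one_mul, map_mul, conj_I]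
  linear_combination (dzb k f (ln z X τ) * conj (X k) - dz k f (ln z X τ) * X k) / 2 * I_mul_I

theorem dzb_ln (hf : DifferentiableAt ℝ f (ln z X τ)) :
    dzb 0 (fun τ => f (ln z X τ)) τ = ∑ k, conj (X k) * dzb k f (ln z X τ) := by
  rw [dzb, fd_ln _ _ hf, fd_ln _ _ hf, P272.K.fderiv_eq, P272.K.fderiv_eq, Finset.mul_sum,
    ← Finset.sum_add_distrib, Finset.sum_div]
  refine Finset.sum_congr rfl fun k _ => ?_
  simp only [Pi.single_eq_same, Pi.smul_apply, smul_eq_mul, one_mul, map_mul, conj_I]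
  linear_combination (dz k f (ln z X τ) * X k - dzb k f (ln z X τ) * conj (X k)) / 2 * I_mul_I

theorem dd_ln (hf : ContDiffAt ℝ 2 f z) : dz 0 (dzb 0 fun τ => f (ln z X τ)) 0 =
    ∑ l, ∑ k, X k * conj (X l) * dz k (dzb l f) z := by
  have e : (dzb 0 fun τ => f (ln z X τ)) =ᶠ[𝓝 0]
      fun τ => (fun y => ∑ l, conj (X l) * dzb l f y) (ln z X τ) := by
    have c : Tendsto (ln z X) (𝓝 0) (𝓝 z) := by
      simpa using (ln_smR z X 0).continuous.tendsto 0
    filter_upwards [c.eventually (eventually_contDiffAt (m := 2) hf)] with y hy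
    exact dzb_ln (hy.differentiableAt (by simp))
  have d := fun l => (differentiableAt_dzb l hf).const_mul (conj (X l))
  rw [dz_congr 0 e, dz_ln (f := fun y => ∑ l, conj (X l) * dzb l f y)
    (by simpa using DifferentiableAt.fun_sum fun l _ => d l), ln_zero, Finset.sum_comm]
  refine Finset.sum_congr rfl fun k _ => ?_
  rw [dz_sum k _ fun l _ => d l, Finset.mul_sum]
  exact Finset.sum_congr rfl fun l _ => by
    rw [dz_const_mul k _ (differentiableAt_dzb l hf), mul_assoc]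

variable {W : Cm m → Matrix ι κ ℂ}

theorem MC_ln {r : ℕ} (h : MC r W (ln z X τ)) : MC r (fun τ => W (ln z X τ)) τ :=
  fun i j => (h i j).comp τ (ln_smR z X r).contDiffAt

theorem DM_ln (h : MD W (ln z X τ)) :
    DM 0 (fun τ => W (ln z X τ)) τ = ∑ k, X k • DM k W (ln z X τ) := by
  ext i j
  simpa [Matrix.sum_apply] using dz_ln (h i j)

theorem DMb_ln (h : MD W (ln z X τ)) :
    DMb 0 (fun τ => W (ln z X τ)) τ = ∑ k, conj (X k) • DMb k W (ln z X τ) := by
  ext i j
  simpa [Matrix.sum_apply] using dzb_ln (h i j)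

/-- the curvature of the restriction to a complex line -/
theorem RM_ln {W : Cm m → Mx n} (h : MC 2 W z) : RM 0 0 (fun τ => W (ln z X τ)) 0 =
    ∑ l, ∑ k, (X k * conj (X l)) • RM k l W z := by
  have d : MD W (ln z X 0) := by simpa using h.md (by simp)
  have e : D2 0 0 (fun τ => W (ln z X τ)) 0 = ∑ l, ∑ k, (X k * conj (X l)) • D2 k l W z := by
    ext i j
    simpa [Matrix.sum_apply] using dd_ln (h i j)
  rw [RM, e, DM_ln d, DMb_ln d, ln_zero]
  simp only [RM, smul_add, Finset.sum_add_distrib, smul_neg, Finset.sum_neg_distrib,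
    Matrix.sum_mul, Matrix.mul_sum, Matrix.smul_mul, Matrix.mul_smul, Finset.smul_sum, smul_smul,
    mul_comm (conj (X _))]

section core

variable {W : Cm m → Mx n} {C : Cm m → Matrix (Fin n) κ ℂ} {B : Matrix (Fin n) κ ℂ} {k : Fin m}

theorem one (hW : MC 1 W z) (h0 : (W z).det ≠ 0) (hC : MC 1 C z) (h2 : DMb k C z = 0) :
    DM k (fun y => (C y)ᴴ * (W y)⁻¹ * C y) z =
      (C z)ᴴ * (W z)⁻¹ * (DM k C z - DM k W z * (W z)⁻¹ * C z) := by
  have o : (1 : WithTop ℕ∞) ≠ 0 := by simp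
  rw [DM_mul ((hC.conjTranspose.mul (hW.inv h0)).md o) (hC.md o),
    DM_mul (hC.conjTranspose.md o) ((hW.inv h0).md o), DM_conjTranspose (hC.md o), h2, DM_inv hW h0]
  simp only [Matrix.conjTranspose_zero, Matrix.zero_mul, zero_add, Matrix.mul_neg, Matrix.neg_mul,
    Matrix.mul_sub, Matrix.mul_assoc]
  abel

theorem two [Finite κ] (hW : MC 2 W z) (hH : ∀ᶠ y in 𝓝 z, (W y).IsHermitian) (h0 : (W z).det ≠ 0)
    (hC : ∀ y, MC 1 C y) (h1 : ∀ y, DM k C y = B) (h2 : ∀ y, DMb k C y = 0) :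
    DM k (DMb k fun y => (C y)ᴴ * (W y)⁻¹ * C y) z =
      ((W z)⁻¹ * C z)ᴴ * RM k k W z * ((W z)⁻¹ * C z) +
        (B - DM k W z * (W z)⁻¹ * C z)ᴴ * (W z)⁻¹ * (B - DM k W z * (W z)⁻¹ * C z) := by
  have o : (1 : WithTop ℕ∞) ≠ 0 := by simp
  have e : (DMb k fun y => (C y)ᴴ * (W y)⁻¹ * C y) =ᶠ[𝓝 z] fun y =>
      Bᴴ * (W y)⁻¹ * C y - (C y)ᴴ * (W y)⁻¹ * DMb k W y * (W y)⁻¹ * C y := by
    filter_upwards [MC.eventually (q := 1) (hW.mono (by norm_num)),
      det_ne_zero_eventually (hW.mono (by norm_num)) h0] with y a b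
    rw [DMb_mul (((hC y).conjTranspose.mul (a.inv b)).md o) ((hC y).md o),
      DMb_mul ((hC y).conjTranspose.md o) ((a.inv b).md o), DMb_conjTranspose ((hC y).md o), h1, h2,
      DMb_inv a b]
    simp only [Matrix.mul_zero, add_zero, Matrix.mul_neg, Matrix.neg_mul, Matrix.add_mul,
      Matrix.mul_assoc, sub_eq_add_neg]
  have w : MC 1 W z := hW.mono (by norm_num)
  have p := w.inv h0
  have b : MC 1 (fun _ : Cm m => Bᴴ) z := fun _ _ => contDiffAt_const
  have c := (hC z).conjTranspose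
  have d : MC 1 (DMb k W) z := hW.DMb (by norm_num)
  rw [DM_congr e, DM_sub (((b.mul p).mul (hC z)).md o) (((((c.mul p).mul d).mul p).mul (hC z)).md o),
    DM_mul ((b.mul p).md o) ((hC z).md o), DM_mul (b.md o) (p.md o),
    DM_mul ((((c.mul p).mul d).mul p).md o) ((hC z).md o), DM_mul (((c.mul p).mul d).md o) (p.md o),
    DM_mul ((c.mul p).md o) (d.md o), DM_mul (c.md o) (p.md o), DM_conjTranspose ((hC z).md o), h1,
    h2, DM_const, DM_inv w h0, RM]
  simp only [Matrix.conjTranspose_sub, Matrix.conjTranspose_mul, Matrix.conjTranspose_nonsing_inv,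
    hH.self_of_nhds.eq, ← DMb_of_isHermitian (w.md o) hH, Matrix.conjTranspose_zero,
    Matrix.zero_mul, zero_add, Matrix.mul_neg, Matrix.neg_mul, Matrix.mul_sub, Matrix.sub_mul,
    Matrix.mul_add, Matrix.add_mul, Matrix.mul_assoc]
  abel

end core

/-- column matrices -/
abbrev col (a : Cm n) : Matrix (Fin n) Unit ℂ := Matrix.replicateCol Unit a

theorem col_mul (A : Mx n) (a b : Cm n) : ((col a)ᴴ * A * col b) () () = star a ⬝ᵥ (A *ᵥ b) := by
  rw [Matrix.mul_assoc, ← Matrix.replicateCol_mulVec]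
  rfl

theorem col_sub (A P : Mx n) (a b : Cm n) : col b - A * P * col a = col (b - A *ᵥ (P *ᵥ a)) := by
  rw [Matrix.mul_assoc, ← Matrix.replicateCol_mulVec, ← Matrix.replicateCol_mulVec]
  rfl

variable {ξ β : Cm n}

theorem col_MC (τ : Cm 1) : MC 1 (fun τ => col (ln ξ β τ)) τ := fun i _ =>
  ((contDiff_apply ℝ ℂ i).comp (ln_smR ξ β 1)).contDiffAt

theorem col_fd (i : Fin n) (τ u : Cm 1) : fderiv ℝ (fun τ => ln ξ β τ i) τ u = u 0 * β i := by
  rw [fd_ln ξ β (f := fun y => y i) (by fun_prop), (hasFDerivAt_apply i _).fderiv]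
  rfl

theorem col_DM (τ : Cm 1) : DM 0 (fun τ => col (ln ξ β τ)) τ = col β := by
  ext i j
  simp only [DM_apply, dz, Matrix.replicateCol_apply, col_fd, Pi.single_eq_same]
  linear_combination -β i / 2 * I_mul_I

theorem col_DMb (τ : Cm 1) : DMb 0 (fun τ => col (ln ξ β τ)) τ = 0 := by
  ext i j
  simp only [DMb_apply, dzb, Matrix.replicateCol_apply, col_fd, Pi.single_eq_same,
    Matrix.zero_apply]
  linear_combination β i / 2 * I_mul_I

theorem hq_coe {A : Mx n} (h : A.IsHermitian) (a : Cm n) :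
    (hq A a : ℂ) = ((col a)ᴴ * A⁻¹ * col a) () () := by
  rw [col_mul]
  exact Complex.ext rfl (P253Z.MC.dot_im h.inv a).symm

theorem hq_sm {W : Cm m → Mx n} {r : WithTop ℕ∞} (hW : MC r W z) (h0 : (W z).det ≠ 0) :
    ContDiffAt ℝ r (fun q : Cm m × Cm n => hq (W q.1) q.2) (z, ξ) := by
  have a : ∀ i, ContDiffAt ℝ r (fun q : Cm m × Cm n => q.2 i) (z, ξ) := fun i =>
    ((contDiff_apply ℝ ℂ i).comp contDiff_snd).contDiffAt
  simp only [hq, Matrix.mulVec, dotProduct]
  refine reCLM.contDiff.contDiffAt.comp (z, ξ) (ContDiffAt.sum fun i _ => ContDiffAt.mul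
    ((conjCLE : ℂ →L[ℝ] ℂ).contDiff.contDiffAt.comp _ (a i)) (ContDiffAt.sum fun j _ => ?_))
  exact (ContDiffAt.comp (z, ξ) (g := fun y => (W y)⁻¹ i j) (hW.inv h0 i j) contDiffAt_fst).mul (a j)

end Hq

open Hq in
theorem hq_row : HQ := by
  intro m n W z X ξ β hW hP
  have h0 := posDef_det_ne_zero hP.self_of_nhds
  have s := hq_sm (ξ := ξ) hW h0
  have s' : ContDiffAt ℝ 2 (fun q : Cm m × Cm n => hq (W q.1) q.2) (ln (z, ξ) (X, β) 0) := by
    rwa [ln_zero]
  have c : Tendsto (ln z X) (𝓝 0) (𝓝 z) := by simpa using (ln_smR z X 0).continuous.tendsto 0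
  have hH : ∀ᶠ τ in 𝓝 0, (W (ln z X τ)).IsHermitian := (c.eventually hP).mono fun _ h => h.1
  have w : MC 2 (fun τ => W (ln z X τ)) 0 := MC_ln (r := 2) (by simpa using hW)
  have h1 : (W (ln z X 0)).det ≠ 0 := by rwa [ln_zero]
  have d : DM 0 (fun τ => W (ln z X τ)) 0 = ∑ k, X k • DM k W z := by
    rw [DM_ln (by simpa using hW.md (by simp)), ln_zero]
  set u : Cm 1 → ℝ := fun τ => hq (W (ln z X τ)) (ln ξ β τ) with hu
  have su : ContDiffAt ℝ 2 u 0 := s'.comp 0 (ln_smR (z, ξ) (X, β) 2).contDiffAt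
  have e : (fun τ => (u τ : ℂ)) =ᶠ[𝓝 0]
      fun τ => ((col (ln ξ β τ))ᴴ * (W (ln z X τ))⁻¹ * col (ln ξ β τ)) () () :=
    hH.mono fun τ h => hq_coe h _
  refine ⟨s, ?_, ?_⟩
  · have du := su.differentiableAt (by simp)
    have a := fd_ln (z, ξ) (X, β) (s'.differentiableAt (by simp)) (Pi.single 0 1)
    rw [ln_zero, Pi.single_eq_same, one_smul] at a
    have b := congrFun₂ (one (k := 0) (w.mono (by norm_num)) h1 (col_MC (ξ := ξ) (β := β) 0)
      (col_DMb 0)) () ()
    rw [DM_apply, ← dz_congr 0 e, d, col_DM, col_sub, ln_zero, ln_zero, col_mul] at b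
    have f := P272.K.fderiv_eq (fun τ => (u τ : ℂ)) 0 (Pi.single 0 1)
    have g : fderiv ℝ (fun τ => (u τ : ℂ)) 0 (Pi.single 0 1) = fderiv ℝ u 0 (Pi.single 0 1) :=
      congrArg (fun T : Cm 1 →L[ℝ] ℂ => T _) (ofRealCLM.hasFDerivAt.comp 0 du.hasFDerivAt).fderiv
    rw [g, Fin.sum_univ_one, dzb_real 0 du, b] at f
    refine a.symm.trans ?_
    have := congrArg re f
    rw [ofReal_re, Pi.single_eq_same, show P272.K.cj 1 = 1 from map_one conj, mul_one, mul_one,
      add_re, conj_re, ← two_mul] at this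
    exact this
  · have a := P253Z.Bu.levi2_comp isOpen_univ (ln_sm (z, ξ) (X, β)).contDiffOn (mem_univ 0) s'
      (Pi.single 0 1)
    rw [ln_fd, ln_zero, Pi.single_eq_same, one_smul] at a
    have b := congrFun₂ (two (k := 0) w hH h1 (col_MC (ξ := ξ) (β := β)) col_DM col_DMb) () ()
    rw [RM_ln hW, d, col_sub, ln_zero, ln_zero, Matrix.add_apply, col_mul,
      ← Matrix.replicateCol_mulVec, col_mul] at b
    rw [← a]
    refine (P253Z.MC.levi su _).trans ?_
    rw [Fin.sum_univ_one, Fin.sum_univ_one, Pi.single_eq_same, map_one, mul_one, mul_one,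
      cHess_apply, dz_congr 0 (dzb_eventuallyEq 0 e)]
    exact congrArg (fun x : ℂ => 4 * x.re) b

end Vale.Agent.P253W.V
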