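import Vale.Agent.P253W.V.Defs
import Vale.Agent.P253Z.B1a
import Vale.Agent.P253Z.B1b
import Vale.Agent.P253Z.B2
import Vale.Agent.P253Z.B3
import Vale.Agent.P253Z.BG
import Vale.Agent.P253Z.EXH
import Vale.Agent.P253Z.RB
import Vale.Agent.P253Z.HOR
import Vale.Agent.P253Z.HJ
import Vale.Agent.P253Z.MV
import Vale.Agent.P253Z.SCH
import Vale.Agent.P253Z.TC

/-!
# P253W, row V.LIB: the library for nonnegative bisectional curvature
-/

open scoped Manifold ContDiff Bundle ENNReal NNReal Topology ComplexConjugate ComplexOrder Matrix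
open Bundle IsManifold MeasureTheory Set Metric Filter Vale.Agent.P253.Mfd Vale.Agent.P253Z
open Vale.Agent.P272.K (Cm dz dzb cHess jacM Chart)

set_option linter.unusedSectionVars false

noncomputable section

namespace Vale.Agent.P253W.V

namespace Lib

section bg

open Vale.Agent.P210.R2

theorem ric_nonneg {E : Type} [NormedAddCommGroup E] [NormedSpace ℝ E] [FiniteDimensional ℝ E]
    {G : E → E →L[ℝ] E →L[ℝ] ℝ} {U : Set E} {z : E} (h : H53.LocalRiem G U) (hz : z ∈ U)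
    (J : E ≃ₗ[ℝ] E) (hI : ∀ v w, G z (J v) (J w) = G z v w)
    (hp : ∀ u v, 0 ≤ H53.secG G z u v + H53.secG G z u (J v)) (v : E) :
    0 ≤ H973.ric G z v := by
  obtain ⟨b, hb⟩ := H973.exists_onb (G z) (h.symm z hz) (h.pos z hz)
  have hb' : H973.ONB (G z) (b.map J) := fun i j => (hI _ _).trans (hb i j)
  have h1 := H973.ric_eq hb v
  have h2 := H973.ric_eq hb' v
  have h3 : 0 ≤ ∑ i, (H53.secG G z (b i) v + H53.secG G z (b.map J i) v) := by
    refine Finset.sum_nonneg fun i _ => ?_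
    rw [H329.secG_symm h hz (b i), H329.secG_symm h hz (b.map J i)]
    exact hp v (b i)
  rw [Finset.sum_add_distrib, h1, h2] at h3
  linarith

variable {n : ℕ} {M : Type} [MetricSpace M] [ChartedSpace (Cm n) M]
  [IsManifold 𝓘(ℂ, Cm n) 1 M] [IsManifold 𝓘(ℝ, Cm n) ∞ M]
  [RiemannianBundle (fun x : M => TangentSpace 𝓘(ℝ, Cm n) x)]
  [IsContMDiffRiemannianBundle 𝓘(ℝ, Cm n) ∞ (Cm n) (fun x : M => TangentSpace 𝓘(ℝ, Cm n) x)]

theorem ricGE (hK : IsKahler (Cm n) M) (hp : ∀ x : M, NonnegBisectionalAt (Cm n) x) {K : ℝ}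
    (hK0 : 0 ≤ K) : H53.RicGE (Cm n) M (-K) := by
  intro e he z hz
  have hΓ : H53.IsChristoffel e z fun u v => H53.chris (H53.chartG e) z u v := fun u v w => by
    rw [H53.fderiv_chartMetric he hz, H53.fderiv_chartMetric he hz, H53.fderiv_chartMetric he hz]
    exact H53.chris_spec_of_pos (fun v hv => H53.chartG_pos he hz v hv) u v w
  refine ⟨_, hΓ, fun b hb v => ?_⟩
  have h1 : H973.ONB (H53.chartG e z) b := hb
  have h2 : ∑ i, H53.sectNum e z (fun u v => H53.chris (H53.chartG e) z u v) (b i) v =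
      H973.ric (H53.chartG e) z v := by
    rw [← H973.ric_eq h1]
    exact Finset.sum_congr rfl fun i _ => H53.sectNum_eq he hz hΓ _ _
  have h3 : 0 ≤ H53.chartMetric e z v v := real_inner_self_nonneg
  obtain ⟨x, hx⟩ : ∃ x, x = e.symm z := ⟨_, rfl⟩
  have hx' : x ∈ e.source := hx ▸ e.map_target hz
  have he' : chartAt (Cm n) x ∈ maximalAtlas 𝓘(ℝ, Cm n) ∞ M := chart_mem_maximalAtlas x
  have hc : chartAt (Cm n) x ∈ maximalAtlas 𝓘(ℂ, Cm n) 1 M := chart_mem_maximalAtlas x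
  have h4 := H973.ric_chart he he' hx' (mem_chart_source _ x) v
  rw [show e x = z from hx ▸ e.right_inv hz] at h4
  obtain ⟨Γ, h5, h6⟩ := hp x _ hc (mem_chart_source _ x)
  have hz' := mem_chart_target (Cm n) x
  have h7 := ric_nonneg (H973.localRiem_chartG he') hz' (BGa.mulI n) (hK _ hc _ hz').1
    (fun u w => by
      rw [← H53.sectNum_eq he' hz' h5, ← H53.sectNum_eq he' hz' h5]
      exact h6 u w) (fderiv ℝ (chartAt (Cm n) x ∘ e.symm) z v)
  rw [h2, h4]
  nlinarith [mul_nonneg hK0 h3]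

variable [IsRiemannianManifold 𝓘(ℝ, Cm n) M] [CompleteSpace M] [ConnectedSpace M]
  [NoncompactSpace M] [MeasurableSpace M] [BorelSpace M] {μ : Measure M}

theorem bg0 (hn : 1 ≤ n) (hK : IsKahler (Cm n) M) (hp : ∀ x : M, NonnegBisectionalAt (Cm n) x)
    (hv : IsVol n μ) (b : B1b n M) : BG n μ := by
  have : ProperSpace M := H53.properSpace_riemannian (Cm n) M
  have hf : Module.finrank ℝ (Cm n) = 2 * n := by
    rw [Module.finrank_pi_fintype]
    simp [mul_comm]
  obtain ⟨ν, hν⟩ := H999.vol (Cm n) M (by omega)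
  obtain ⟨k, rfl⟩ := BGa.vol_eq b hv hν
  have hk : (0 : ℝ) < k := by
    have h := (H934.cala (Cm n) M (by omega) _ hν).2.1 univ isOpen_univ univ_nonempty
    refine NNReal.coe_pos.2 (pos_iff_ne_zero.2 fun h0 => ?_)
    simp [h0] at h
  refine ⟨Real.exp 1, Real.one_le_exp zero_le_one, fun x s t hs hst => ?_⟩
  have ht := hs.trans_le hst
  have h := H168.bg (H168.mcp H912.wlc H934.cala H34.calb) H934.cala (2 * n) (by omega) (Cm n) M
    (by omega) hf _ (1 / t ^ 2) hν (by positivity) (ricGE hK hp (by positivity)) x s t hs hst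
  rw [one_div_mul_cancel (by positivity), measureReal_nnreal_smul_apply,
    measureReal_nnreal_smul_apply] at h
  refine le_of_mul_le_mul_left (h.trans (le_of_eq ?_)) hk
  ring

end bg

variable {n : ℕ} {M : Type} [MetricSpace M] [ChartedSpace (Cm n) M]
  [IsManifold 𝓘(ℂ, Cm n) 1 M] [IsManifold 𝓘(ℝ, Cm n) ∞ M]
  [RiemannianBundle (fun x : M => TangentSpace 𝓘(ℝ, Cm n) x)]
  [IsContMDiffRiemannianBundle 𝓘(ℝ, Cm n) ∞ (Cm n) (fun x : M => TangentSpace 𝓘(ℝ, Cm n) x)]

section ric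

open Vale.Agent.P272.K.C2 B2A

theorem bk_eq (hK : IsKahler (Cm n) M) (b : B1b n M) {e : Chart n M} (he : Hc e) {z : Cm n}
    (hz : z ∈ e.target) (X a : Cm n) : bk (hm e) z X a = Rc (chartG e) z X a := by
  have hU : ∀ᶠ y in 𝓝 z, y ∈ e.target := e.open_target.mem_nhds hz
  exact rm_eq (localKahler_chartG hK he) hz (fun j k => (b.wsm e he z hz j k).of_le two_le)
    (hU.mono fun y hy => b.wpos e he y hy) (hU.mono fun y hy => b.quad e he y hy) b.levi X a

theorem ric0 (b : B1b n M) {e : Chart n M} (he : Hc e) {z : Cm n} (hz : z ∈ e.target)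
    (h : ∀ X a, 0 ≤ bk (hm e) z X a) : (ric e z).PosSemidef := by
  have hU : ∀ᶠ y in 𝓝 z, y ∈ e.target := e.open_target.mem_nhds hz
  have hW : MC 2 (hm e) z := fun j k => (b.wsm e he z hz j k).of_le two_le
  have hP : ∀ᶠ y in 𝓝 z, (hm e y).PosDef := hU.mono fun y hy => b.wpos e he y hy
  have hv : ContDiffAt ℝ 2 (fun y => Real.log (vd e y)) z :=
    ((b.vd_sm e he z hz).of_le two_le).log (b.vd_pos e he z hz).ne'
  have hH : (ric e z).IsHermitian := cHess_isHermitian hv.neg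
  have e1 : ric e z = ∑ l, ∑ k, (hm e z)⁻¹ l k • RM k l (hm e) z := by
    rw [ricci_identity hW hP (hU.mono fun y hy i j k => b.wcl e he y hy i j k)]
    exact cHess_neg hv
  obtain ⟨C, hC⟩ := exists_factor hP.self_of_nhds.inv.posSemidef
  have e2 : ric e z = ∑ m, Kxx (hm e) z (C m) := by
    have e3 : ∀ l k, (hm e z)⁻¹ l k = ∑ m, C m k * conj (C m l) := fun l k => by
      rw [hC, Matrix.mul_apply]
      exact Finset.sum_congr rfl fun m _ => mul_comm _ _
    rw [e1]
    simp only [e3, Finset.sum_smul, Kxx]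
    exact (Finset.sum_congr rfl fun l _ => Finset.sum_comm).trans Finset.sum_comm
  refine Matrix.PosSemidef.of_dotProduct_mulVec_nonneg hH fun x => ?_
  refine Complex.nonneg_iff.2 ⟨?_, (hH.im_star_dotProduct_mulVec_self x).symm⟩
  rw [e2, Matrix.sum_mulVec, dotProduct_sum, Complex.re_sum]
  refine Finset.sum_nonneg fun m _ => ?_
  have h1 := h (C m) (star x)
  rwa [bk, qf, star_star] at h1

end ric

variable [IsRiemannianManifold 𝓘(ℝ, Cm n) M] [CompleteSpace M] [ConnectedSpace M]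
  [NoncompactSpace M] [MeasurableSpace M] [BorelSpace M] {μ : Measure M}

open Vale.Agent.P253.R2.H451 Vale.Agent.P253.R2.H618 Sch in
theorem sch0 (hn : 1 ≤ n) (hK : IsKahler (Cm n) M) (hp : ∀ x : M, NonnegBisectionalAt (Cm n) x)
    (a : B1a n M) : SCH n M := by
  have := properSpace_riemannian (Cm n) M
  have : Nonempty (Fin n) := ⟨⟨0, hn⟩⟩
  refine ⟨38, by norm_num, fun f hf x r A hr h y hy => ?_⟩
  have hf' := (a.sec_zero f).1 hf
  rcases ((norm_nonneg _).trans (h x (mem_ball_self hr))).eq_or_lt with rfl | hA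
  · rw [norm_le_zero_iff.1 (h x (mem_ball_self hr)),
      norm_le_zero_iff.1 (h y (ball_subset_ball (half_le_self hr.le) hy))]
    simp
  rw [mul_div_right_comm, dist_comm]
  refine lip_of_loc (approxMid_of_riemannian (Cm n) M) hf'.continuous fun z hz => ?_
  have h1 : dist z x ≤ r / 2 := by rw [dist_comm]; exact hz.trans (mem_ball'.1 hy).le
  have h2 := grad hK hp hf' hA h (mem_closedBall.2 (h1.trans (half_le_self hr.le)))
  have h3 := mul_le_mul_of_nonneg_left (show r / 2 ≤ r - dist z x by linarith)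
    (S_nonneg (f := f) hK z)
  filter_upwards [loc hK hf' z (div_pos hA hr)] with w hw
  refine hw.trans (mul_le_mul_of_nonneg_right ?_ dist_nonneg)
  rw [le_div_iff₀ hr, mul_assoc, add_mul, div_mul_cancel₀ _ hr.ne']
  linarith

theorem tc0 (hK : IsKahler (Cm n) M) (hp : ∀ x : M, NonnegBisectionalAt (Cm n) x) : TC n M := by
  intro p u a b α β hu ha hab hαβ h1 h2 x hx1 hx2
  have : ProperSpace M := properSpace_riemannian (Cm n) M
  exact TC.three hK hp p hu ha hab hαβ h1 h2 hx1 hx2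

open Vale.Agent.P284.H608.K Vale.Agent.P284.H286.K HORa in
theorem hor0 (hn : 1 ≤ n) (hv : IsVol n μ) (a : B1a n M) (b : B1b n M) (h : EXH n M) :
    HOR n μ := by
  intro k ψ hψ hp s₀ h1 h2 Λ C₀ h3 h4 h5 h6
  obtain ⟨r, rfl⟩ := Nat.exists_eq_add_of_le' hn
  have k1 := Vale.Agent.P284.H752.k1Stmt
  have k3 := k3 (r + 1) M (ka hv a b k hψ)
  obtain ⟨χ⟩ := cut hv a b k hψ h
  have hp' : ∀ i, ∀ z ∈ ((ka hv a b k hψ).e i).target,
      (cHess ((ka hv a b k hψ).φ i) z).PosSemidef := fun i => hp i.1 i.2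
  have g1 := fm_form (hv := hv) (a := a) (b := b) (k := k) (hψ := hψ) s₀
  have g2 : (ka hv a b k hψ).Smooth (fm hv a b k hψ s₀) := fun i z hz =>
    ((h1 i.1 i.2 z hz).smul_const _).congr_of_eventuallyEq (fm_near hz)
  obtain ⟨η, a1, a2, -, a4⟩ := eng (r + 1) M _ χ hp' r _ g1 g2 ((fm_nl s₀).trans_lt h2)
    (funext fun i => funext fun z => P284.H136.K8.af_zero _) C₀ fun τ hτ => by
      rw [mul_comm]
      refine Vale.Agent.P284.H752.K8.int_cs (S := univ) (B := Λ) (k3.intT r τ hτ).2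
        (dA_nonneg k1 hp' τ) (fun x => ?_) (fun x _ => h3 x) h4 (by rwa [Measure.restrict_univ])
      obtain ⟨e, he, hx, h7⟩ := h5 x
      have hz := e.map_source hx
      have h8 := b.vd_pos e he _ hz
      have e1 : (ka hv a b k hψ).S (fm hv a b k hψ s₀) ⟨e, he⟩ (e x) =
          SL (hm e) (fun y => co k s₀ e y • P284Z.L.dt (r + 1)) (e x) := by
        refine (if_pos hz).trans ?_
        unfold SL
        rw [funext (P284Z.L.S1.dbV_congr (fm_near (i := ⟨e, he⟩) hz))]
        rfl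
      have h9 := P284Z.L.S1.hn_SL (w := hm e) (σ := fun _ => P284Z.L.dt (r + 1))
        (b.wpos e he _ hz) ((h1 e he _ hz).differentiableAt (by simp)) (differentiableAt_const _)
        h7 (τ ⟨e, he⟩ (e x))
      rw [hn_dt (b.wpos e he _ hz), ← e1] at h9
      rw [indicator_univ, k3.dn_eq r τ _ hτ.form (k3.S_form r _ g1 g2).1 ⟨e, he⟩ x hx,
        k3.dA_eq r τ hτ.form ⟨e, he⟩ x hx, norm_mul, mul_pow, Complex.norm_real,
        Real.norm_of_nonneg (Real.exp_pos _).le]
      refine (mul_le_mul_of_nonneg_left h9 (sq_nonneg _)).trans (le_of_eq ?_)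
      change Real.exp (-wt k ψ e (e x)) ^ 2 * (_ * _ * (vd e (e x))⁻¹) =
        Real.exp (-wt k ψ e (e x)) * (Ad (hm e (e x)) (th k ψ e (e x)) (τ ⟨e, he⟩ (e x))).re * _
      rw [Real.exp_neg]
      field_simp
  obtain ⟨s, rfl⟩ := exists_sec a1
  refine ⟨s, fun e he z hz => ?_, by rwa [fm_sub, fm_nl] at a4⟩
  refine (((ContinuousAlternatingMap.apply ℂ (Cm (r + 1)) ℂ fun i => Pi.single i 1).analyticAt
    _).comp (a2 ⟨e, he⟩ z hz)).congr ((fm_near (hv := hv) (a := a) (b := b) (k := k) (hψ := hψ)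
      (i := ⟨e, he⟩) (s := s) hz).mono fun y hy => ?_)
  have h7 := ev_dt (1 : Equiv.Perm (Fin (r + 1)))
  rw [Function.comp_apply, hy]
  change co k s e y * ev (P284Z.L.dt (r + 1)) (fun i => (1 : Equiv.Perm (Fin (r + 1))) i) = _
  rw [h7]
  simp

end Lib

open Lib

theorem lib_row : LIB := by
  intro n M _ _ _ _ _ _ _ _ _ _ _ _ μ hn hK hp hb hv
  have a : B1a n M := b1a
  have b := b1b hK a
  have v := b3 hv a b
  have ex := exh hK a b
  have g := bg0 hn hK hp hv b
  have ho := hor0 hn hv a b ex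
  have sc := sch0 hn hK hp a
  exact ⟨a, b, v, hv, hb, fun e he z hz => ric0 b he hz (hb e he z hz), ex, g, tc0 hK hp,
    rb hK a b, ho, hj a b v ho, sc, mv a v sc g⟩

/-- the library on a manifold as in the conjecture -/
theorem all0 {n : ℕ} {M : Type} [MetricSpace M] [ChartedSpace (Cm n) M]
    [IsManifold 𝓘(ℂ, Cm n) 1 M] [IsManifold 𝓘(ℝ, Cm n) ∞ M]
    [RiemannianBundle (fun x : M => TangentSpace 𝓘(ℝ, Cm n) x)]
    [IsContMDiffRiemannianBundle 𝓘(ℝ, Cm n) ∞ (Cm n) (fun x : M => TangentSpace 𝓘(ℝ, Cm n) x)]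
    [IsRiemannianManifold 𝓘(ℝ, Cm n) M] [CompleteSpace M] [ConnectedSpace M] [NoncompactSpace M]
    [MeasurableSpace M] [BorelSpace M] {μ : Measure M} (c : Ctx n μ) : All0 n μ :=
  lib_row n M μ c.npos c.kahler (fun x => TC.nonneg (c.pos x)) (fun e he z hz X a => by
    rw [bk_eq c.kahler (b1b c.kahler b1a) he hz]
    exact Rc_nonneg_chartG c.kahler he hz (TC.nonneg (c.pos _)) X a) c.vol

end Vale.Agent.P253W.V
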