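import Vale.Agent.P253W.V.Defs
import Vale.Agent.P253W.Asm

/-!
# P253W, block V: statements of the rows for 3.2 and 3.3 (`BALL`, `DOMU`, `AREA`, `TL`)
-/

open scoped Manifold ContDiff Bundle ENNReal NNReal Topology ComplexConjugate ComplexOrder Matrix
open Bundle IsManifold MeasureTheory Set Metric Filter Vale.Agent.P253.Mfd Vale.Agent.P253Z
open Vale.Agent.P272.K (Cm dz dzb cHess jacM Chart)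
open Vale.Agent.P253.R2.H451 (ContPsh levi2)

noncomputable section

namespace Vale.Agent.P253W.V

/-- the Laplacian -/
def Lp (v : ℂ → ℝ) (τ : ℂ) : ℝ := levi2 v τ 1

/-- test functions on `ℂ` -/
def Tf (U : Set ℂ) (χ : ℂ → ℝ) : Prop :=
  ContDiff ℝ ∞ χ ∧ (∀ τ, 0 ≤ χ τ) ∧ HasCompactSupport χ ∧ tsupport χ ⊆ U

/-- **GRN**: Green's formula, cut-off functions -/
def GRN : Prop :=
  (∀ (U : Set ℂ) (v χ : ℂ → ℝ), IsOpen U → ContDiffOn ℝ 2 v U → Tf U χ →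
    Integrable (fun τ => v τ * Lp χ τ) ∧ Integrable (fun τ => χ τ * Lp v τ) ∧
    ∫ τ, v τ * Lp χ τ = ∫ τ, χ τ * Lp v τ) ∧
  ∀ a b : ℝ, 0 < a → a < b → ∃ χ, Tf (ball 0 b) χ ∧ (∀ τ ∈ closedBall (0 : ℂ) a, χ τ = 1) ∧
    tsupport (fderiv ℝ χ) ⊆ ann a b ∧ ∀ τ ∉ ann a b, Lp χ τ = 0

/-- **PA**: interpolation in a holomorphic family -/
def PA : Prop := ∀ (χ : ℂ → ℝ) (S : Set ℂ), ContDiff ℝ ∞ χ → IsCompact S →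
  tsupport (fderiv ℝ χ) ⊆ S → ∃ C : ℝ, 0 ≤ C ∧ ∀ (O : Set (ℂ × ℂ)) (N : ℂ × ℂ → ℝ) (α β : ℝ),
    IsOpen O → ContDiffOn ℝ 2 N O → (∀ σ ∈ Icc (0 : ℝ) 1, ∀ τ ∈ S, ((σ : ℂ), τ) ∈ O ∧
      (∀ V, 0 ≤ levi2 N (σ, τ) V) ∧ levi2 N (σ, τ) (1, 0) ≤ α ∧ levi2 N (σ, τ) (0, 1) ≤ β) →
    ∫ τ, (N (1, τ) - N (0, τ)) * Lp χ τ ≤ C * √(α * β)

/-- **LEL**: the area of a holomorphic curve in a ball -/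
def LEL : Prop := ∀ n : ℕ, ∃ c : ℝ, 0 < c ∧ ∀ (W : Set ℂ) (Y : ℂ → Cm n) (τ₁ : ℂ) (ρ : ℝ),
  IsOpen W → DifferentiableOn ℂ Y W → τ₁ ∈ W → deriv Y τ₁ ≠ 0 → 0 < ρ →
  IsCompact {τ ∈ W | ‖Y τ - Y τ₁‖ ≤ ρ} →
  c * ρ ^ 2 ≤ ∫ τ in {τ ∈ W | ‖Y τ - Y τ₁‖ ≤ ρ}, ‖deriv Y τ‖ ^ 2

/-- **ARF**: `ψ_s - ψ_t` along holomorphic maps -/
def ARF : Prop := ForF fun n M _ _ _ _ _ _ _ _ F => GRN → F.Bas1 → F.Bas2 → F.S3a →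
  (∀ (O : Set (ℂ × ℂ)) (Φ : ℂ × ℂ → M) (s t : ℝ), IsOpen O →
    MDifferentiableOn 𝓘(ℂ, ℂ × ℂ) 𝓘(ℂ, Cm n) Φ O → 0 ≤ t → t ≤ s →
    ContDiffOn ℝ 2 (fun q => F.ψ s (Φ q) - F.ψ t (Φ q)) O ∧
    ∀ q ∈ O, ∀ V, ∀ e : Chart n M, Hc e → Φ q ∈ e.source →
      0 ≤ levi2 (fun q => F.ψ s (Φ q) - F.ψ t (Φ q)) q V ∧
      levi2 (fun q => F.ψ s (Φ q) - F.ψ t (Φ q)) q V ≤
        4 * qf (F.g t e (e (Φ q))) (fderiv ℂ (fun q => e (Φ q)) q V)) ∧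
  ∀ (U : Set ℂ) (f : ℂ → M) (χ : ℂ → ℝ) (t : ℝ), IsOpen U → H1 n f U → Tf U χ → 0 ≤ t →
    ContinuousOn (fun τ => F.nv t (f τ) (d1 n f τ)) U ∧
    (∀ s, t ≤ s → Integrable (fun τ => (F.ψ s (f τ) - F.ψ t (f τ)) * Lp χ τ) ∧
      ∫ τ, (F.ψ s (f τ) - F.ψ t (f τ)) * Lp χ τ ≤ 4 * ∫ τ, χ τ * F.nv t (f τ) (d1 n f τ)) ∧
    ∀ B : ℝ, (∀ s, t ≤ s → ∫ τ, (F.ψ s (f τ) - F.ψ t (f τ)) * Lp χ τ ≤ B) →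
      4 * ∫ τ, χ τ * F.nv t (f τ) (d1 n f τ) ≤ B

/-- **ULI**: uniform local inverses -/
def ULI : Prop := ForF fun n M _ _ _ _ _ _ _ _ F => ∀ (z : Fin n → M → ℂ) (K : Set M),
  (∀ i, IsSec n 0 (z i)) → IsCompact K → (∀ x ∈ K, F.jc z x ≠ 0) →
  ∃ (δ ε C : ℝ) (ι : M → Cm n → M), 0 < δ ∧ 0 < ε ∧ ∀ x ∈ K,
    (∀ y ∈ ball x δ, ι x (fun i => z i y) = y) ∧ ∀ w ∈ ball (fun i => z i x) ε,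
      ∃ e : Chart n M, Hc e ∧ w ∈ e.target ∧ (∀ v, qf (hm e w) v ≤ C * ‖v‖ ^ 2) ∧
        ∀ᶠ p in 𝓝[K ×ˢ univ] (x, w), ι p.1 p.2 = e.symm p.2

def ARE : Prop := ForF fun _ _ _ _ _ _ _ _ _ μ F => GRN → PA → ARF → ULI →
  ∀ (A : Fam F) (T : F.TA μ), P2 A T → F.AREA

def TLR : Prop := ForF fun _ _ _ _ _ _ _ _ _ μ F => GRN → PA → LEL → ARF →
  ∀ (A : Fam F) (T : F.TA μ), P2 A T → F.TL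

def BD : Prop := ForF fun _ _ _ _ _ _ _ _ _ μ F =>
  ∀ (A : Fam F) (T : F.TA μ), P2 A T → T.BALL A.d ∧ T.DOMU

end Vale.Agent.P253W.V
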