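import Vale.Agent.P253W.V.Asm
import Vale.Agent.P253W.V.Defs2

/-!
# P253W, block V: the blocks of `P253W.Asm` from the rows
-/

open scoped Manifold ContDiff Bundle ENNReal NNReal Topology
open Bundle IsManifold MeasureTheory Set Metric Filter Vale.Agent.P253.Mfd Vale.Agent.P253Z
open Vale.Agent.P272.K (Cm Chart)

noncomputable section

namespace Vale.Agent.P253W.V

/-- all rows -/
structure Rows2 : Prop extends Rows where
  grn : GRN
  pa : PA
  lel : LEL
  arf : ARF
  uli : ULI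
  are : ARE
  tlr : TLR
  bd : BD

variable {n : ℕ} {M : Type} [MetricSpace M] [ChartedSpace (Cm n) M] [IsManifold 𝓘(ℂ, Cm n) 1 M]
  [IsManifold 𝓘(ℝ, Cm n) ∞ M] [RiemannianBundle fun x : M => TangentSpace 𝓘(ℝ, Cm n) x]
  [IsContMDiffRiemannianBundle 𝓘(ℝ, Cm n) ∞ (Cm n) fun x : M => TangentSpace 𝓘(ℝ, Cm n) x]
  [IsRiemannianManifold 𝓘(ℝ, Cm n) M] [CompleteSpace M] [ConnectedSpace M] [NoncompactSpace M]
  [MeasurableSpace M] [BorelSpace M] {μ : Measure M}

namespace Rows2

variable (R : Rows2)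

include R

theorem blB (c : Ctx n μ) : BlB n M := fun _ h => ⟨R.toRows.b1 c h, R.toRows.b2 c h⟩

theorem blG : BlG n μ := fun _ p => ⟨R.toRows.g0' p.c p.is, R.toRows.lip' p.c p.is⟩

theorem blL : BlL n μ := fun _ p hE hL => R.toRows.lyh p.c p.is hE hL

theorem blS : BlS n μ := fun _ p hy => by
  have hs := R.toRows.s3a p.c p.is p.low hy
  obtain ⟨A⟩ := R.toRows.fam p.c p.is
  exact ⟨hs, A, R.toRows.s3b p.c p.is hs A⟩

theorem ball : Of2 n μ fun _ A T => T.BALL A.d := fun F A T p =>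
  (R.bd n M μ F p.c p.is A T p).1

theorem domu : Of2 n μ fun _ _ T => T.DOMU := fun F A T p => (R.bd n M μ F p.c p.is A T p).2

theorem area : Of2 n μ fun F _ _ => F.AREA := fun F A T p =>
  R.are n M μ F p.c p.is R.grn R.pa R.arf R.uli A T p

theorem tl : Of2 n μ fun F _ _ => F.TL := fun F A T p =>
  R.tlr n M μ F p.c p.is R.grn R.pa R.lel R.arf A T p

end Rows2

end Vale.Agent.P253W.V
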