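import Vale.Agent.P253W.V.Defs
import Vale.Agent.P253W.V.Alg
import Vale.Agent.P253W.FG.Calc
import Vale.Agent.P253Z.B1a
import Vale.Agent.P253Z.B1b

/-!
# P253W, block V, row BAS1: change of charts and smoothness
-/

open scoped Manifold ContDiff Bundle ENNReal Topology ComplexConjugate ComplexOrder Matrix
open Bundle IsManifold MeasureTheory Set Metric Filter Vale.Agent.P253.Mfd Vale.Agent.P253Z
open Vale.Agent.P272.K (Cm dz dzb cHess jacM Chart)

noncomputable section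

namespace Vale.Agent.P253W.V

namespace Bas1

open Alg

variable {n : ℕ} {M : Type} [MetricSpace M] [ChartedSpace (Cm n) M]
  {e e' : Chart n M} {x : M} {z : Cm n} {t : ℝ}

omit [ChartedSpace (Cm n) M] in
theorem ev_both (hx : x ∈ e.source) (hx' : x ∈ e'.source) :
    ∀ᶠ y in 𝓝 (e x), y ∈ e.target ∧ e.symm y ∈ e'.source := by
  refine (e.open_target.eventually_mem (e.map_source hx)).and
    ((e.continuousAt_symm (e.map_source hx)).eventually ?_)
  rw [e.left_inv hx]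
  exact e'.open_source.mem_nhds hx'

theorem hs_ch (a : B1a n M) (f : M → ℝ) (he : Hc e) (he' : Hc e') (hx : x ∈ e.source)
    (hx' : x ∈ e'.source) (hf : ContDiffAt ℝ 2 (fun y => f (e'.symm y)) (e' x)) :
    hs f e (e x) = pb (jacM e e' x) (hs f e' (e' x)) := by
  have h1 : (fun y => f (e.symm y)) =ᶠ[𝓝 (e x)] fun y => f (e'.symm (e' (e.symm y))) := by
    filter_upwards [ev_both hx hx'] with y hy
    rw [e'.left_inv hy.2]
  have h2 := P272.K.cHess_comp (f := fun y => f (e'.symm y)) (τ := fun y => e' (e.symm y))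
    (z := e x) (by rwa [e.left_inv hx])
    (a.hol e e' he he' _ (e.map_source hx) (by rwa [e.left_inv hx])).contDiffAt
  rw [e.left_inv hx] at h2
  exact (P272.K.cHess_congr h1).trans h2

theorem sm_at {f : ℝ → M → ℝ} (hf : SmT n (Ici 0) f) (ht : 0 ≤ t) : Sm n (f t) :=
  fun e he _ hz => FG.Calc.slice e.open_target (hf e he) ht hz

theorem sm_cont (a : B1a n M) {f : ℝ → M → ℝ} (hf : SmT n (Ici 0) f) :
    ContinuousOn (Function.uncurry f) (Ici 0 ×ˢ univ) := by
  rintro ⟨t, x⟩ ⟨ht, -⟩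
  have hx := mem_chart_source (Cm n) x
  have hn : (univ : Set ℝ) ×ˢ (pc n x).source ∈ 𝓝 (t, x) :=
    prod_mem_nhds univ_mem ((pc n x).open_source.mem_nhds hx)
  rw [← continuousWithinAt_inter hn, prod_inter_prod, inter_univ, univ_inter]
  have h1 : ContinuousOn (fun q : ℝ × M => (q.1, pc n x q.2)) (Ici 0 ×ˢ (pc n x).source) :=
    continuousOn_fst.prodMk ((pc n x).continuousOn.comp continuousOn_snd fun _ h => h.2)
  have h2 := (hf _ (a.chart x)).continuousOn.comp h1 fun q hq => ⟨hq.1, (pc n x).map_source hq.2⟩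
  exact (h2.congr fun q hq => by
    simp only [Function.comp, ch, (pc n x).left_inv hq.2, Function.uncurry]) _ ⟨ht, hx⟩

theorem hs_sm {f : ℝ → M → ℝ} (hf : SmT n (Ici 0) f) (he : Hc e) (j k : Fin n) :
    ContDiffOn ℝ ∞ (fun q : ℝ × Cm n => hs (f q.1) e q.2 j k) (Ici 0 ×ˢ e.target) :=
  FG.Calc.hess (uniqueDiffOn_Ici 0) e.open_target (hf e he) j k

variable [RiemannianBundle (fun x : M => TangentSpace 𝓘(ℝ, Cm n) x)] {F : Flow n M}

theorem hm_sm (b : B1b n M) (he : Hc e) (j k : Fin n) :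
    ContDiffOn ℝ ∞ (fun q : ℝ × Cm n => hm e q.2 j k) (Ici 0 ×ˢ e.target) := fun q hq =>
  ((b.wsm e he q.2 hq.2 j k).comp q contDiffAt_snd).contDiffWithinAt

theorem g_ch (a : B1a n M) (b : B1b n M) (hI : F.Is) (ht : 0 ≤ t) (he : Hc e) (he' : Hc e')
    (hx : x ∈ e.source) (hx' : x ∈ e'.source) :
    F.g t e (e x) = pb (jacM e e' x) (F.g t e' (e' x)) := by
  rw [Flow.g, Flow.g, pb_sub, ← b.wch e e' he he' x hx hx', ← hs_ch a _ he he' hx hx'
    ((sm_at hI.sm ht e' he' _ (e'.map_source hx')).of_le FG.Calc.two_le)]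

theorem g_sm (b : B1b n M) (hI : F.Is) (he : Hc e) (j k : Fin n) :
    ContDiffOn ℝ ∞ (fun q : ℝ × Cm n => F.g q.1 e q.2 j k) (Ici 0 ×ˢ e.target) :=
  (hm_sm b he j k).sub (hs_sm hI.sm he j k)

theorem g_cl (b : B1b n M) (hI : F.Is) (ht : 0 ≤ t) (he : Hc e) (hz : z ∈ e.target)
    (j k l : Fin n) : dz l (fun y => F.g t e y j k) z = dz j (fun y => F.g t e y l k) z := by
  have h1 := sm_at hI.sm ht e he z hz
  have d1 : ∀ j, DifferentiableAt ℝ (fun y => hm e y j k) z := fun j =>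
    (b.wsm e he z hz j k).differentiableAt (by simp)
  have d2 : ∀ j, DifferentiableAt ℝ (fun y => hs (F.ψ t) e y j k) z := fun j =>
    (P272.K.C2.contDiffAt_cHess (m := ∞) h1 (by simp) j k).differentiableAt (by simp)
  have h2 := P272.K.C2.dz_dz_comm l j
    ((P272.K.C2.contDiffAt_dzb (m := ∞) k (P272.K.C2.contDiffAt_ofReal h1) (by simp)).of_le
      FG.Calc.two_le)
  exact (P272.K.C2.dz_sub l (d1 j) (d2 j)).trans
    ((congrArg₂ (· - ·) (b.wcl e he z hz j k l) h2).trans (P272.K.C2.dz_sub j (d1 l) (d2 l)).symm)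

theorem u_eq (a : B1a n M) (b : B1b n M) (hI : F.Is) (ht : 0 ≤ t) (he : Hc e)
    (hz : z ∈ e.target) :
    F.u t (e.symm z) = Real.log (‖co 1 F.Ω e z‖ ^ 2 / (F.g t e z).det.re) := by
  have h1 := g_ch a b hI ht he (a.chart (e.symm z)) (e.map_target hz) (mem_chart_source _ _)
  have h2 := a.jac_ne _ _ he (a.chart (e.symm z)) _ (e.map_target hz) (mem_chart_source _ _)
  rw [e.right_inv hz] at h1
  rw [h1, det_pb_re, co, zpow_one, norm_mul, mul_pow,
    mul_div_mul_left _ _ (pow_ne_zero _ (norm_ne_zero_iff.2 h2))]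
  rfl

theorem lap_eq (a : B1a n M) (b : B1b n M) (hI : F.Is) (ht : 0 ≤ t) (f : M → ℝ) (he : Hc e)
    (hz : z ∈ e.target) (hf : ContDiffAt ℝ 2 (fun y => f (e.symm y)) z) :
    F.lap t f (e.symm z) = trg (F.g t e z) (hs f e z) := by
  have h1 := g_ch a b hI ht (a.chart (e.symm z)) he (mem_chart_source _ _) (e.map_target hz)
  have h2 := a.jac_ne _ _ (a.chart (e.symm z)) he _ (mem_chart_source _ _) (e.map_target hz)
  have h3 := hs_ch a f (a.chart (e.symm z)) he (mem_chart_source _ _) (e.map_target hz)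
    (by rwa [e.right_inv hz])
  rw [e.right_inv hz] at h1 h3
  rw [Flow.lap, Flow.gx, h1, h3, trg_pb h2]

theorem y_eq (a : B1a n M) (b : B1b n M) (hI : F.Is) (ht : 0 ≤ t) (he : Hc e)
    (hz : z ∈ e.target) : F.y t (e.symm z) = trg (F.g t e z) (hm e z) := by
  have h1 := g_ch a b hI ht (a.chart (e.symm z)) he (mem_chart_source _ _) (e.map_target hz)
  have h2 := a.jac_ne _ _ (a.chart (e.symm z)) he _ (mem_chart_source _ _) (e.map_target hz)
  have h3 := b.wch _ _ (a.chart (e.symm z)) he _ (mem_chart_source _ _) (e.map_target hz)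
  rw [e.right_inv hz] at h1 h3
  rw [Flow.y, Flow.gx, h1, h3, trg_pb h2]

theorem H_eq (a : B1a n M) (b : B1b n M) (hI : F.Is) (ht : 0 ≤ t) (he : Hc e)
    (hx : x ∈ e.source) (ξ : Cm n) : F.H t x ξ = hq (F.g t e (e x)) (cv e x ξ) := by
  rw [g_ch a b hI ht he (a.chart x) hx (mem_chart_source _ _), cv,
    hq_pb (a.jac_ne _ _ he (a.chart x) _ hx (mem_chart_source _ _))]
  rfl

theorem det_ne (hI : F.Is) (he : Hc e) : ∀ q ∈ Ici (0 : ℝ) ×ˢ e.target, (F.g q.1 e q.2).det ≠ 0 :=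
  fun q hq => (hI.pos q.1 hq.1 e he q.2 hq.2).det_pos.ne'

theorem u_sm (a : B1a n M) (b : B1b n M) (hI : F.Is) : SmT n (Ici 0) F.u := by
  intro e he
  have h1 : ContDiffOn ℝ ∞ (fun q : ℝ × Cm n => co 1 F.Ω e q.2) (Ici 0 ×ˢ e.target) := fun q hq =>
    ((((hI.sec e he q.2 hq.2).contDiffAt (n := ∞)).restrict_scalars ℝ).comp q
      contDiffAt_snd).contDiffWithinAt
  have h2 : ∀ q ∈ Ici (0 : ℝ) ×ˢ e.target, (F.g q.1 e q.2).det.re ≠ 0 := fun q hq =>
    (det_pos (hI.pos q.1 hq.1 e he q.2 hq.2)).ne'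
  refine (((h1.norm_sq ℂ).div (sm_re (sm_det (g_sm b hI he))) h2).log fun q hq =>
    div_ne_zero (pow_ne_zero _ (norm_ne_zero_iff.2 ?_)) (h2 q hq)).congr
    fun q hq => u_eq a b hI hq.1 he hq.2
  exact mul_ne_zero (zpow_ne_zero _ (a.jac_ne _ _ he (a.chart _) _ (e.map_target hq.2)
    (mem_chart_source _ _))) (hI.ne _)

theorem bas1 (a : B1a n M) (b : B1b n M) (hI : F.Is) : F.Bas1 where
  hs_ch f _ _ he he' _ hx hx' hf := hs_ch a f he he' hx hx' hf
  cv_self x ξ := by rw [cv, a.jac_self _ x (mem_chart_source _ _), Matrix.vecMul_one]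
  cv_ch e e' he he' x hx hx' ξ := by
    rw [cv, cv, a.jac_mul e e' _ he he' (a.chart x) x hx hx' (mem_chart_source _ _),
      Matrix.vecMul_vecMul]
  g_zero e z := by simp only [Flow.g, hs, hI.zero, P272.K.C2.cHess_const, sub_zero]
  g_ch _ ht _ _ he he' _ hx hx' := g_ch a b hI ht he he' hx hx'
  g_sm _ he := g_sm b hI he
  g_at _ ht e he _ hz j k := FG.Calc.slice e.open_target (g_sm b hI he j k) ht hz
  g_cl _ ht _ he _ hz := g_cl b hI ht he hz
  u_eq _ ht _ he _ hz := u_eq a b hI ht he hz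
  lap_eq _ ht f _ he _ hz hf := lap_eq a b hI ht f he hz hf
  y_eq _ ht _ he _ hz := y_eq a b hI ht he hz
  H_eq _ ht _ he _ hx ξ := H_eq a b hI ht he hx ξ
  sm_at _ hf _ ht := sm_at hf ht
  sm_cont _ hf := sm_cont a hf
  u_sm := u_sm a b hI
  R_sm e he := (sm_trg (g_sm b hI he) (det_ne hI he) (hs_sm (u_sm a b hI) he)).congr fun q hq =>
    lap_eq a b hI hq.1 _ he hq.2 ((sm_at (u_sm a b hI) hq.1 e he _ hq.2).of_le FG.Calc.two_le)
  y_sm _ he := (sm_trg (g_sm b hI he) (det_ne hI he) (hm_sm b he)).congr fun q hq =>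
    y_eq a b hI hq.1 he hq.2
  G_sm e he := by
    have h1 : ContDiff ℝ ∞ fun q : Cm n × Cm n × ℂ => (Real.exp (2 * q.2.2.re), q.1) :=
      ((contDiff_const.mul (Complex.reCLM.contDiff.comp contDiff_snd.snd)).exp).prodMk contDiff_fst
    have h2 : MapsTo (fun q : Cm n × Cm n × ℂ => (Real.exp (2 * q.2.2.re), q.1))
        {q | q.1 ∈ e.target ∧ q.2.1 ≠ 0} (Ici 0 ×ˢ e.target) :=
      fun q hq => ⟨(Real.exp_pos _).le, hq.1⟩
    exact (sm_hq (fun j k => (g_sm b hI he j k).comp h1.contDiffOn h2)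
      (fun q hq => det_ne hI he _ (h2 hq)) fun i => by fun_prop).log fun q hq =>
      (hq_pos (hI.pos _ (Real.exp_pos _).le e he _ hq.1) hq.2).ne'

end Bas1

theorem bas1_row : BAS1 := fun _ _ _ _ _ _ _ _ _ _ _ _ _ _ _ _ c hI =>
  Bas1.bas1 b1a (b1b c.kahler b1a) hI

end Vale.Agent.P253W.V
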