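import Vale.Agent.P253W.V.Defs2
import Vale.Agent.P253Z.SUP.Disc

/-!
# P253W, block V, row BD: sup-convolutions of tame functions
-/

open scoped Manifold ContDiff Bundle ENNReal Topology
open Bundle IsManifold MeasureTheory Set Metric Filter Vale.Agent.P253.Mfd Vale.Agent.P253Z
open Vale.Agent.P272.K (Cm Chart)
open Vale.Agent.P253.R2.H451 (ContPsh)

noncomputable section

namespace Vale.Agent.P253W.V

namespace BdA

section gen

variable {E : Type*} [NormedAddCommGroup E] [NormedSpace ℂ E]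
  {N : Type*} [MetricSpace N] [ChartedSpace E N]

theorem psh_add {v : N → ℝ} (hv : ContPsh E v) (a : ℝ) : ContPsh E fun x => v x + a := by
  refine ⟨hv.1.add continuous_const, fun f c r hr hf hf' => ?_⟩
  have h1 : CircleIntegrable (fun z => v (f z)) c r := by
    refine ContinuousOn.circleIntegrable' ?_
    rw [abs_of_pos hr]
    exact hv.1.comp_continuousOn (hf.mono sphere_subset_closedBall)
  rw [Real.circleAverage_fun_add h1 (circleIntegrable_const _ _ _), Real.circleAverage_const]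
  linarith [hv.2 f c r hr hf hf']

variable [FiniteDimensional ℂ E] [IsManifold 𝓘(ℂ, E) 1 N] [IsManifold 𝓘(ℝ, E) ∞ N]
  [RiemannianBundle (fun x : N => TangentSpace 𝓘(ℝ, E) x)]
  [IsContMDiffRiemannianBundle 𝓘(ℝ, E) ∞ E (fun x : N => TangentSpace 𝓘(ℝ, E) x)]
  [IsRiemannianManifold 𝓘(ℝ, E) N]

/-- the sup-convolution -/
theorem supc [CompleteSpace N] (hK : IsKahler E N) (hnn : ∀ x : N, NonnegBisectionalAt E x)
    {v B : N → ℝ} {L : ℝ} (hL : 0 ≤ L) (hv : ContPsh E v)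
    (hB : ∀ x y, v y ≤ B x + L * dist x y) :
    ∃ W : N → ℝ, ContPsh E W ∧ (∀ x, W x ≤ B x) ∧ ∀ x y, v y ≤ W x + (L + 1) * dist x y := by
  have := properSpace_riemannian E N
  have hup : ∀ x y, v y - (L + 1) * dist x y ≤ B x := fun x y => by
    have := hB x y
    have := dist_nonneg (x := x) (y := y)
    linarith
  have hbdd : ∀ x, BddAbove (range fun y => v y - (L + 1) * dist x y) := fun x =>
    ⟨B x, by rintro _ ⟨y, rfl⟩; exact hup x y⟩
  obtain ⟨W, hW⟩ : ∃ W : N → ℝ, W = fun x => ⨆ y, (v y - (L + 1) * dist x y) := ⟨_, rfl⟩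
  have hge : ∀ x y, v y - (L + 1) * dist x y ≤ W x := fun x y => by
    rw [hW]; exact le_ciSup (hbdd x) y
  have hle : ∀ x a, (∀ y, v y - (L + 1) * dist x y ≤ a) → W x ≤ a := fun x a h => by
    have : Nonempty N := ⟨x⟩
    rw [hW]; exact ciSup_le h
  have hlip : ∀ a b, W b ≤ W a + (L + 1) * dist a b := fun a b => hle _ _ fun y => by
    have h1 := hge a y
    have h2 := mul_le_mul_of_nonneg_left (dist_triangle a b y) (by linarith : 0 ≤ L + 1)
    linarith
  have hmax : ∀ x, ∃ y, W x ≤ v y - (L + 1) * dist x y := fun x => by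
    have hR : 0 ≤ B x - v x := by simpa using hB x x
    obtain ⟨y, -, hy⟩ := (isCompact_closedBall x (B x - v x)).exists_isMaxOn
      ⟨x, mem_closedBall_self hR⟩ (f := fun y => v y - (L + 1) * dist x y)
      (hv.1.sub (by fun_prop)).continuousOn
    refine ⟨y, hle _ _ fun z => ?_⟩
    by_cases hz : z ∈ closedBall x (B x - v x)
    · exact hy hz
    · have h1 : v x - (L + 1) * dist x x ≤ v y - (L + 1) * dist x y := hy (mem_closedBall_self hR)
      rw [mem_closedBall', not_le] at hz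
      rw [dist_self] at h1
      linarith [hB x z]
  have hc : Continuous W := by
    refine (LipschitzWith.of_le_add_mul' (L + 1) fun a b => ?_).continuous
    rw [dist_comm]
    exact hlip b a
  refine ⟨W, Sup.contPsh_of_discW hc fun x => ?_, fun x => hle _ _ (hup x),
    fun x y => by linarith [hge x y]⟩
  obtain ⟨y, hy⟩ := hmax x
  refine Sup.discW_chain hK (fun e he y hy X a => Rc_nonneg_chartG hK he (e.map_source hy)
    (hnn _) X a) hv (fun y => by simpa using hge y y) (by linarith) hlip hy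

end gen

variable {n : ℕ} {M : Type} [MetricSpace M] [ChartedSpace (Cm n) M] [IsManifold 𝓘(ℂ, Cm n) 1 M]
  [IsManifold 𝓘(ℝ, Cm n) ∞ M] [RiemannianBundle fun x : M => TangentSpace 𝓘(ℝ, Cm n) x]
  [ConnectedSpace M] [NoncompactSpace M] [MeasurableSpace M] {μ : Measure M} {F : Flow n M}

/-- the sup-convolution of a tame function for the distance at time `t` -/
theorem slice {A : Fam F} (T : F.TA μ) (h : A.S3b μ) {t : ℝ} (ht : 0 ≤ t) {φ : M → ℝ}
    (hφ : F.Tm T.ga φ) : ∃ (W : M → ℝ) (L : ℝ), 0 ≤ L ∧ F.Tm T.ga W ∧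
      ∀ x y, φ y ≤ W x + L * A.d t x y := by
  obtain ⟨hp, C, hC⟩ := hφ
  obtain ⟨C₁, h1⟩ := T.ga_add
  obtain ⟨C₂, h2⟩ := T.ga_two
  obtain ⟨ρ, hρ⟩ := h.far t
  have hr : ∀ x, 0 ≤ F.r x := fun x => dist_nonneg
  have hd : ∀ x y, 0 ≤ A.d t x y := fun x y => dist_nonneg (α := Wm (A.G t))
  have h3 : ∀ x y, F.r y ≤ 2 * F.r x + (|ρ| + 2 * A.d t x y) := by
    intro x y
    have h4 : A.d t y F.o ≤ A.d t x y + A.d t x F.o := dist_triangle_left (α := Wm (A.G t)) y F.o x
    have h5 : A.d t x F.o ≤ F.r x := (h.d_anti 0 t le_rfl ht x F.o).trans_eq (h.d_zero x F.o)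
    have h6 := le_abs_self ρ
    have h7 := abs_nonneg ρ
    rcases le_total ρ (F.r y) with h8 | h8
    · linarith [hρ t ⟨ht, le_rfl⟩ y h8]
    · linarith [hr x, hd x y]
  have h4 : ∀ x y, φ y ≤ |C| * (C₂ * T.ga (F.r x) + |C₁| * |ρ|) + 2 * |C| * |C₁| * A.d t x y := by
    intro x y
    have h5 : 0 ≤ |ρ| + 2 * A.d t x y := by have := hd x y; positivity
    have h6 := h1 (2 * F.r x) _ (by linarith [hr x]) h5
    have h7 := T.ga_mono (h3 x y)
    have h8 := mul_le_mul_of_nonneg_right (le_abs_self C₁) h5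
    have h9 : T.ga (F.r y) ≤ C₂ * T.ga (F.r x) + |C₁| * (|ρ| + 2 * A.d t x y) := by
      linarith [h2 _ (hr x)]
    calc φ y ≤ C * T.ga (F.r y) := hC y
      _ ≤ |C| * T.ga (F.r y) :=
        mul_le_mul_of_nonneg_right (le_abs_self C) (by linarith [T.ga_one (F.r y)])
      _ ≤ |C| * (C₂ * T.ga (F.r x) + |C₁| * (|ρ| + 2 * A.d t x y)) := by gcongr
      _ = _ := by ring
  have := h.cpl t ht
  obtain ⟨W, hW1, hW2, hW3⟩ := supc (E := Cm n) (N := Wm (A.G t)) (A.kahler t ht) (h.nn t ht)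
    (v := φ) (B := fun x : M => |C| * (C₂ * T.ga (F.r x) + |C₁| * |ρ|)) (L := 2 * |C| * |C₁|)
    (by positivity) hp h4
  refine ⟨W, 2 * |C| * |C₁| + 1, by positivity, ⟨hW1, |C| * (C₂ + |C₁| * |ρ|), fun x => ?_⟩, hW3⟩
  refine (hW2 x).trans ?_
  have h5 : |C₁| * |ρ| ≤ |C₁| * |ρ| * T.ga (F.r x) :=
    le_mul_of_one_le_right (by positivity) (T.ga_one _)
  calc |C| * (C₂ * T.ga (F.r x) + |C₁| * |ρ|)
      ≤ |C| * (C₂ * T.ga (F.r x) + |C₁| * |ρ| * T.ga (F.r x)) := by gcongr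
    _ = _ := by ring

end BdA

/-- **BD** -/
theorem bd_row : BD := by
  intro n M _ _ _ _ _ _ _ _ _ _ _ _ μ F _ _ A T p
  constructor
  · intro t ht φ hφ
    obtain ⟨W, L, hL, ⟨hW, C, hC⟩, h⟩ := BdA.slice T p.s3b ht.le hφ
    refine ⟨fun x => W x + L, ⟨BdA.psh_add hW L, C + L, fun x => ?_⟩, fun x q hq => ?_⟩
    · have h1 : L ≤ L * T.ga (F.r x) := le_mul_of_one_le_right hL (T.ga_one _)
      linarith [hC x]
    · have h1 : A.d t x q ≤ 1 := (dist_comm (α := Wm (A.G t)) x q).trans_le hq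
      have h2 := mul_le_mul_of_nonneg_left h1 hL
      linarith [h x q]
  · obtain ⟨W, L, hL, hW, h⟩ := BdA.slice T p.s3b le_rfl T.u0
    refine ⟨W, n + 2 + L ^ 2, hW, fun S hS t ht x => ?_⟩
    have h1 := p.ys x S (1 / 4) (S * W x + S ^ 2 * L ^ 2) hS (by norm_num) le_rfl (fun y => ?_)
      t ht.1 x
    · rw [dist_self] at h1
      have h2 : (n : ℝ) * t ≤ n * (1 + S) ^ 2 :=
        mul_le_mul_of_nonneg_left (by nlinarith [ht.2]) (Nat.cast_nonneg n)
      have h3 : S ^ 2 * L ^ 2 ≤ (1 + S) ^ 2 * L ^ 2 := by gcongr; linarith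
      nlinarith
    · have h2 := mul_le_mul_of_nonneg_left (h x y) hS.le
      rw [p.s3b.d_zero, dist_comm] at h2
      have h3 := dist_nonneg (x := y) (y := x)
      nlinarith [sq_nonneg (dist y x / 2 - S * L)]

end Vale.Agent.P253W.V
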