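import Vale.Agent.P253W.V.Mk1
import Vale.Agent.P253Z.B1a.Sec
import Vale.Agent.P253Z.B1b.Lin

/-!
# P253W, block V, row CMP: comparison of the slices
-/

open scoped Manifold ContDiff Bundle ENNReal Topology ComplexConjugate ComplexOrder Matrix
open Bundle IsManifold MeasureTheory Set Metric Filter Vale.Agent.P253.Mfd Vale.Agent.P253Z
open Vale.Agent.P272.K (Cm jacM Chart)

noncomputable section

namespace Vale.Agent.P253W.V

namespace Cmp

variable {n : ℕ}

lemma qf_eq (A : Mx n) (v : Cm n) : qf A v = (∑ j, ∑ k, A j k * (v j * conj (v k))).re := by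
  have h := MC.dot_eq A (star v)
  rw [star_star] at h
  rw [qf, h]

lemma qf_le {A B : Mx n} (h : (A - B).PosSemidef) (v : Cm n) : qf B v ≤ qf A v := by
  have h1 := (MC.psd h.1).1 h v
  rw [← qf_eq, qf, Matrix.sub_mulVec, dotProduct_sub, Complex.sub_re] at h1
  exact sub_nonneg.1 h1

section top

variable {M : Type} [TopologicalSpace M] [ChartedSpace (Cm n) M]

/-- the distance attached to a field of matrices -/
def len (W : M → Mx n) (x y : M) : ℝ≥0∞ :=
  ⨅ (γ : Path x y) (_ : ContMDiff (𝓡∂ 1) 𝓘(ℝ, Cm n) 1 γ),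
    ∫⁻ s, ENNReal.ofReal √(qf (W (γ s)) (mfderiv (𝓡∂ 1) 𝓘(ℝ, Cm n) γ s 1))

lemma len_mono {W W' : M → Mx n} (h : ∀ x v, qf (W x) v ≤ qf (W' x) v) (x y : M) :
    len W x y ≤ len W' x y :=
  iInf₂_mono fun _ _ => lintegral_mono fun _ =>
    ENNReal.ofReal_le_ofReal (Real.sqrt_le_sqrt (h _ _))

end top

variable {M : Type} [MetricSpace M] [ChartedSpace (Cm n) M] [IsManifold 𝓘(ℂ, Cm n) 1 M]
  [IsManifold 𝓘(ℝ, Cm n) ∞ M] [RiemannianBundle (fun x : M => TangentSpace 𝓘(ℝ, Cm n) x)]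

/-- the square of the norm -/
def ip (x : M) (v : Cm n) : ℝ := inner ℝ (E := TangentSpace 𝓘(ℝ, Cm n) x) v v

omit [IsManifold 𝓘(ℝ, Cm n) ∞ M] in
lemma ip_eq (hK : IsKahler (Cm n) M) (x : M) (v : Cm n) :
    ip x v = qf (hm (pc n x) (pc n x x)) v := by
  have hz := mem_chart_target (Cm n) x
  have h1 : hm (pc n x) (pc n x x) = MC.hmat (chartG (pc n x) (pc n x x)) := by
    ext j k
    rw [hm, MC.hmat, Matrix.of_apply, Matrix.of_apply, MC.hf, MC.single_I]
    rfl
  have h2 : chartG (pc n x) (pc n x x) v v =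
      ip ((pc n x).symm (pc n x x)) (mfderiv 𝓘(ℝ, Cm n) 𝓘(ℝ, Cm n) (pc n x).symm (pc n x x) v) :=
    rfl
  rw [Mk1.mfd (B1aP.chart x) hz, (pc n x).left_inv (mem_chart_source _ x),
    B1aP.jac_self _ (mem_chart_source _ x), Matrix.one_mulVec] at h2
  rw [qf_eq, h1, ← MC.hf_expand (hK _ (B1aP.chart x) _ hz).1, MC.hf_re, h2]

omit [IsManifold 𝓘(ℝ, Cm n) ∞ M] in
lemma edist_eq [IsRiemannianManifold 𝓘(ℝ, Cm n) M] (hK : IsKahler (Cm n) M) (x y : M) :
    edist x y = len (fun x => hm (pc n x) (pc n x x)) x y := by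
  rw [IsRiemannianManifold.out (I := 𝓘(ℝ, Cm n)), Manifold.riemannianEDist_def, len]
  refine iInf_congr fun γ => iInf_congr fun _ => lintegral_congr fun s => ?_
  rw [← ofReal_norm, norm_eq_sqrt_real_inner]
  exact congrArg (fun r => ENNReal.ofReal √r) (ip_eq hK _ _)

variable [ConnectedSpace M] {F : Flow n M}

lemma d_eq (A : Fam F) {t : ℝ} (ht : 0 ≤ t) (x y : M) :
    edist (α := Wm (A.G t)) x y = len (F.gx t) x y := by
  have h1 := edist_eq (M := Wm (A.G t)) (A.kahler t ht) x y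
  have h2 : (fun x : Wm (A.G t) => hm (pc n x) (pc n x x)) = F.gx t := funext fun x =>
    A.hm_eq t ht (pc n (M := M) x) (B1aP.chart _) _ (mem_chart_target _ _)
  rw [h2] at h1
  exact h1

lemma d_real (A : Fam F) {t : ℝ} (ht : 0 ≤ t) (x y : M) :
    A.d t x y = (len (F.gx t) x y).toReal ∧ len (F.gx t) x y ≠ ⊤ :=
  ⟨(dist_edist (α := Wm (A.G t)) x y).trans (congrArg _ (d_eq A ht x y)),
    (d_eq A ht x y).symm.trans_ne (edist_ne_top (α := Wm (A.G t)) x y)⟩

omit [ConnectedSpace M] [IsManifold 𝓘(ℝ, Cm n) ∞ M] in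
lemma vol [MeasurableSpace M] [BorelSpace M] {μ : Measure M} (hμ : IsVol n μ) (hF : F.Is)
    (hB : F.Bas1) {t : ℝ} (ht : 0 ≤ t) {e : Chart n M} (he : Hc e) {f : M → ℝ≥0∞}
    (hf : Measurable f) (h0 : ∀ x ∉ e.source, f x = 0) : ∫⁻ x, f x ∂F.vol μ t =
      ∫⁻ z in e.target, f (e.symm z) * ENNReal.ofReal (F.g t e z).det.re := by
  have hc : ∀ s, 0 ≤ s → Continuous (F.u s) := fun s hs =>
    B1aP.sm_cont _ (hB.sm_at _ hB.u_sm s hs)
  have hρ : Measurable fun x => ENNReal.ofReal (Real.exp (F.u 0 x - F.u t x)) :=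
    (((hc 0 le_rfl).sub (hc t ht)).rexp.measurable).ennreal_ofReal
  have h2 := hμ e he _ (hρ.mul hf) fun x hx => by rw [Pi.mul_apply, h0 x hx, mul_zero]
  refine (lintegral_withDensity_eq_lintegral_mul μ hρ hf).trans (h2.trans
    (setLIntegral_congr_fun e.open_target.measurableSet fun z hz => ?_))
  have h6 := (Complex.pos_iff.1 (hF.pos t ht e he z hz).det_pos).1
  have h7 := (Complex.pos_iff.1 (hF.pos 0 le_rfl e he z hz).det_pos).1
  have h8 : 0 < ‖co 1 F.Ω e z‖ ^ 2 :=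
    pow_pos (norm_pos_iff.2 (mul_ne_zero (zpow_ne_zero _ (B1aP.jac_ne' he hz)) (hF.ne _))) _
  have h9 : Real.exp (F.u 0 (e.symm z) - F.u t (e.symm z)) * (F.g 0 e z).det.re =
      (F.g t e z).det.re := by
    rw [Real.exp_sub, hB.u_eq t ht e he z hz, hB.u_eq 0 le_rfl e he z hz,
      Real.exp_log (div_pos h8 h6), Real.exp_log (div_pos h8 h7),
      div_div_div_cancel_left' _ _ h8.ne', div_mul_cancel₀ _ h7.ne']
  rw [hB.g_zero] at h9
  simp only [Pi.mul_apply]
  rw [← h9, ENNReal.ofReal_mul (Real.exp_pos _).le, ← mul_assoc, mul_comm (f _), vd]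

end Cmp

open Cmp in
theorem cmp_row : CMP := by
  intro n M _ _ _ _ _ _ _ _ _ _ _ _ μ F hc hF hB A
  refine ⟨fun t ht e he f hf h0 => (vol hc.vol hF hB ht he hf h0).trans
    (setLIntegral_congr_fun e.open_target.measurableSet fun z hz => ?_), fun x y => ?_,
    fun s t hs ht h x y => ?_⟩
  · exact congrArg (fun W : Mx n => f (e.symm z) * ENNReal.ofReal W.det.re)
      (A.hm_eq t ht e he z hz).symm
  · have h1 : F.gx 0 = fun x => hm (pc n x) (pc n x x) := funext fun x => hB.g_zero _ _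
    rw [(d_real A le_rfl x y).1, dist_edist, edist_eq hc.kahler, h1]
  · rw [(d_real A hs x y).1, (d_real A ht x y).1]
    exact ENNReal.toReal_mono (d_real A hs x y).2
      (len_mono (fun x v => qf_le (h _ (B1aP.chart x) _ (mem_chart_target _ x)) v) x y)

end Vale.Agent.P253W.V
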