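import Vale.Agent.P253W.V.Defs
import Vale.Agent.P253Z.B1a.Ch

/-!
# P253W, block V, row DCH: discs in a chart
-/

open scoped Manifold ContDiff Bundle Topology Matrix
open Bundle IsManifold Set Metric Filter Vale.Agent.P253.Mfd Vale.Agent.P253Z
open Vale.Agent.P272.K (Cm jacM Chart)

noncomputable section

namespace Vale.Agent.P253W.V

variable {n : ℕ} {M : Type} [MetricSpace M] [ChartedSpace (Cm n) M] [IsManifold 𝓘(ℂ, Cm n) 1 M]

/-- the entries of the inverse Jacobian matrix are analytic in the chart `e` -/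
theorem jac_entry_an {e e' : Chart n M} (he : Hc e) (he' : Hc e') {z : Cm n} (hz : z ∈ e.target)
    (hz' : e.symm z ∈ e'.source) (p i : Fin n) :
    AnalyticAt ℂ (fun y => jacM e' e (e.symm y) p i) z := by
  have h1 : AnalyticAt ℂ (fun y => e' (e.symm y)) z := B1aP.hol he he' hz hz'
  have h2 : AnalyticAt ℂ (fun y => e (e'.symm y)) (e' (e.symm z)) :=
    B1aP.hol' he' he hz' (e.map_target hz)
  have h3 := (B1aP.analyticAt_entry h2 p i).comp_of_eq h1 rfl
  refine h3.congr ?_
  filter_upwards [B1aP.ev_both hz hz'] with y hy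
  rw [B1aP.jac_eq he' he hy.2 (e.map_target hy.1)]
  rfl

/-- the components of the covector in another chart -/
theorem cv_disc {e e' : Chart n M} (he : Hc e) (he' : Hc e') {x : M} (hx : x ∈ e.source)
    (hx' : x ∈ e'.source) (v : Cm n) :
    cv e' x (v ᵥ* jacM (pc n x) e x) = v ᵥ* jacM e' e x := by
  unfold cv
  rw [Matrix.vecMul_vecMul,
    ← B1aP.jac_mul he' (B1aP.chart x) he hx' (mem_chart_source _ x) hx]

theorem dch_row : DCH := by
  intro n M _ _ _ _ _ _ _ _ _ _ _ _ μ F _ _ h1 S e he c hc hS hne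
  have hcc : ContinuousOn c (closedBall 0 1) := by
    have := hc.continuousOn
    rwa [closure_ball (0 : ℂ) one_ne_zero] at this
  have hd := hc.differentiableOn
  have hsrc : ∀ τ ∈ closedBall (0 : ℂ) 1, e.symm (c τ).1 ∈ e.source := fun τ hτ =>
    e.map_target (hS τ hτ).1
  have hcv : ∀ τ ∈ closedBall (0 : ℂ) 1, cv e (e.symm (c τ).1)
      ((c τ).2.1 ᵥ* jacM (pc n (e.symm (c τ).1)) e (e.symm (c τ).1)) = (c τ).2.1 := by
    intro τ hτ
    rw [cv_disc he he (hsrc τ hτ) (hsrc τ hτ), B1aP.jac_self e (hsrc τ hτ), Matrix.vecMul_one]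
  have hcv' : ∀ e' : Chart n M, Hc e' → ∀ τ ∈ closedBall (0 : ℂ) 1,
      e.symm (c τ).1 ∈ e'.source → cv e' (e.symm (c τ).1)
      ((c τ).2.1 ᵥ* jacM (pc n (e.symm (c τ).1)) e (e.symm (c τ).1)) =
        fun i => ∑ p, (c τ).2.1 p * jacM e' e (e.symm (c τ).1) p i := by
    intro e' he' τ hτ hτ'
    rw [cv_disc he he' (hsrc τ hτ) hτ']
    rfl
  let D : Disc n M S :=
    { f := fun τ => e.symm (c τ).1
      ξ := fun τ => (c τ).2.1 ᵥ* jacM (pc n (e.symm (c τ).1)) e (e.symm (c τ).1)
      ζ := fun τ => (c τ).2.2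
      cf := e.continuousOn_symm.comp hcc.fst fun τ hτ => (hS τ hτ).1
      hf := by
        have h2 : MDifferentiableOn 𝓘(ℂ, Cm n) 𝓘(ℂ, Cm n) e.symm e.target :=
          (contMDiffOn_symm_of_mem_maximalAtlas he).mdifferentiableOn one_ne_zero
        exact h2.comp (mdifferentiableOn_iff_differentiableOn.2 hd.fst) fun τ hτ =>
          (hS τ (ball_subset_closedBall hτ)).1
      cξ := by
        intro e' he'
        refine ContinuousOn.congr ?_ fun τ hτ => hcv' e' he' τ hτ.1 hτ.2
        refine continuousOn_pi.2 fun i => continuousOn_finsetSum _ fun p _ => ?_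
        refine ContinuousOn.mul ?_ fun τ hτ => ?_
        · exact ((continuous_apply p).comp_continuousOn hcc.snd.fst).mono inter_subset_left
        · exact (jac_entry_an he he' (hS τ hτ.1).1 hτ.2 p i).continuousAt.comp_continuousWithinAt
            (f := fun τ => (c τ).1) ((hcc.fst τ hτ.1).mono inter_subset_left)
      hξ := by
        intro e' he'
        refine DifferentiableOn.congr ?_ fun τ hτ =>
          hcv' e' he' τ (ball_subset_closedBall hτ.1) hτ.2
        refine differentiableOn_pi.2 fun i => DifferentiableOn.fun_sum fun p _ => ?_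
        refine DifferentiableOn.mul ?_ fun τ hτ => ?_
        · exact (differentiableOn_pi.1 hd.snd.fst p).mono inter_subset_left
        · exact (jac_entry_an he he' (hS τ (ball_subset_closedBall hτ.1)).1 hτ.2 p
            i).differentiableAt.comp_differentiableWithinAt τ
            (f := fun τ => (c τ).1) ((hd.fst τ hτ.1).mono inter_subset_left)
      ne := by
        intro τ hτ h0
        have h2 := hcv τ (sphere_subset_closedBall hτ)
        rw [h0] at h2
        exact hne τ hτ (by rw [← h2]; exact Matrix.zero_vecMul _)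
      hζ := ⟨hd.snd.snd, hc.continuousOn.snd.snd⟩
      le := fun τ hτ => (hS τ hτ).2 }
  refine ⟨D, fun τ => ⟨rfl, rfl⟩, hcv, ?_⟩
  refine Real.circleAverage_congr_sphere fun τ hτ => ?_
  rw [abs_one] at hτ
  have hτ' := sphere_subset_closedBall hτ
  have h2 := h1.H_eq (Real.exp (2 * (c τ).2.2.re)) (Real.exp_pos _).le e he _ (hsrc τ hτ')
    ((c τ).2.1 ᵥ* jacM (pc n (e.symm (c τ).1)) e (e.symm (c τ).1))
  rw [hcv τ hτ', e.right_inv (hS τ hτ').1] at h2
  exact congrArg Real.log h2

end Vale.Agent.P253W.V
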