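import Vale.Agent.P253W.V.Defs

/-!
# P253W, block V, row DH1: the change of the connection
-/

open scoped Topology ComplexConjugate ComplexOrder Matrix
open Set Filter
open Vale.Agent.P272.K (Cm)

noncomputable section

namespace Vale.Agent.P253W.V

namespace Dh1

variable {n : ℕ} {A B : Mx n}

/-- the form `v^* A v` -/
def q (A : Mx n) (v : Cm n) : ℝ := (star v ⬝ᵥ (A *ᵥ v)).re

theorem q_nn (h : A.PosSemidef) (v : Cm n) : 0 ≤ q A v :=
  (Complex.nonneg_iff.1 (h.dotProduct_mulVec_nonneg v)).1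

theorem q_pos (h : A.PosDef) {v : Cm n} (hv : v ≠ 0) : 0 < q A v :=
  (Complex.pos_iff.1 (h.dotProduct_mulVec_pos hv)).1

theorem q_le {r : ℝ} (h : ((r : ℂ) • A - B).PosSemidef) (v : Cm n) : q B v ≤ r * q A v := by
  have := q_nn h v
  simp only [q, Matrix.sub_mulVec, Matrix.smul_mulVec, dotProduct_sub, dotProduct_smul,
    smul_eq_mul, Complex.sub_re, Complex.re_ofReal_mul] at this ⊢
  linarith

theorem q_par (h : A.PosSemidef) (a b : Cm n) : q A a ≤ 2 * q A b + 2 * q A (a - b) := by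
  have := q_nn h (b - (a - b))
  simp only [q, Matrix.mulVec_sub, star_sub, dotProduct_sub, sub_dotProduct, Complex.sub_re]
    at this ⊢
  linarith

theorem tr_nn {r : ℝ} (hA : A.PosDef) (hB : B.PosSemidef) (h : ((r : ℂ) • A - B).PosSemidef)
    {v : Cm n} (hv : v ≠ 0) : 0 ≤ r :=
  nonneg_of_mul_nonneg_left ((q_nn hB v).trans (q_le h v)) (q_pos hA hv)

theorem inv_dot (h : A.PosDef) (u v : Cm n) : star (A⁻¹ *ᵥ u) ⬝ᵥ v = star u ⬝ᵥ (A⁻¹ *ᵥ v) := by
  rw [Matrix.star_mulVec, h.inv.isHermitian.eq, Matrix.dotProduct_mulVec]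

theorem q_sub (hA : A.PosDef) (hB : B.PosDef) (ξ : Cm n) :
    q A (B⁻¹ *ᵥ ξ - A⁻¹ *ᵥ ξ) = q A (B⁻¹ *ᵥ ξ) - 2 * hq B ξ + hq A ξ := by
  have e : ∀ v, A⁻¹ *ᵥ (A *ᵥ v) = v := fun v => by
    rw [Matrix.mulVec_mulVec, Matrix.nonsing_inv_mul _ hA.det_pos.ne'.isUnit, Matrix.one_mulVec]
  have e' : A *ᵥ (A⁻¹ *ᵥ ξ) = ξ := by
    rw [Matrix.mulVec_mulVec, Matrix.mul_nonsing_inv _ hA.det_pos.ne'.isUnit, Matrix.one_mulVec]
  simp only [q, hq, Matrix.mulVec_sub, star_sub, dotProduct_sub, sub_dotProduct, Complex.sub_re,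
    e', inv_dot hA, e]
  rw [inv_dot hB ξ ξ]
  ring

theorem hd_dot {A : ℝ → Mx n} {A' : Mx n} {t : ℝ}
    (h : ∀ j k, HasDerivAt (fun s => A s j k) (A' j k) t) (u v : Cm n) :
    HasDerivAt (fun s => u ⬝ᵥ (A s *ᵥ v)) (u ⬝ᵥ (A' *ᵥ v)) t :=
  HasDerivAt.fun_sum fun j _ => (HasDerivAt.fun_sum fun k _ => (h j k).mul_const (v k)).const_mul _

theorem hd_q {A : ℝ → Mx n} {A' : Mx n} {t : ℝ}
    (h : ∀ j k, HasDerivAt (fun s => A s j k) (-A' j k) t) (v : Cm n) :
    HasDerivAt (fun s => q (A s) v) (-q A' v) t :=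
  (Complex.reCLM.hasFDerivAt.comp_hasDerivAt t (hd_dot (A' := -A') h (star v) v)).congr_deriv (by
    simp [q, Matrix.neg_mulVec])

theorem mono {f : ℝ → ℝ} {a b : ℝ} (h : ∀ s ∈ Icc a b, ∃ d, HasDerivAt f d s ∧ 0 ≤ d) :
    MonotoneOn f (Icc a b) :=
  monotoneOn_of_deriv_nonneg (convex_Icc a b)
    (fun s hs => (h s hs).choose_spec.1.continuousAt.continuousWithinAt)
    (fun s hs => (h s (interior_subset hs)).choose_spec.1.differentiableAt.differentiableWithinAt)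
    fun s hs => let ⟨_, h1, h2⟩ := h s (interior_subset hs); h1.deriv ▸ h2

/-- the inequality of Gronwall, backwards -/
theorem gron {N N' : ℝ → ℝ} {t t' K P : ℝ} (t0 : 0 < t) (K0 : 0 ≤ K) (P0 : 0 ≤ P)
    (hK : K * Real.log (t' / t) ≤ 1) (h0 : N t' = 0)
    (h : ∀ s ∈ Icc t t', HasDerivAt N (N' s) s ∧ -(s * N' s) ≤ P + 2 * K * N s) :
    ∀ s ∈ Icc t t', N s ≤ 8 * P * Real.log (t' / t) := by
  intro s hs
  have p : ∀ r ∈ Icc t t', 0 < r := fun r hr => t0.trans_le hr.1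
  have ht' : t' ∈ Icc t t' := right_mem_Icc.2 (hs.1.trans hs.2)
  have m := mono (f := fun r => N r * Real.exp (2 * K * (Real.log r - Real.log t')) +
    P * Real.log r) (fun r hr => ⟨_, ((h r hr).1.fun_mul (((Real.hasDerivAt_log
      (p r hr).ne').sub_const _).const_mul _).exp).fun_add ((Real.hasDerivAt_log
        (p r hr).ne').const_mul P), by
      have e1 : Real.exp (2 * K * (Real.log r - Real.log t')) ≤ 1 := Real.exp_le_one_iff.2
        (mul_nonpos_of_nonneg_of_nonpos (by positivity) (sub_nonpos.2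
          (Real.log_le_log (p r hr) hr.2)))
      have e2 := Real.exp_pos (2 * K * (Real.log r - Real.log t'))
      generalize Real.exp (2 * K * (Real.log r - Real.log t')) = E at e1 e2 ⊢
      have r0 := p r hr
      rw [show N' r * E + N r * (E * (2 * K * r⁻¹)) + P * r⁻¹ =
        (E * (r * N' r + 2 * K * N r + P) + (1 - E) * P) / r by field_simp; ring]
      exact div_nonneg (add_nonneg (mul_nonneg e2.le (by linarith [(h r hr).2]))
        (mul_nonneg (sub_nonneg.2 e1) P0)) r0.le⟩) hs ht' hs.2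
  simp only [h0, zero_mul, zero_add] at m
  rw [Real.log_div (p _ ht').ne' t0.ne'] at hK ⊢
  have l1 := Real.log_le_log t0 hs.1
  have l2 := Real.log_le_log (p s hs) hs.2
  have e : 1 / 8 ≤ Real.exp (2 * K * (Real.log s - Real.log t')) := by
    refine le_trans ?_ (Real.exp_le_exp.2 (show -1 + -1 ≤ _ by nlinarith))
    rw [Real.exp_add]
    nlinarith [Real.exp_neg_one_gt_d9]
  by_contra c
  have c0 : 0 ≤ P * (Real.log t' - Real.log t) := mul_nonneg P0 (by linarith)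
  nlinarith [mul_le_mul_of_nonneg_left l1 P0, mul_le_mul_of_nonneg_left e
    (show 0 ≤ N s by linarith [not_le.1 c])]

theorem amgm {x y m : ℝ} (hx : 0 ≤ x) (hy : 0 ≤ y) (hm : 0 < m) :
    2 * (√x * √y) ≤ x / m + m * y := by
  have := sq_nonneg (√x - m * √y)
  rw [div_add' _ _ _ hm.ne', le_div_iff₀ hm]
  rw [sub_sq, mul_pow, Real.sq_sqrt hx, Real.sq_sqrt hy] at this
  linarith

end Dh1

open Dh1

theorem dh1_row : DH1 := by
  refine fun lfc => ⟨38, by norm_num, ?_⟩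
  intro n U W f z hz X ξ t t' K Λ t0 tt K1 hK hξ hX hR hΛ
  have c := lfc n U W f
  rcases tt.eq_or_lt with rfl | tl
  · simp [t0.ne']
  have p : ∀ s ∈ Icc t t', 0 < s := fun s hs => t0.trans_le hs.1
  have ht : t ∈ Icc t t' := left_mem_Icc.2 tt
  have ht' : t' ∈ Icc t t' := right_mem_Icc.2 tt
  have pos := fun s hs => f.pos s (p s hs) z hz
  have ric := fun s hs => c.ric s (p s hs) z hz
  have ktt := fun s hs => c.ktt s (p s hs) z hz
  have H0 : ∀ s ∈ Icc t t', 0 < hq (W s z) ξ := fun s hs => q_pos (pos s hs).inv hξ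
  have l0 : ∀ s ∈ Icc t t', 0 ≤ lam W z ξ s := fun s hs =>
    mul_nonneg (p s hs).le (q_nn (ric s hs).1 _)
  have Λ0 : 0 ≤ Λ := nonneg_of_mul_nonneg_left ((l0 _ ht').trans hΛ) (H0 _ ht')
  have L0 : 0 < Real.log (t' / t) := Real.log_pos ((one_lt_div t0).2 tl)
  have KL : K * Real.log (t' / t) ≤ 1 := by
    rw [← le_div_iff₀' (by linarith), Real.log_le_iff_le_exp (div_pos (p _ ht') t0),
      div_le_iff₀' t0]
    exact hK
  choose! d hd using fun s hs => c.lam_t s (p s hs) z hz ξ hξ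
  have d0 : ∀ s ∈ Icc t t', 0 ≤ d s := fun s hs => nonneg_of_mul_nonneg_right
    ((div_nonneg (q_nn (ktt s hs).1 _) (H0 s hs).le).trans (hd s hs).2) (p s hs)
  have Hm := mono fun s hs => ⟨_, c.hq_t s (p s hs) z hz ξ, div_nonneg (l0 s hs) (p s hs).le⟩
  have lm := mono fun s hs => ⟨_, (hd s hs).1, d0 s hs⟩
  have Xm := mono fun s hs => ⟨_, (hd_q (f.eq s (p s hs) z hz) (star X)).fun_neg,
    (q_nn (ric s hs).1 _).trans_eq (neg_neg _).symm⟩
  have hΛ' := (div_le_iff₀ (H0 _ ht')).2 hΛ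
  set H := hq (W t' z) ξ with hH
  set L := Real.log (t' / t) with hL
  set a := (W t' z)⁻¹ *ᵥ ξ with ha
  have P0 : 0 ≤ Λ * H := mul_nonneg Λ0 (H0 _ ht').le
  have lb : ∀ s ∈ Icc t t', s * q (rho (W s) z) ((W s z)⁻¹ *ᵥ ξ) ≤ Λ * H := fun s hs =>
    ((div_le_iff₀ (H0 s hs)).1 ((lm hs ht' hs.2).trans hΛ')).trans
      (mul_le_mul_of_nonneg_left (Hm hs ht' hs.2) Λ0)
  have rc : ∀ s ∈ Icc t t', ∀ v, s * q (rho (W s) z) v ≤ K * q (W s z) v := fun s hs v =>
    (mul_le_mul_of_nonneg_left (q_le (ric s hs).2 v) (p s hs).le).trans ((mul_assoc _ _ _).symm.trans_le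
      (mul_le_mul_of_nonneg_right (hR s hs) (q_nn (pos s hs).posSemidef v)))
  have Nb : ∀ s ∈ Icc t t', q (W s z) (a - (W s z)⁻¹ *ᵥ ξ) ≤ 8 * (Λ * H) * L := fun s hs => by
    rw [q_sub (pos s hs) (pos _ ht')]
    refine gron (N := fun s => q (W s z) a - 2 * H + hq (W s z) ξ) t0 (by linarith) P0 KL ?_
      (fun r hr => ⟨((hd_q (f.eq r (p r hr) z hz) a).sub_const _).fun_add
        (c.hq_t r (p r hr) z hz ξ), ?_⟩) s hs
    · rw [← q_sub (pos _ ht') (pos _ ht')]
      simp [q]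
    · have e1 := mul_le_mul_of_nonneg_left (q_par (ric r hr).1 a ((W r z)⁻¹ *ᵥ ξ)) (p r hr).le
      have e2 := rc r hr (a - (W r z)⁻¹ *ᵥ ξ)
      rw [q_sub (pos r hr) (pos _ ht')] at e2
      rw [lam, mul_div_cancel_left₀ _ (p r hr).ne']
      have e3 := lb r hr
      unfold q at *
      linarith
  have xb : ∀ s ∈ Icc t t', ∀ v, q (Kxx (W s) z X) v ≤ q (rho (W s) z) v := fun s hs v =>
    (q_le (c.bk s (p s hs) z hz X).2 v).trans (mul_le_of_le_one_left (q_nn (ric s hs).1 v) (by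
      have := Xm ht hs hs.1
      simp only [q, star_star] at this
      unfold qf at *
      linarith))
  have m0 : 0 < √(L / t) := Real.sqrt_pos.2 (div_pos L0 t0)
  have m2 : √(L / t) ^ 2 * t = L := by rw [Real.sq_sqrt (div_pos L0 t0).le]; field_simp
  generalize √(L / t) = m at m0 m2 ⊢
  have dφ := fun s hs => (hd_dot (c.conn_t s (p s hs) z hz X) (star a) ξ).const_sub
    (star a ⬝ᵥ ((DX X (W t) z * (W t z)⁻¹) *ᵥ ξ))
  have dB := fun s hs => ((((Real.hasDerivAt_log (p s hs).ne').sub_const (Real.log t)).const_mul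
    (19 * (Λ * H) / (t * m))).fun_add ((hd s hs).1.const_mul (3 * H * m))).fun_add
      ((c.tR_t s (p s hs) z hz).const_mul (16 * (Λ * H) * L * m))
  have R0 : 0 ≤ tR W t z := mul_nonneg t0.le (tr_nn (pos t ht) (ric t ht).1 (ric t ht).2 hξ)
  have := image_norm_le_of_norm_deriv_right_le_deriv_boundary'
    (fun s hs => (dφ s hs).continuousAt.continuousWithinAt)
    (fun s hs => (dφ s (Ico_subset_Icc_self hs)).hasDerivWithinAt) (by
      have := div_nonneg (l0 t ht) (H0 t ht).le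
      have := (H0 _ ht').le
      simp only [sub_self, norm_zero, mul_zero, zero_add]
      positivity)
    (fun s hs => (dB s hs).continuousAt.continuousWithinAt)
    (fun s hs => (dB s (Ico_subset_Icc_self hs)).hasDerivWithinAt) (fun s hs' => ?_) ht'
  · rw [Matrix.sub_mulVec, dotProduct_sub]
    refine this.trans ?_
    rw [← Real.log_div (p _ ht').ne' t0.ne', ← hL,
      show 19 * (Λ * H) / (t * m) * L = 19 * (Λ * H) * m by rw [← m2]; field_simp]
    have e1 := mul_le_mul_of_nonneg_left hΛ' (mul_pos (H0 _ ht') m0).le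
    have e2 := mul_le_mul_of_nonneg_left (hR _ ht') (mul_nonneg (mul_nonneg P0 m0.le) L0.le)
    have e3 := mul_le_mul_of_nonneg_left KL (mul_nonneg P0 m0.le)
    linarith
  · have hs := Ico_subset_Icc_self hs'
    have s0 := p s hs
    have e : ∀ A B : Mx n, -(star a ⬝ᵥ (-((s : ℂ)⁻¹ • (A * B))) *ᵥ ξ) =
        (s : ℂ)⁻¹ * (star a ⬝ᵥ (A *ᵥ (B *ᵥ ξ))) := fun A B => by
      rw [Matrix.neg_mulVec, dotProduct_neg, neg_neg, Matrix.smul_mulVec, dotProduct_smul,
        Matrix.mulVec_mulVec, smul_eq_mul]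
    set b := (W s z)⁻¹ *ᵥ ξ with hb
    have xx := (c.bk s s0 z hz X).1
    have a1 := amgm (q_nn xx a) (q_nn (ktt s hs).1 b) m0
    have a2 := amgm (q_nn xx b) (q_nn (ktt s hs).1 a) m0
    have x1 : (q (Kxx (W s) z X) a + q (Kxx (W s) z X) b) / m ≤ 19 * (Λ * H) / (t * m) := by
      rw [← div_div]
      gcongr
      rw [le_div_iff₀' t0]
      refine (mul_le_mul_of_nonneg_right hs.1 (add_nonneg (q_nn xx a) (q_nn xx b))).trans ?_
      nlinarith [mul_le_mul_of_nonneg_left (q_par xx a b) s0.le,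
        mul_le_mul_of_nonneg_left (xb s hs b) s0.le, lb s hs, rc s hs (a - b),
        mul_le_mul_of_nonneg_left (xb s hs (a - b)) s0.le, mul_le_mul_of_nonneg_left KL P0,
        mul_le_mul_of_nonneg_left (Nb s hs) (show 0 ≤ K by linarith)]
    have y1 : q (Ktt W s z) b ≤ s * d s * H := ((div_le_iff₀ (H0 s hs)).1 (hd s hs).2).trans
      (mul_le_mul_of_nonneg_left (Hm hs ht' hs.2) (mul_nonneg s0.le (d0 s hs)))
    have y2 := (q_le (ktt s hs).2 (a - b)).trans (mul_le_mul_of_nonneg_left (Nb s hs)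
      (tr_nn (pos s hs) (ktt s hs).1 (ktt s hs).2 hξ))
    have y3 := mul_le_mul_of_nonneg_left (show q (Ktt W s z) a + q (Ktt W s z) b ≤ 3 * (s * d s * H) +
      2 * (trg (W s z) (Ktt W s z) * (8 * (Λ * H) * L)) by
        linarith [q_par (ktt s hs).1 a b]) m0.le
    refine (congrArg norm (e _ _)).trans_le ?_
    rw [norm_mul, norm_inv, Complex.norm_real, Real.norm_of_nonneg s0.le, inv_mul_le_iff₀ s0,
      show ∀ u v w : ℝ, s * (u * s⁻¹ + v + w * (trg (W s z) (Ktt W s z) / s)) =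
        u + s * v + w * trg (W s z) (Ktt W s z) from fun u v w => by field_simp]
    have := c.mix s s0 z hz X a b
    rw [add_div] at x1
    unfold q at *
    linarith

end Vale.Agent.P253W.V
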