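import Vale.Agent.P253W.V.Defs
import Vale.Agent.P253W.V.Alg
import Vale.Agent.P272.K.INT.Wirt

/-!
# P253W, block V, row DH2: the directional Harnack inequality
-/

open scoped ContDiff Topology ComplexConjugate ComplexOrder Matrix
open Set Filter
open Vale.Agent.P272.K (Cm dz dzb)
open Vale.Agent.P272.K.C2 (DM DMb MC MD DMb_of_isHermitian)

noncomputable section

namespace Vale.Agent.P253W.V

namespace Dh2

variable {n : ℕ}

theorem log_le {f f' : ℝ → ℝ} {a b Λ : ℝ} (ha : 0 < a) (hab : a ≤ b)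
    (hf : ∀ x ∈ Icc a b, HasDerivAt f (f' x / x) x) (h : ∀ x ∈ Icc a b, Λ ≤ f' x) :
    Λ * Real.log (b / a) ≤ f b - f a := by
  have h1 : ∀ x ∈ Icc a b, HasDerivAt (fun x => f x - Λ * Real.log x) (f' x / x - Λ * x⁻¹) x :=
    fun x hx => (hf x hx).sub ((Real.hasDerivAt_log (ha.trans_le hx.1).ne').const_mul Λ)
  have h2 := monotoneOn_of_hasDerivWithinAt_nonneg (convex_Icc a b)
    (fun x hx => (h1 x hx).continuousAt.continuousWithinAt)
    (fun x hx => (h1 x (interior_subset hx)).hasDerivWithinAt) (fun x hx => by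
      have hx' := interior_subset hx
      rw [div_eq_mul_inv, ← sub_mul]
      exact mul_nonneg (sub_nonneg.2 (h x hx')) (inv_nonneg.2 (ha.le.trans hx'.1)))
    ⟨le_rfl, hab⟩ ⟨hab, le_rfl⟩ hab
  rw [Real.log_div (ha.trans_le hab).ne' ha.ne']
  simp only at h2
  linarith

/-! ### matrices -/

theorem re_nonneg {A : Mx n} (h : A.PosSemidef) (x : Cm n) : 0 ≤ (star x ⬝ᵥ (A *ᵥ x)).re :=
  (Complex.nonneg_iff.1 (h.dotProduct_mulVec_nonneg x)).1

theorem star_dot {A : Mx n} (h : A.IsHermitian) (x y : Cm n) :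
    star (A *ᵥ x) ⬝ᵥ y = star x ⬝ᵥ (A *ᵥ y) := by
  rw [Matrix.star_mulVec, h.eq, Matrix.dotProduct_mulVec]

theorem re_symm {A : Mx n} (h : A.IsHermitian) (x y : Cm n) :
    (star x ⬝ᵥ (A *ᵥ y)).re = (star y ⬝ᵥ (A *ᵥ x)).re := by
  rw [← star_dot h, Matrix.star_dotProduct, Complex.star_def, Complex.conj_re]

theorem inv_mul_vec {A : Mx n} (h : A.PosDef) (x : Cm n) : A⁻¹ *ᵥ (A *ᵥ x) = x := by
  rw [Matrix.mulVec_mulVec, Matrix.nonsing_inv_mul _ ((Matrix.isUnit_iff_isUnit_det _).1 h.isUnit),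
    Matrix.one_mulVec]

theorem mul_inv_vec {A : Mx n} (h : A.PosDef) (x : Cm n) : A *ᵥ (A⁻¹ *ᵥ x) = x := by
  rw [Matrix.mulVec_mulVec, Matrix.mul_nonsing_inv _ ((Matrix.isUnit_iff_isUnit_det _).1 h.isUnit),
    Matrix.one_mulVec]

theorem star_qf {A : Mx n} (h : A.IsHermitian) (v : Cm n) :
    (star (A *ᵥ star v) ⬝ᵥ star v).re = qf A v := by
  rw [star_dot h, star_star, qf]

theorem hq_qf {A : Mx n} (h : A.PosDef) (v : Cm n) : hq A (A *ᵥ star v) = qf A v := by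
  rw [hq, inv_mul_vec h, star_qf h.1]

theorem hq_sub {A : Mx n} (h : A.PosDef) (a : ℝ) (x y : Cm n) : hq A ((a : ℂ) • x - y) =
    a ^ 2 * hq A x - 2 * a * (star x ⬝ᵥ (A⁻¹ *ᵥ y)).re + hq A y := by
  have := re_symm h.inv.1 x y
  simp only [hq, star_sub, star_smul, Matrix.mulVec_sub, Matrix.mulVec_smul, sub_dotProduct,
    dotProduct_sub, smul_dotProduct, dotProduct_smul, smul_eq_mul, Complex.star_def,
    Complex.conj_ofReal, Complex.sub_re, Complex.re_ofReal_mul]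
  rw [← this]
  ring

theorem mat {A B : Mx n} (hA : A.PosDef) (hB : B.PosDef) (h1 : ∀ ξ, hq A ξ ≤ hq B ξ)
    (h2 : ∀ ξ, hq B ξ ≤ 3 * hq A ξ) (v : Cm n) :
    hq B (A *ᵥ star v) - qf A v ≤ 3 * (qf A v - qf B v) := by
  have a1 := h1 (((3 : ℝ) : ℂ) • (B *ᵥ star v) - A *ᵥ star v)
  have a2 := h2 (((1 : ℝ) : ℂ) • (B *ᵥ star v) - A *ᵥ star v)
  have e1 : (star (B *ᵥ star v) ⬝ᵥ (A⁻¹ *ᵥ (A *ᵥ star v))).re = qf B v := by
    rw [inv_mul_vec hA, star_qf hB.1]
  have e2 : (star (B *ᵥ star v) ⬝ᵥ (B⁻¹ *ᵥ (A *ᵥ star v))).re = qf A v := by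
    rw [re_symm hB.inv.1, inv_mul_vec hB, star_qf hA.1]
  rw [hq_sub hA, hq_sub hB, e1, e2, hq_qf hA, hq_qf hB] at a1 a2
  linarith

/-! ### the time direction -/

variable {U : Set (Cm n)} {W : ℝ → Cm n → Mx n} {z ξ : Cm n}

/-- `t ∂_t log H` -/
def Lam (W : ℝ → Cm n → Mx n) (z ξ : Cm n) (s : ℝ) : ℝ := lam W z ξ s / hq (W s z) ξ

section time

variable (hW : LF U W) (hC : LC U W) (hz : z ∈ U) (hξ : ξ ≠ 0)

include hW hC hz hξ

theorem Lam_nonneg {s : ℝ} (hs : 0 < s) : 0 ≤ Lam W z ξ s :=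
  div_nonneg (mul_nonneg hs.le (re_nonneg (hC.ric s hs z hz).1 _))
    (Alg.hq_pos (hW.pos s hs z hz) hξ).le

theorem Lam_le {s : ℝ} (hs : 0 < s) : Lam W z ξ s ≤ tR W s z := by
  have h := re_nonneg (hC.ric s hs z hz).2 ((W s z)⁻¹ *ᵥ ξ)
  rw [Matrix.sub_mulVec, Matrix.smul_mulVec, mul_inv_vec (hW.pos s hs z hz), dotProduct_sub,
    dotProduct_smul, smul_eq_mul, Complex.sub_re, Complex.re_ofReal_mul,
    star_dot (hW.pos s hs z hz).inv.1] at h
  rw [Lam, div_le_iff₀ (Alg.hq_pos (hW.pos s hs z hz) hξ), lam, tR, mul_assoc]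
  exact mul_le_mul_of_nonneg_left (sub_nonneg.1 h) hs.le

theorem Lam_mono : MonotoneOn (Lam W z ξ) (Ioi 0) := by
  choose! d hd using fun s (hs : 0 < s) => hC.lam_t s hs z hz ξ hξ
  refine monotoneOn_of_hasDerivWithinAt_nonneg (convex_Ioi 0) (f' := d)
    (fun x hx => (hd x hx).1.continuousAt.continuousWithinAt)
    (fun x hx => (hd x (interior_subset hx)).1.hasDerivWithinAt) fun x hx => ?_
  have hx' : 0 < x := interior_subset hx
  exact nonneg_of_mul_nonneg_right ((div_nonneg (re_nonneg (hC.ktt x hx' z hz).1 _)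
    (Alg.hq_pos (hW.pos x hx' z hz) hξ).le).trans (hd x hx').2) hx'

theorem dlog {s : ℝ} (hs : 0 < s) :
    HasDerivAt (fun s => Real.log (hq (W s z) ξ)) (Lam W z ξ s / s) s := by
  convert (hC.hq_t s hs z hz ξ).log (Alg.hq_pos (hW.pos s hs z hz) hξ).ne' using 1
  rw [Lam, div_right_comm]

theorem lo {a b : ℝ} (ha : 0 < a) (hab : a ≤ b) : Lam W z ξ a * Real.log (b / a) ≤
    Real.log (hq (W b z) ξ) - Real.log (hq (W a z) ξ) :=
  log_le (f := fun s => Real.log (hq (W s z) ξ)) ha hab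
    (fun _ hx => dlog hW hC hz hξ (ha.trans_le hx.1))
    fun _ hx => Lam_mono hW hC hz hξ ha (ha.trans_le hx.1) hx.1

theorem mono {a b : ℝ} (ha : 0 < a) (hab : a ≤ b) :
    Real.log (hq (W a z) ξ) ≤ Real.log (hq (W b z) ξ) :=
  sub_nonneg.1 ((mul_nonneg (Lam_nonneg hW hC hz hξ ha)
    (Real.log_nonneg ((one_le_div ha).2 hab))).trans (lo hW hC hz hξ ha hab))

theorem up {a b K : ℝ} (ha : 0 < a) (hab : a ≤ b) (hK : ∀ s ∈ Icc a b, tR W s z ≤ K) :
    Real.log (hq (W b z) ξ) - Real.log (hq (W a z) ξ) ≤ K * Real.log (b / a) := by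
  have := log_le (f := fun s => -Real.log (hq (W s z) ξ)) (f' := fun s => -Lam W z ξ s) (Λ := -K)
    ha hab (fun x hx => (dlog hW hC hz hξ (ha.trans_le hx.1)).neg.congr_deriv (neg_div _ _).symm)
    fun x hx => neg_le_neg ((Lam_le hW hC hz hξ (ha.trans_le hx.1)).trans (hK x hx))
  linarith

end time

/-! ### the space direction -/

theorem mc (hW : LF U W) {t : ℝ} (ht : 0 < t) (hz : z ∈ U) : MC ∞ (W t) z := fun j k =>
  ((hW.sm j k).contDiffAt ((isOpen_Ioi.prod hW.op).mem_nhds (x := (t, z)) ⟨ht, hz⟩)).comp z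
    (contDiffAt_const.prodMk contDiffAt_id)

theorem ev_pos (hW : LF U W) {t : ℝ} (ht : 0 < t) (hz : z ∈ U) : ∀ᶠ y in 𝓝 z, (W t y).PosDef :=
  mem_of_superset (hW.op.mem_nhds hz) fun y hy => hW.pos t ht y hy

variable {c V x : ℝ → Cm n} {X Y : Cm n} {I : Set ℝ} {t s : ℝ}

theorem xi_deriv (hW : LF U W) (ht : 0 < t) (hU : c s ∈ U) (hc : HasDerivWithinAt c X I s)
    (hV : HasDerivWithinAt V Y I s) (hp : Y ᵥ* W t (c s) + V s ᵥ* DX X (W t) (c s) = 0) :
    HasDerivWithinAt (fun r => W t (c r) *ᵥ star (V r)) (DX X (W t) (c s) *ᵥ star (V s)) I s := by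
  have hd : MD (W t) (c s) := fun j k => (mc hW ht hU j k).differentiableAt (by simp)
  have h1 : ∀ i j, HasDerivWithinAt (fun r => W t (c r) i j)
      ((DX X (W t) (c s) + (DX X (W t) (c s))ᴴ) i j) I s := fun i j => by
    refine ((hd i j).hasFDerivAt.comp_hasDerivWithinAt s hc).congr_deriv ?_
    rw [Vale.Agent.P272.K.INT.fderiv_apply, DX, Matrix.conjTranspose_sum, ← Finset.sum_add_distrib,
      Matrix.sum_apply]
    refine Finset.sum_congr rfl fun k _ => ?_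
    rw [Matrix.conjTranspose_smul,
      ← DMb_of_isHermitian hd ((ev_pos hW ht hU).mono fun _ h => h.1)]
    rfl
  have h2 : (DX X (W t) (c s))ᴴ *ᵥ star (V s) + W t (c s) *ᵥ star Y = 0 := by
    have := congrArg star hp
    rwa [star_add, Matrix.star_vecMul, Matrix.star_vecMul, (hW.pos t ht _ hU).1.eq, star_zero,
      add_comm] at this
  rw [← add_zero (DX X (W t) (c s) *ᵥ star (V s)), ← h2, ← add_assoc, ← Matrix.add_mulVec]
  refine hasDerivWithinAt_pi.2 fun i => ?_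
  simp only [Pi.add_apply, Matrix.mulVec, dotProduct, ← Finset.sum_add_distrib]
  exact HasDerivWithinAt.fun_sum fun j _ => (h1 i j).mul (hasDerivWithinAt_pi.1 hV j).star

theorem H_deriv (hQ : HQ) (hW : LF U W) {σ : ℝ} (hσ : 0 < σ) (hU : c s ∈ U) (Γ : Mx n)
    (hc : HasDerivWithinAt c X I s) (hx : HasDerivWithinAt x (Γ *ᵥ x s) I s) :
    HasDerivWithinAt (fun r => hq (W σ (c r)) (x r)) (2 * (star ((W σ (c s))⁻¹ *ᵥ x s) ⬝ᵥ
      ((Γ - DX X (W σ) (c s) * (W σ (c s))⁻¹) *ᵥ x s)).re) I s := by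
  obtain ⟨h1, h2, -⟩ := hQ n n (W σ) (c s) X (x s) (Γ *ᵥ x s)
    (fun j k => (mc hW hσ hU j k).of_le (by norm_cast)) (ev_pos hW hσ hU)
  refine ((h1.differentiableAt (by simp)).hasFDerivAt.comp_hasDerivWithinAt s
    (hc.prodMk hx)).congr_deriv ?_
  rw [h2, star_dot (hW.pos σ hσ _ hU).inv.1, Matrix.sub_mulVec, ← Matrix.mulVec_mulVec]
  rfl

theorem init (hW : LF U W) (hC : LC U W) (hz : z ∈ U) {T : ℝ} (ht : 0 < t) (tT : t ≤ T)
    (h : ∀ ξ, ξ ≠ 0 → Real.log (hq (W T z) ξ) - Real.log (hq (W t z) ξ) ≤ 1) {v : Cm n}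
    (hH : 0 < qf (W t z) v) (hv : W t z *ᵥ star v ≠ 0) :
    (Real.log (hq (W T z) (W t z *ᵥ star v)) - Real.log (qf (W t z) v)) * qf (W t z) v ≤
      3 * (qf (W t z) v - qf (W T z) v) := by
  have pT := hW.pos T (ht.trans_le tT) z hz
  have pt := hW.pos t ht z hz
  refine le_trans ?_ (mat pt pT (fun ξ => ?_) (fun ξ => ?_) v)
  · have h1 := Alg.hq_pos pT hv
    rw [← Real.log_div h1.ne' hH.ne', ← le_div_iff₀ hH, sub_div, div_self hH.ne']
    exact Real.log_le_sub_one_of_pos (div_pos h1 hH)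
  · rcases eq_or_ne ξ 0 with rfl | hξ
    · simp [hq]
    · exact (Real.log_le_log_iff (Alg.hq_pos pt hξ) (Alg.hq_pos pT hξ)).1
        (mono hW hC hz hξ ht tT)
  · rcases eq_or_ne ξ 0 with rfl | hξ
    · simp [hq]
    · have h1 := h ξ hξ
      rw [← Real.log_div (Alg.hq_pos pT hξ).ne' (Alg.hq_pos pt hξ).ne', Real.log_le_iff_le_exp
        (div_pos (Alg.hq_pos pT hξ) (Alg.hq_pos pt hξ)), div_le_iff₀ (Alg.hq_pos pt hξ)] at h1
      exact h1.trans (mul_le_mul_of_nonneg_right (Real.exp_one_lt_d9.le.trans (by norm_num))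
        (Alg.hq_pos pt hξ).le)

theorem fin {C K H Q F q a l : ℝ} {N : ℕ} (hC : 1 ≤ C) (hK : 0 < K) (hN : (1 : ℝ) ≤ N) (hH : 0 < H)
    (hF : 0 ≤ F) (hq : 0 ≤ q) (ha : 2 * q ≤ a) (h1 : F * H ≤ 3 * (H - Q))
    (h2 : l ≤ (2 * F + q ^ N) * (K * (N + 1)) * H) :
    l ≤ 12 * C * N * K * (H - Q) + a ^ N * K * H := by
  have h3 : q ^ N * (N + 1) ≤ a ^ N := by
    refine le_trans ?_ (pow_le_pow_left₀ (by positivity) ha N)
    rw [mul_pow, mul_comm]
    refine mul_le_mul_of_nonneg_right ?_ (by positivity)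
    exact_mod_cast Nat.lt_two_pow_self
  have h4 := mul_le_mul_of_nonneg_right h3 (mul_pos hK hH).le
  have h5 := mul_le_mul_of_nonneg_left h1 (show 0 ≤ 2 * K * (N + 1) by positivity)
  have h6 : 0 ≤ H - Q := by linarith [mul_nonneg hF hH.le]
  have h7 := mul_le_mul_of_nonneg_right (show 6 * ((N : ℝ) + 1) ≤ 12 * C * N by nlinarith)
    (mul_nonneg hK.le h6)
  linarith

theorem sqrt_le {l K t : ℝ} (ht : 0 < t) (hK : 0 < K) (h : K * l ≤ 1) :
    √(l / t) * K ≤ √(K / t) := by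
  conv_lhs => rw [← Real.sqrt_sq hK.le, ← Real.sqrt_mul' _ (sq_nonneg K)]
  refine Real.sqrt_le_sqrt ?_
  rw [div_mul_eq_mul_div]
  exact div_le_div_of_nonneg_right (by nlinarith) ht.le

end Dh2

open Dh2 in
theorem dh2_row : DH2 := by
  rintro hQ hL ⟨C, hC1, hD⟩ n
  refine ⟨12 * C, by linarith, fun U W hW t d K N c c' V V' ht hd hK hN _ h hq0 s hs => ?_⟩
  have hC := hL n U W hW
  have hK0 : 0 < K := by linarith
  have hN1 : (1 : ℝ) ≤ N := by exact_mod_cast hN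
  set T := t * Real.exp (1 / K) with hT
  set x : ℝ → Cm n := fun r => W t (c r) *ᵥ star (V r) with hx
  have h0 : (0 : ℝ) ∈ Icc 0 d := ⟨le_rfl, hd⟩
  have pos : ∀ σ, 0 < σ → ∀ r ∈ Icc 0 d, (W σ (c r)).PosDef := fun σ hσ r hr =>
    hW.pos σ hσ _ (h r hr).1
  have dH : ∀ σ, 0 < σ → ∀ r ∈ Icc 0 d, HasDerivWithinAt (fun r => hq (W σ (c r)) (x r))
      (2 * (star ((W σ (c r))⁻¹ *ᵥ x r) ⬝ᵥ ((DX (c' r) (W t) (c r) * (W t (c r))⁻¹ -
        DX (c' r) (W σ) (c r) * (W σ (c r))⁻¹) *ᵥ x r)).re) (Icc 0 d) r := fun σ hσ r hr => by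
    obtain ⟨hU, hc, hV, -, hp, -⟩ := h r hr
    refine H_deriv hQ hW hσ hU _ hc ?_
    rw [← Matrix.mulVec_mulVec, hx, inv_mul_vec (pos t ht r hr)]
    exact xi_deriv hW ht hU hc hV hp
  set H₀ := qf (W t (c 0)) (V 0) with hH₀
  have cH : ∀ r ∈ Icc 0 d, hq (W t (c r)) (x r) = H₀ := fun r hr => by
    have := norm_image_sub_le_of_norm_deriv_le_segment' (C := 0) (dH t ht) (fun _ _ => by simp) r hr
    rw [zero_mul, norm_le_zero_iff, sub_eq_zero] at this
    rw [this, hx, hq_qf (pos t ht 0 h0)]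
  have hl : t * qf (rho (W t) (c s)) (V s) = lam W (c s) (x s) t := by
    rw [lam, hx, inv_mul_vec (pos t ht s hs), star_star, qf]
  by_cases hV : V 0 = 0
  · have h1 : x s = 0 := by
      by_contra h1
      have := Alg.hq_pos (pos t ht s hs) h1
      rw [cH s hs, hH₀, hV] at this
      simp [qf] at this
    rw [hl, h1, hH₀, hV]
    simp [lam, qf]
  have hH : 0 < H₀ := by
    rw [← cH 0 h0]
    refine Alg.hq_pos (pos t ht 0 h0) fun h1 => hV ?_
    have := inv_mul_vec (pos t ht 0 h0) (star (V 0))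
    rw [show W t (c 0) *ᵥ star (V 0) = 0 from h1, Matrix.mulVec_zero] at this
    exact star_eq_zero.1 this.symm
  have hx0 : ∀ r ∈ Icc 0 d, x r ≠ 0 := fun r hr h1 => by
    have := cH r hr
    rw [h1] at this
    simp [hq] at this
    exact hH.ne this
  have tT : t ≤ T := le_mul_of_one_le_right ht.le (Real.one_le_exp (by positivity))
  have lT : ∀ σ ∈ Icc t T, K * Real.log (σ / t) ≤ 1 := fun σ hσ => by
    rw [← le_div_iff₀' hK0, Real.log_le_iff_le_exp (div_pos (ht.trans_le hσ.1) ht),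
      div_le_iff₀' ht]
    exact hσ.2
  have up1 : ∀ σ ∈ Icc t T, ∀ r ∈ Icc 0 d, ∀ ξ, ξ ≠ 0 →
      Real.log (hq (W σ (c r)) ξ) - Real.log (hq (W t (c r)) ξ) ≤ 1 := fun σ hσ r hr ξ hξ =>
    (up hW hC (h r hr).1 hξ ht hσ.1 fun u hu => (h r hr).2.2.2.2.2 u ⟨hu.1, hu.2.trans hσ.2⟩).trans
      (lT σ hσ)
  -- the initial point
  set F₀ := Real.log (hq (W T (c 0)) (x 0)) - Real.log H₀ with hF₀
  have hT0 : 0 < T := ht.trans_le tT
  have F0 : F₀ * H₀ ≤ 3 * (H₀ - qf (W T (c 0)) (V 0)) :=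
    init hW hC (h 0 h0).1 ht tT (up1 T ⟨tT, le_rfl⟩ 0 h0) hH (hx0 0 h0)
  have F0' : 0 ≤ F₀ := by
    rw [hF₀, ← cH 0 h0]
    exact sub_nonneg.2 (mono hW hC (h 0 h0).1 (hx0 0 h0) ht tT)
  -- the times
  set δ := 1 / (K * (N + 1)) with hδ
  have hδ0 : 0 < δ := by positivity
  set σ : ℕ → ℝ := fun i => t * Real.exp (i * δ) with hσ
  have σm : ∀ i ≤ N + 1, σ i ∈ Icc t T := fun i hi =>
    ⟨le_mul_of_one_le_right ht.le (Real.one_le_exp (by positivity)),
      mul_le_mul_of_nonneg_left (Real.exp_le_exp.2 (by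
        have : (i : ℝ) ≤ N + 1 := by exact_mod_cast hi
        rw [hδ, mul_one_div, div_le_div_iff₀ (by positivity) hK0]
        nlinarith)) ht.le⟩
  have σl : ∀ i, Real.log (σ (i + 1) / σ i) = δ := fun i => by
    rw [hσ, mul_div_mul_left _ _ ht.ne', ← Real.exp_sub, Real.log_exp]
    push_cast
    ring
  have σs : ∀ i, σ i ≤ σ (i + 1) := fun i => mul_le_mul_of_nonneg_left (Real.exp_le_exp.2 (by
    push_cast; nlinarith)) ht.le
  have Ll : ∀ i ≤ N, ∀ r ∈ Icc 0 d, Lam W (c r) (x r) (σ i) ≤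
      (Real.log (hq (W (σ (i + 1)) (c r)) (x r)) - Real.log H₀) * (K * (N + 1)) :=
    fun i hi r hr => by
      have h1 := lo hW hC (h r hr).1 (hx0 r hr) (ht.trans_le (σm i (by omega)).1) (σs i)
      have h2 := mono hW hC (h r hr).1 (hx0 r hr) ht (σm i (by omega)).1
      rw [σl] at h1
      rw [cH r hr] at h2
      rw [← div_le_iff₀ (by positivity), div_eq_mul_one_div]
      linarith
  set w := √(K / t) with hw
  have hw0 : 0 ≤ w := Real.sqrt_nonneg _
  set q := 2 * C * (N + 1) * d * w with hq'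
  have q0 : 0 ≤ q := by positivity
  have q4 : 2 * q ≤ 12 * C * N * d * w := by
    have : 0 ≤ C * d * w := by positivity
    nlinarith
  have step : ∀ j i, i + j = N + 1 → ∀ r ∈ Icc 0 d,
      Real.log (hq (W (σ i) (c r)) (x r)) - Real.log H₀ ≤ 2 * F₀ + q ^ j := by
    intro j
    induction j with
    | zero =>
      intro i hi r hr
      have := up1 _ (σm i (by omega)) r hr _ (hx0 r hr)
      rw [cH r hr] at this
      linarith
    | succ j ih =>
      intro i hi r hr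
      have hσi := σm i (by omega)
      have hσ0 := ht.trans_le hσi.1
      have ha : 0 ≤ 2 * F₀ + q ^ j := by positivity
      have h1 := norm_image_sub_le_of_norm_deriv_le_segment'
        (C := 2 * C * (N + 1) * w * (2 * F₀ + q ^ j))
        (fun r hr => (dH _ hσ0 r hr).log (Alg.hq_pos (pos _ hσ0 r hr) (hx0 r hr)).ne')
        (fun r hr => by
          have hr' := Ico_subset_Icc_self hr
          have hp := Alg.hq_pos (pos _ hσ0 r hr') (hx0 r hr')
          have h2 := (Ll i (by omega) r hr').trans (mul_le_mul_of_nonneg_right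
            (ih (i + 1) (by omega) r hr') (by positivity))
          have h3 := hD n U W hW _ (h r hr').1 (c' r) (x r) t (σ i) K _ ht hσi.1 hK hσi.2
            (hx0 r hr') (h r hr').2.2.2.1
            (fun u hu => (h r hr').2.2.2.2.2 u ⟨hu.1, hu.2.trans hσi.2⟩) ((div_le_iff₀ hp).1 h2)
          have h4 : √(Real.log (σ i / t) / t) * K ≤ w := sqrt_le ht hK0 (lT _ hσi)
          rw [norm_div, norm_mul, Real.norm_of_nonneg hp.le, div_le_iff₀ hp, Real.norm_ofNat]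
          refine (mul_le_mul_of_nonneg_left ((Complex.abs_re_le_norm _).trans h3)
            zero_le_two).trans ?_
          have h5 := mul_le_mul_of_nonneg_right h4 (show 0 ≤ 2 * C * (N + 1) * (2 * F₀ + q ^ j) *
            hq (W (σ i) (c r)) (x r) by positivity)
          linarith) r hr
      have h2 := mono hW hC (h 0 h0).1 (hx0 0 h0) hσ0 hσi.2
      have h3 := mul_le_mul_of_nonneg_left hr.2
        (show 0 ≤ 2 * C * (N + 1) * w * (2 * F₀ + q ^ j) by positivity)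
      have h4 := (le_abs_self _).trans h1
      have h5 := mul_le_mul_of_nonneg_right (show 2 * q ≤ 1 by linarith) F0'
      rw [pow_succ, hq'] at *
      linarith
  have h1 := (Ll 0 (Nat.zero_le N) s hs).trans (mul_le_mul_of_nonneg_right
    (step N 1 (by omega) s hs) (show 0 ≤ K * (N + 1) by positivity))
  rw [show σ 0 = t by simp [hσ], Lam, cH s hs, div_le_iff₀ hH] at h1
  rw [hl]
  exact fin hC1 hK0 hN1 hH F0' q0 q4 F0 h1

end Vale.Agent.P253W.V
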