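import Mathlib

/-!
# P253W, block V, row FAR: real analysis
-/

open Set Filter MeasureTheory
open scoped Topology

namespace Vale.Agent.P253W.V.Far

/-- the estimate of the length from an estimate of its left Dini derivative -/
theorem dini (l : ℝ → ℝ) (T L c : ℝ) (hT : 0 ≤ T) (hL : 0 ≤ L) (hl : ∀ t ∈ Icc 0 T, 0 ≤ l t)
    (anti : AntitoneOn l (Icc 0 T))
    (h : ∀ t ∈ Ioc 0 T, ∃ (q : ℝ → ℝ → ℝ) (f : ℝ → ℝ),
      (∀ s ∈ Icc 0 t, ContinuousOn (q s) (Icc 0 (l t)) ∧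
        l s ≤ ∫ σ in (0 : ℝ)..l t, (1 + q s σ) / 2 ∧
        ∀ σ ∈ Icc 0 (l t), 1 ≤ q s σ ∧ q s σ - 1 ≤ L * (t - s)) ∧
      (∀ σ ∈ Icc 0 (l t), HasDerivAt (fun s => q s σ) (-f σ) t) ∧
      ∫ σ in (0 : ℝ)..l t, f σ ≤ 2 * c / √t) : l 0 ≤ l T + 2 * c * √T := by
  have hI : ∀ (ℓ : ℝ) (p : ℝ → ℝ), 0 ≤ ℓ → ContinuousOn p (Icc 0 ℓ) →
      ∫ σ in (0 : ℝ)..ℓ, (1 + p σ) / 2 = ℓ + (∫ σ in (0 : ℝ)..ℓ, (p σ - 1)) / 2 := by
    intro ℓ p hℓ hp
    have hi : IntervalIntegrable p volume 0 ℓ := hp.intervalIntegrable_of_Icc hℓ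
    rw [intervalIntegral.integral_div, intervalIntegral.integral_add intervalIntegrable_const hi,
      intervalIntegral.integral_sub hi intervalIntegrable_const]
    simp only [intervalIntegral.integral_const, sub_zero, smul_eq_mul, mul_one]
    ring
  have lip : ∀ t ∈ Icc 0 T, ∀ s ∈ Icc 0 t, l s - l t ≤ l 0 * L * (t - s) := by
    intro t ht s hs
    rcases ht.1.eq_or_lt with h0 | h0
    · have : s = t := le_antisymm hs.2 (h0 ▸ hs.1)
      simp [this]
    obtain ⟨q, f, h1, -, -⟩ := h t ⟨h0, ht.2⟩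
    obtain ⟨h2, h3, h4⟩ := h1 s hs
    rw [hI _ _ (hl t ht) h2] at h3
    have h5 : ∫ σ in (0 : ℝ)..l t, (q s σ - 1) ≤ ∫ _ in (0 : ℝ)..l t, L * (t - s) :=
      intervalIntegral.integral_mono_on (hl t ht)
        ((h2.sub continuousOn_const).intervalIntegrable_of_Icc (hl t ht))
        intervalIntegrable_const fun σ hσ => (h4 σ hσ).2
    simp only [intervalIntegral.integral_const, sub_zero, smul_eq_mul] at h5
    have h6 : l t ≤ l 0 := anti ⟨le_rfl, hT⟩ ht ht.1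
    have h7 : 0 ≤ L * (t - s) := mul_nonneg hL (sub_nonneg.2 hs.2)
    have h8 := mul_le_mul_of_nonneg_right h6 h7
    have h9 := mul_nonneg (hl t ht) h7
    nlinarith
  have hΛ : 0 ≤ l 0 * L := mul_nonneg (hl 0 ⟨le_rfl, hT⟩) hL
  have cont : ContinuousOn l (Icc 0 T) := by
    refine (LipschitzOnWith.of_dist_le_mul (K := ⟨l 0 * L, hΛ⟩) fun s hs t ht => ?_).continuousOn
    rw [Real.dist_eq, Real.dist_eq]
    change _ ≤ l 0 * L * _
    rcases le_total s t with hst | hst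
    · rw [abs_of_nonneg (sub_nonneg.2 (anti hs ht hst)), abs_of_nonpos (sub_nonpos.2 hst), neg_sub]
      exact lip t ht s ⟨hs.1, hst⟩
    · rw [abs_of_nonpos (sub_nonpos.2 (anti ht hs hst)), abs_of_nonneg (sub_nonneg.2 hst), neg_sub]
      exact lip s hs t ⟨ht.1, hst⟩
  have slp : ∀ t ∈ Ioc 0 T, ∀ ρ, c / √t < ρ → ∀ᶠ s in 𝓝[<] t, (l s - l t) / (t - s) < ρ := by
    intro t ht ρ hρ
    obtain ⟨q, f, h1, h2, h3⟩ := h t ht
    have hℓ := hl t ⟨ht.1.le, ht.2⟩
    have hev : ∀ᶠ s in 𝓝[<] t, s ∈ Ioo 0 t := Ioo_mem_nhdsLT ht.1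
    have lim : Tendsto (fun s => ∫ σ in (0 : ℝ)..l t, (q s σ - 1) / (t - s)) (𝓝[<] t)
        (𝓝 (∫ σ in (0 : ℝ)..l t, f σ)) := by
      refine intervalIntegral.tendsto_integral_filter_of_dominated_convergence (fun _ => L) ?_ ?_
        intervalIntegrable_const ?_
      · filter_upwards [hev] with s hs
        have := (((h1 s ⟨hs.1.le, hs.2.le⟩).1.sub continuousOn_const (g := fun _ => 1)).div_const
          (t - s)).intervalIntegrable_of_Icc (μ := volume) hℓ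
        exact this.def'.aestronglyMeasurable
      · filter_upwards [hev] with s hs
        refine Eventually.of_forall fun σ hσ => ?_
        rw [uIoc_of_le hℓ] at hσ
        obtain ⟨h4, h5⟩ := (h1 s ⟨hs.1.le, hs.2.le⟩).2.2 σ ⟨hσ.1.le, hσ.2⟩
        have h6 : 0 < t - s := sub_pos.2 hs.2
        rw [Real.norm_eq_abs, abs_of_nonneg (div_nonneg (sub_nonneg.2 h4) h6.le), div_le_iff₀ h6]
        exact h5
      · refine Eventually.of_forall fun σ hσ => ?_
        rw [uIoc_of_le hℓ] at hσ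
        have hσ' : σ ∈ Icc 0 (l t) := ⟨hσ.1.le, hσ.2⟩
        obtain ⟨h4, h5⟩ := (h1 t ⟨ht.1.le, le_rfl⟩).2.2 σ hσ'
        have h6 : q t σ = 1 := by
          rw [sub_self, mul_zero] at h5
          linarith
        have h7 := (hasDerivAt_iff_tendsto_slope_left_right.1 (h2 σ hσ')).1.neg
        rw [neg_neg] at h7
        refine h7.congr fun s => ?_
        rw [slope_def_field, h6, ← div_neg, neg_sub]
    have h4 : ∫ σ in (0 : ℝ)..l t, f σ < 2 * ρ := by
      rw [mul_div_assoc] at h3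
      linarith
    filter_upwards [hev, lim.eventually (gt_mem_nhds h4)] with s hs h5
    obtain ⟨h6, h7, -⟩ := h1 s ⟨hs.1.le, hs.2.le⟩
    rw [hI _ _ hℓ h6] at h7
    have h8 : 0 < t - s := sub_pos.2 hs.2
    rw [intervalIntegral.integral_div, div_lt_iff₀ h8] at h5
    rw [div_lt_iff₀ h8]
    linarith
  have key := image_le_of_liminf_slope_right_le_deriv_boundary (f := fun τ => l (-τ)) (a := -T)
    (b := 0) (B := fun τ => l T + 2 * c * (√T - √(-τ))) (B' := fun τ => c / √(-τ))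
    (cont.comp continuous_neg.continuousOn fun τ hτ => ⟨by linarith [hτ.2], by linarith [hτ.1]⟩)
    (by simp) (by fun_prop) ?_ ?_ (x := 0) ⟨by linarith, le_rfl⟩
  · simpa using key
  · intro τ hτ
    have h1 : -τ ≠ 0 := by linarith [hτ.2]
    have h2 : √(-τ) ≠ 0 := (Real.sqrt_pos.2 (by linarith [hτ.2])).ne'
    have h3 := ((((hasDerivAt_id τ).neg.sqrt h1).const_sub √T).const_mul (2 * c)).const_add (l T)
    refine (h3.congr_deriv ?_).hasDerivWithinAt
    simp only [id, Pi.neg_apply]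
    field_simp
  · intro τ hτ ρ hρ
    have h1 := slp (-τ) ⟨by linarith [hτ.2], by linarith [hτ.1]⟩ ρ hρ
    refine ((tendsto_neg_nhdsGT.eventually h1).mono fun z hz => ?_).frequently
    rw [slope_def_field]
    convert hz using 2
    ring

/-- the integral of the Ricci curvature along a minimal geodesic -/
theorem int_le (f : ℝ → ℝ) (ℓ κ τ N : ℝ) (hℓ : 0 ≤ ℓ) (hκ : 0 < κ) (hτ : 0 < τ) (hN : 0 ≤ N)
    (hf : ContinuousOn f (Icc 0 ℓ)) (hb : ∀ σ ∈ Icc 0 ℓ, f σ ≤ κ ^ 2 / τ ^ 2)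
    (st : ∀ r, 0 < r → 2 * r ≤ ℓ → ∫ σ in r..(ℓ - r), f σ ≤ 2 * N / r) :
    ∫ σ in (0 : ℝ)..ℓ, f σ ≤ 2 * ((N + 1) * κ) / τ := by
  have hi : ∀ a b, 0 ≤ a → a ≤ b → b ≤ ℓ → IntervalIntegrable f volume a b := fun a b ha hab hb =>
    (hf.mono (Icc_subset_Icc ha hb)).intervalIntegrable_of_Icc hab
  have h1 : ∀ a b, 0 ≤ a → a ≤ b → b ≤ ℓ → ∫ σ in a..b, f σ ≤ (b - a) * (κ ^ 2 / τ ^ 2) := by
    intro a b ha hab hb'
    have := intervalIntegral.integral_mono_on hab (hi a b ha hab hb') intervalIntegrable_const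
      fun σ hσ => hb σ ⟨ha.trans hσ.1, hσ.2.trans hb'⟩
    simpa only [intervalIntegral.integral_const, smul_eq_mul] using this
  have hr : 0 < τ / κ := div_pos hτ hκ
  have e1 : τ / κ * (κ ^ 2 / τ ^ 2) = κ / τ := by field_simp
  have e2 : 2 * N / (τ / κ) = 2 * N * (κ / τ) := by field_simp
  have e3 : 2 * ((N + 1) * κ) / τ = 2 * N * (κ / τ) + 2 * (κ / τ) := by field_simp
  have hp : 0 < κ / τ := div_pos hκ hτ
  rw [e3]
  rcases le_total (2 * (τ / κ)) ℓ with h | h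
  · have h2 := st _ hr h
    have h3 := h1 0 (τ / κ) le_rfl hr.le (by linarith)
    have h4 := h1 (ℓ - τ / κ) ℓ (by linarith) (by linarith) le_rfl
    rw [sub_zero, e1] at h3
    rw [sub_sub_cancel, e1] at h4
    rw [e2] at h2
    rw [← intervalIntegral.integral_add_adjacent_intervals (b := τ / κ)
      (hi _ _ le_rfl hr.le (by linarith)) (hi _ _ hr.le (by linarith) le_rfl),
      ← intervalIntegral.integral_add_adjacent_intervals (a := τ / κ) (b := ℓ - τ / κ)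
      (hi _ _ hr.le (by linarith) (by linarith)) (hi _ _ (by linarith) (by linarith) le_rfl)]
    linarith
  · have h2 := h1 0 ℓ le_rfl hℓ le_rfl
    have h3 := mul_le_mul_of_nonneg_right h (show 0 ≤ κ ^ 2 / τ ^ 2 by positivity)
    rw [mul_assoc, e1] at h3
    rw [sub_zero] at h2
    have := mul_nonneg hN hp.le
    linarith

/-- a power less than one is small -/
theorem large (D b : ℝ) (hb : b < 1) : ∃ ρ : ℝ, 0 < ρ ∧ ∀ r, ρ ≤ r → D * (1 + r) ^ b ≤ r / 2 := by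
  have h1 : Tendsto (fun r : ℝ => D * (1 + r) ^ (-(1 - b))) atTop (𝓝 (D * 0)) :=
    ((tendsto_rpow_neg_atTop (sub_pos.2 hb)).comp
      (tendsto_atTop_add_const_left _ _ tendsto_id)).const_mul D
  rw [mul_zero] at h1
  obtain ⟨ρ, hρ⟩ := eventually_atTop.1 (h1.eventually (gt_mem_nhds (show (0 : ℝ) < 1 / 4 by norm_num)))
  refine ⟨max ρ 1, lt_max_of_lt_right one_pos, fun r hr => ?_⟩
  have h2 := hρ r ((le_max_left _ _).trans hr)
  have h3 : 1 ≤ r := (le_max_right _ _).trans hr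
  have h4 : (1 + r) ^ b = (1 + r) ^ (-(1 - b)) * (1 + r) := by
    rw [← Real.rpow_add_one (by linarith)]
    congr 1
    ring
  rw [h4, ← mul_assoc]
  nlinarith

end Vale.Agent.P253W.V.Far
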