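import Vale.Agent.P253W.V.Defs
import Vale.Agent.P253W.V.FarA

/-!
# P253W, block V, row FAR: shrinking balls
-/

open scoped Manifold ContDiff Bundle ENNReal NNReal Topology ComplexConjugate ComplexOrder Matrix
open Bundle IsManifold MeasureTheory Set Metric Filter Vale.Agent.P253.Mfd Vale.Agent.P253Z
open Vale.Agent.P272.K (Cm dz dzb cHess jacM Chart)
open Vale.Agent.P272.K.C2 (cHess_congr contDiffAt_cHess)
open Vale.Agent.P210.R2.H53 (MinGeo)

noncomputable section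

namespace Vale.Agent.P253W.V

namespace Far

section alg

variable {n : ℕ}

theorem qf_pb (J A : Mx n) (v : Cm n) : qf (pb J A) v = qf A (J *ᵥ v) := by
  have h : J.map (starRingEnd ℂ) *ᵥ star v = star (J *ᵥ v) := by
    funext i
    simp [Matrix.mulVec, dotProduct]
  unfold qf pb
  rw [← Matrix.mulVec_mulVec, ← Matrix.mulVec_mulVec, h, Matrix.dotProduct_mulVec,
    Matrix.vecMul_transpose]

theorem qf_nonneg {A : Mx n} (h : A.PosSemidef) (v : Cm n) : 0 ≤ qf A v := by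
  have := h.dotProduct_mulVec_nonneg (star v)
  rw [star_star] at this
  exact (Complex.nonneg_iff.1 this).1

theorem qf_le {A B : Mx n} (h : (B - A).PosSemidef) (v : Cm n) : qf A v ≤ qf B v := by
  have := qf_nonneg h v
  simp only [qf, Matrix.sub_mulVec, dotProduct_sub, Complex.sub_re] at this ⊢
  linarith

theorem qf_smul (c : ℝ) (A : Mx n) (v : Cm n) : qf ((c : ℂ) • A) v = c * qf A v := by
  simp only [qf, Matrix.smul_mulVec, dotProduct_smul, smul_eq_mul, Complex.re_ofReal_mul]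

theorem qf_cont {A : ℝ → Mx n} {v : ℝ → Cm n} {s : Set ℝ} {σ : ℝ}
    (hA : ∀ j k, ContinuousWithinAt (fun r => A r j k) s σ) (hv : ContinuousWithinAt v s σ) :
    ContinuousWithinAt (fun r => qf (A r) (v r)) s σ := by
  simp only [qf, dotProduct, Matrix.mulVec, Pi.star_apply]
  have h : ∀ j, ContinuousWithinAt (fun r => v r j) s σ := fun j =>
    (continuous_apply j).continuousAt.comp_continuousWithinAt hv
  exact Complex.continuous_re.continuousAt.comp_continuousWithinAt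
    (tendsto_finsetSum _ fun j _ => (h j).mul (tendsto_finsetSum _ fun k _ =>
      (hA j k).mul (h k).star))

theorem qf_deriv {A : ℝ → Mx n} {A' : Mx n} {t : ℝ} (v : Cm n)
    (hA : ∀ j k, HasDerivAt (fun s => A s j k) (-A' j k) t) :
    HasDerivAt (fun s => qf (A s) v) (-qf A' v) t := by
  have h : HasDerivAt (fun s => v ⬝ᵥ (A s *ᵥ star v)) (-(v ⬝ᵥ (A' *ᵥ star v))) t := by
    simp only [dotProduct, Matrix.mulVec, ← Finset.sum_neg_distrib]
    refine HasDerivAt.fun_sum fun j _ => ?_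
    rw [← mul_neg, ← Finset.sum_neg_distrib]
    refine (HasDerivAt.fun_sum fun k _ => ?_).const_mul _
    rw [← neg_mul]
    exact (hA j k).mul_const _
  exact Complex.reCLM.hasFDerivAt.comp_hasDerivAt t h

end alg

variable {n : ℕ} {M : Type} [MetricSpace M] [ChartedSpace (Cm n) M] [IsManifold 𝓘(ℂ, Cm n) 1 M]

/-- the value of a tensor on the velocity, in the preferred chart -/
def ev (W : Chart n M → Cm n → Mx n) (c : ℝ → M) (v : Chart n M → ℝ → Cm n) (σ : ℝ) : ℝ :=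
  qf (W (pc n (c σ)) (pc n (c σ) (c σ))) (v (pc n (c σ)) σ)

theorem hpc (x : M) : Hc (pc n x) := chart_mem_maximalAtlas x

/-- a continuous tensor along a curve -/
theorem ev_eq {W : Chart n M → Cm n → Mx n} {c : ℝ → M} {v : Chart n M → ℝ → Cm n} {I : Set ℝ}
    (hc : ContinuousOn c I)
    (hW : ∀ e e' : Chart n M, Hc e → Hc e' → ∀ x ∈ e.source, x ∈ e'.source →
      W e (e x) = pb (jacM e e' x) (W e' (e' x)))
    (hW' : ∀ e : Chart n M, Hc e → ∀ z ∈ e.target, ∀ j k, ContinuousAt (fun y => W e y j k) z)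
    (hv : ∀ e : Chart n M, Hc e → ContinuousOn (v e) (I ∩ c ⁻¹' e.source) ∧
      ∀ σ ∈ I, c σ ∈ e.source → ∀ e' : Chart n M, Hc e' → c σ ∈ e'.source →
        v e' σ = jacM e e' (c σ) *ᵥ v e σ) :
    ContinuousOn (ev W c v) I ∧ ∀ σ ∈ I, ∀ e : Chart n M, Hc e → c σ ∈ e.source →
      ev W c v σ = qf (W e (e (c σ))) (v e σ) := by
  have h1 : ∀ σ ∈ I, ∀ e : Chart n M, Hc e → c σ ∈ e.source →
      ev W c v σ = qf (W e (e (c σ))) (v e σ) := fun σ hσ e he hs => by
    rw [hW e _ he (hpc (c σ)) _ hs (mem_chart_source _ _), qf_pb,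
      ← (hv e he).2 σ hσ hs _ (hpc (c σ)) (mem_chart_source _ _), ev]
  refine ⟨fun σ hσ => ?_, h1⟩
  have he : Hc (pc n (c σ)) := hpc _
  have hs : c σ ∈ (pc n (c σ)).source := mem_chart_source _ _
  generalize pc n (c σ) = e at he hs
  have hn : I ∩ c ⁻¹' e.source ∈ 𝓝[I] σ :=
    inter_mem self_mem_nhdsWithin ((hc σ hσ).preimage_mem_nhdsWithin (e.open_source.mem_nhds hs))
  refine (qf_cont (A := fun r => W e (e (c r))) (v := v e) (fun j k => ?_)
    (((hv e he).1 σ ⟨hσ, hs⟩).mono_of_mem_nhdsWithin hn)).congr_of_eventuallyEq_of_mem ?_ hσ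
  · exact ContinuousAt.comp_continuousWithinAt (f := fun r => e (c r))
      (hW' e he _ (e.map_source hs) j k) ((e.continuousAt hs).comp_continuousWithinAt (hc σ hσ))
  · filter_upwards [hn] with r hr using h1 r hr.1 e he hr.2

variable [IsManifold 𝓘(ℝ, Cm n) ∞ M] [RiemannianBundle fun x : M => TangentSpace 𝓘(ℝ, Cm n) x]
  [ConnectedSpace M] {F : Flow n M} (A : Fam F)

omit [IsManifold 𝓘(ℂ, Cm n) 1 M] in
theorem d_comm (t : ℝ) (x y : M) : A.d t x y = A.d t y x := dist_comm (α := Wm (A.G t)) _ _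

omit [IsManifold 𝓘(ℂ, Cm n) 1 M] in
theorem d_cont (t : ℝ) (o : M) : Continuous fun y : M => A.d t o y :=
  (continuous_const.dist continuous_id : Continuous fun y : Wm (A.G t) => dist (α := Wm (A.G t)) o y)

omit [IsManifold 𝓘(ℂ, Cm n) 1 M] in
theorem ric_eq (h2 : F.Bas2) {t : ℝ} (ht : 0 ≤ t) {e : Chart n M} (he : Hc e) {z : Cm n}
    (hz : z ∈ e.target) : ric (M := Wm (A.G t)) e z = hs (F.u t) e z := by
  rw [h2.u_hs t ht e he z hz]
  refine cHess_congr ?_
  filter_upwards [e.open_target.mem_nhds hz] with y hy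
  exact congrArg (fun W : Mx n => -Real.log W.det.re) (A.hm_eq t ht e he y hy)

/-- the ball of radius `l` at time `t` lies in the ball of radius `r` at time `0` -/
theorem ball_sub (hG : GEO) {t : ℝ} (ht : 0 ≤ t) {o : M} {r l : ℝ} (hr : 0 < r)
    (hl : ∀ y ∈ sphere o r, l ≤ A.d t o y) {z : M} (hz : A.d t o z ≤ l) : z ∈ closedBall o r := by
  by_contra hn
  have hU : IsOpen (ball o r) := isOpen_ball
  have hK : IsClosed (closedBall o r) := isClosed_closedBall
  have ho : o ∈ ball o r := mem_ball_self hr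
  have hz' : z ∉ ball o r := fun h => hn (ball_subset_closedBall h)
  have h4 := (hG n (Wm (A.G t)) (A.kahler t ht)).2.2.2 o z (ball o r : Set M) hU ho hz'
  refine hn (IsClosed.closure_subset (X := Wm (A.G t)) hK ((Metric.mem_closure_iff
    (α := Wm (A.G t))).2 fun ε hε => ?_))
  obtain ⟨y, hy, h5⟩ := h4 (ε / 2) (half_pos hε)
  have h6 : y ∈ sphere o r := frontier_ball_subset_sphere (α := M) hy
  refine ⟨y, sphere_subset_closedBall (α := M) h6, ?_⟩
  have h7 := hl y h6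
  have h8 : A.d t o y + A.d t y z ≤ A.d t o z + ε / 2 := h5
  refine (d_comm A t z y).trans_lt ?_
  linarith

/-- the step of the proof at time `t` -/
theorem step (hG : GEO) (hS : STAB) (h1 : F.Bas1) (h2 : F.Bas2) (h3 : F.S3a) {t r κ L : ℝ}
    {l : ℝ → ℝ} {o y : M} (ht : 0 < t) (hr : 0 < r) (hκ : 0 < κ) (hK : IsCompact (closedBall o r))
    (hl : ∀ s ∈ Icc 0 t, ∀ x ∈ sphere o r, l s ≤ A.d s o x) (hy : y ∈ sphere o r)
    (hy' : l t = A.d t o y) (hR : ∀ x ∈ closedBall o r, t * F.R t x ≤ κ ^ 2)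
    (hu : ∀ s ∈ Icc 0 t, ∀ x ∈ closedBall o r, Real.exp (F.u t x - F.u s x) - 1 ≤ L * (t - s)) :
    ∃ (q : ℝ → ℝ → ℝ) (f : ℝ → ℝ),
      (∀ s ∈ Icc 0 t, ContinuousOn (q s) (Icc 0 (l t)) ∧
        l s ≤ ∫ σ in (0 : ℝ)..l t, (1 + q s σ) / 2 ∧
        ∀ σ ∈ Icc 0 (l t), 1 ≤ q s σ ∧ q s σ - 1 ≤ L * (t - s)) ∧
      (∀ σ ∈ Icc 0 (l t), HasDerivAt (fun s => q s σ) (-f σ) t) ∧
      ∫ σ in (0 : ℝ)..l t, f σ ≤ 2 * ((n + 1) * κ) / √t := by
  have hb : ∀ z : M, A.d t o z ≤ l t → z ∈ closedBall o r := fun z hz =>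
    ball_sub A hG ht.le hr (hl t ⟨ht.le, le_rfl⟩) hz
  obtain ⟨-, g2, g3, -⟩ := hG n (Wm (A.G t)) (A.kahler t ht.le)
  have hℓ : 0 < l t := by
    rw [hy']
    refine (dist_pos (γ := Wm (A.G t))).2 ?_
    rintro rfl
    exact hr.ne (by simpa using hy)
  obtain ⟨c, hc, hc0, hc1⟩ := g2 o y (l t) (IsCompact.of_isClosed_subset (X := Wm (A.G t)) hK
    isClosed_closedBall fun z hz => hb z ((d_comm A t o z).trans_le hz)) hy'.ge
  have e0 : dist (α := Wm (A.G t)) o y = l t := hy'.symm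
  rw [e0] at hc hc1
  obtain ⟨v, hv⟩ := g3 c (l t) hℓ hc
  have cc : ContinuousOn (Y := M) c (Icc 0 (l t)) :=
    (LipschitzOnWith.of_dist_le_mul (K := 1) (β := Wm (A.G t)) fun a ha b hb' => by
      rw [hc a ha b hb', Real.dist_eq, NNReal.coe_one, one_mul]).continuousOn
  have cb : ∀ σ ∈ Icc 0 (l t), c σ ∈ closedBall o r := fun σ hσ => hb _ (by
    have h4 := hc 0 ⟨le_rfl, hℓ.le⟩ σ hσ
    rw [hc0, zero_sub, abs_neg, abs_of_nonneg hσ.1] at h4
    exact h4.le.trans hσ.2)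
  have hv' : ∀ e : Chart n M, Hc e → ContinuousOn (v e) (Icc 0 (l t) ∩ c ⁻¹' e.source) ∧
      ∀ σ ∈ Icc 0 (l t), c σ ∈ e.source → ∀ e' : Chart n M, Hc e' → c σ ∈ e'.source →
        v e' σ = jacM (X := M) e e' (c σ) *ᵥ v e σ := fun e he =>
    ⟨(hv e he).1, fun σ hσ h => ((hv e he).2 σ hσ h).2.2⟩
  have hd : ∀ e : Chart n M, Hc e → ∀ σ ∈ Icc 0 (l t), c σ ∈ e.source →
      HasDerivWithinAt (fun r => e (c r)) (v e σ) (Icc 0 (l t)) σ ∧
        qf (F.g t e (e (c σ))) (v e σ) = 1 := fun e he σ hσ h => ⟨((hv e he).2 σ hσ h).1, by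
    rw [← A.hm_eq t ht.le e he _ (e.map_source h)]
    exact ((hv e he).2 σ hσ h).2.1⟩
  have us : Sm n (F.u t) := h1.sm_at _ h1.u_sm t ht.le
  obtain ⟨f1, f2⟩ := ev_eq (M := M) (W := hs (F.u t)) cc (fun e e' he he' x hx hx' =>
    h1.hs_ch _ e e' he he' x hx hx' ((us e' he' _ (e'.map_source hx')).of_le (by norm_cast)))
    (fun e he z hz j k => (contDiffAt_cHess (m := 0) (us e he z hz) (by norm_cast) j k).continuousAt)
    hv'
  refine ⟨fun s => ev (M := M) (F.g s) c v, ev (M := M) (hs (F.u t)) c v, fun s hs' => ?_,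
    fun σ hσ => qf_deriv _ fun j k => h2.g_t t ht _ (hpc _) _ (mem_chart_target _ _) j k, ?_⟩
  · obtain ⟨q1, -⟩ := ev_eq (M := M) (W := F.g s) cc (h1.g_ch s hs'.1)
      (fun e he z hz j k => (h1.g_at s hs'.1 e he z hz j k).continuousAt) hv'
    refine ⟨q1, (hl s hs' y hy).trans ?_, fun σ hσ => ?_⟩
    · have h4 := (hG n (Wm (A.G s)) (A.kahler s hs'.1)).1 c
        (fun σ => (1 + ev (M := M) (F.g s) c v σ) / 2) 0 (l t) hℓ.le cc
        ((continuousOn_const.add q1).div_const 2) fun σ hσ => ⟨pc n (M := M) (c σ), hpc (M := M) _,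
          mem_chart_source (M := M) _ _, v (pc n (M := M) (c σ)) σ, ?_, ?_⟩
      · rw [hc0, hc1] at h4
        exact h4
      · exact (hd _ (hpc _) σ (Ico_subset_Icc_self hσ)
          (mem_chart_source _ _)).1.mono_of_mem_nhdsWithin (Icc_mem_nhdsGE_of_mem hσ)
      · have h5 := A.hm_eq s hs'.1 _ (hpc (M := M) (c σ)) _ (mem_chart_target (M := M) _ (c σ))
        refine le_of_eq_of_le (congrArg (fun W => √(qf W (v (pc n (M := M) (c σ)) σ))) h5) ?_
        change √(ev (M := M) (F.g s) c v σ) ≤ _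
        rw [Real.sqrt_le_iff]
        have h6 : 0 ≤ ev (M := M) (F.g s) c v σ := by
          have h7 := qf_le (h3.g_anti s t hs'.1 hs'.2 _ (hpc (M := M) (c σ)) _
            (mem_chart_target (M := M) _ (c σ))).1 (v (pc n (M := M) (c σ)) σ)
          rw [(hd _ (hpc _) σ (Ico_subset_Icc_self hσ) (mem_chart_source _ _)).2] at h7
          exact zero_le_one.trans h7
        exact ⟨by positivity, by nlinarith [sq_nonneg (1 - ev (M := M) (F.g s) c v σ)]⟩
    · obtain ⟨h4, h5⟩ := h3.g_anti s t hs'.1 hs'.2 _ (hpc (M := M) (c σ)) _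
        (mem_chart_target (M := M) _ (c σ))
      have h6 := qf_le h4 (v (pc n (M := M) (c σ)) σ)
      have h7 := qf_le h5 (v (pc n (M := M) (c σ)) σ)
      have h8 := (hd _ (hpc _) σ hσ (mem_chart_source _ _)).2
      rw [qf_smul, h8, mul_one, (pc n (M := M) (c σ)).left_inv (mem_chart_source _ _)] at h7
      rw [h8] at h6
      exact ⟨h6, (sub_le_sub_right h7 1).trans (hu s hs' _ (cb σ hσ))⟩
  · refine int_le _ _ κ √t n hℓ.le hκ (Real.sqrt_pos.2 ht) n.cast_nonneg f1 (fun σ hσ => ?_)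
      fun ρ hρ hρ' => hS n (Wm (A.G t)) (A.kahler t ht.le) (fun e he z hz => ?_) c (l t) ρ _ hρ hρ'
        hc f1 fun σ hσ e he hce w hw => ?_
    · have h7 := qf_le (h3.ric_le t ht.le _ (hpc (M := M) (c σ)) _
        (mem_chart_target (M := M) _ (c σ))) (v (pc n (M := M) (c σ)) σ)
      rw [qf_smul, (hd _ (hpc _) σ hσ (mem_chart_source _ _)).2, mul_one,
        (pc n (M := M) (c σ)).left_inv (mem_chart_source _ _)] at h7
      rw [Real.sq_sqrt ht.le, le_div_iff₀' ht]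
      exact (mul_le_mul_of_nonneg_left h7 ht.le).trans (hR _ (cb σ hσ))
    · have h4 := ric_eq A h2 ht.le (e := e) he hz
      exact h4 ▸ (h3.ric_pos t ht.le e he z hz).posSemidef
    · have h4 := ric_eq A h2 ht.le (e := e) he (e.map_source hce)
      have h5 : w = v e σ := hw.unique ((hd e he σ (Ioo_subset_Icc_self hσ) hce).1.hasDerivAt
        (Icc_mem_nhds hσ.1 hσ.2))
      rw [f2 σ (Ioo_subset_Icc_self hσ) e he hce, h5]
      exact congrArg (fun W => qf W (v e σ)) h4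

omit [IsManifold 𝓘(ℂ, Cm n) 1 M] [IsManifold 𝓘(ℝ, Cm n) ∞ M] [ConnectedSpace M] in
/-- the volume density is Lipschitz in time on compact sets -/
theorem u_lip (h1 : F.Bas1) (h2 : F.Bas2) {K : Set M} (hK : IsCompact K) (T : ℝ) :
    ∃ L : ℝ, 0 ≤ L ∧ ∀ t ∈ Icc 0 T, ∀ s ∈ Icc 0 t, ∀ x ∈ K,
      Real.exp (F.u t x - F.u s x) - 1 ≤ L * (t - s) := by
  obtain ⟨B, hB⟩ := (isCompact_Icc.prod hK).exists_bound_of_continuousOn
    ((h1.sm_cont _ h1.R_sm).mono (prod_mono (Icc_subset_Ici_self : Icc 0 T ⊆ _) (subset_univ K)))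
  refine ⟨|B| * Real.exp (|B| * T), by positivity, fun t ht s hs x hx => ?_⟩
  have h3 : ContinuousOn (fun s => F.u s x) (Icc 0 T) :=
    (h1.sm_cont _ h1.u_sm).comp (f := fun s : ℝ => (s, x)) (by fun_prop) fun s hs => ⟨hs.1, trivial⟩
  have h4 := (convex_Icc 0 T).image_sub_le_mul_sub_of_deriv_le h3 (C := |B|) (fun s hs => by
      rw [interior_Icc] at hs
      exact (h2.u_t s hs.1 x).differentiableAt.differentiableWithinAt) (fun s hs => by
      rw [interior_Icc] at hs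
      rw [(h2.u_t s hs.1 x).deriv]
      exact (le_abs_self _).trans ((hB (s, x) ⟨Ioo_subset_Icc_self hs, hx⟩).trans (le_abs_self _)))
    s ⟨hs.1, hs.2.trans ht.2⟩ t ht hs.2
  have h5 : 0 ≤ |B| * (t - s) := mul_nonneg (abs_nonneg _) (sub_nonneg.2 hs.2)
  have h6 : Real.exp (|B| * (t - s)) ≤ Real.exp (|B| * T) :=
    Real.exp_le_exp.2 (mul_le_mul_of_nonneg_left (by linarith [hs.1, ht.2]) (abs_nonneg _))
  have h7 := Real.exp_le_exp.2 h4
  have h8 := Real.add_one_le_exp (-(|B| * (t - s)))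
  have h9 : Real.exp (-(|B| * (t - s))) * Real.exp (|B| * (t - s)) = 1 := by
    rw [← Real.exp_add, neg_add_cancel, Real.exp_zero]
  have h10 := mul_le_mul_of_nonneg_right h8 (Real.exp_pos (|B| * (t - s))).le
  have h11 := mul_le_mul_of_nonneg_left h6 h5
  nlinarith

end Far

open Far in
theorem far_row : FAR := by
  intro n M _ _ _ _ _ _ _ _ _ _ _ _ μ F _ _ hG hS h1 h2 h3 A hz anti S
  have : ProperSpace M := properSpace_riemannian (Cm n) M
  obtain ⟨b, hb0, hb, hC⟩ := h3.R_up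
  obtain ⟨C, hC⟩ := hC S
  obtain ⟨ρ, hρ, hρ'⟩ := large (2 * ((n + 1) * √(max C 1)) * √S) b hb
  refine ⟨ρ, fun T hT x hx => ?_⟩
  have hxs : x ∈ sphere F.o (F.r x) := rfl
  generalize F.r x = r at hx hxs
  have hr : 0 < r := hρ.trans_le hx
  have ex : ∀ t, ∃ y ∈ sphere F.o r, ∀ z ∈ sphere F.o r, A.d t F.o y ≤ A.d t F.o z := fun t =>
    (isCompact_sphere F.o r).exists_isMinOn ⟨x, hxs⟩ (d_cont A t F.o).continuousOn
  choose y hy hy' using ex
  obtain ⟨L, hL, hu⟩ := u_lip h1 h2 (isCompact_closedBall F.o r) T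
  have hp : 0 < (1 + r) ^ b := Real.rpow_pos_of_pos (by linarith) b
  have hm : 0 < max C 1 := lt_max_of_lt_right one_pos
  have key := dini (fun t => A.d t F.o (y t)) T L ((n + 1) * (√(max C 1) * (1 + r) ^ b)) hT.1 hL
    (fun t _ => dist_nonneg (α := Wm (A.G t)))
    (fun s hs t _ hst => (hy' t _ (hy s)).trans (anti s t hs.1 hst _ _)) fun t ht =>
      step A hG hS h1 h2 h3 ht.1 hr (mul_pos (Real.sqrt_pos.2 hm) hp) (isCompact_closedBall _ _)
        (fun s _ => hy' s) (hy t) rfl (fun z hz' => ?_) (hu t ⟨ht.1.le, ht.2⟩)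
  · have h4 : A.d 0 F.o (y 0) = r := by rw [hz, dist_comm]; exact hy 0
    have h5 : A.d T F.o (y T) ≤ A.d T x F.o :=
      (hy' T x hxs).trans_eq (d_comm A T _ _)
    have h6 := hρ' r hx
    have h7 : 2 * ((n + 1) * (√(max C 1) * (1 + r) ^ b)) * √T ≤
        2 * ((n + 1) * (√(max C 1) * (1 + r) ^ b)) * √S :=
      mul_le_mul_of_nonneg_left (Real.sqrt_le_sqrt hT.2) (by positivity)
    linarith
  · refine (hC t ⟨ht.1.le, ht.2.trans hT.2⟩ z).2.trans ?_
    have h4 : 0 ≤ F.r z := dist_nonneg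
    have h5 : F.r z ≤ r := hz'
    have h6 : 0 ≤ b := by linarith
    rw [mul_pow, Real.sq_sqrt hm.le, ← Real.rpow_natCast, ← Real.rpow_mul (by linarith), mul_comm b]
    exact mul_le_mul (le_max_left _ _) (Real.rpow_le_rpow (by linarith) (by linarith)
      (by positivity)) (by positivity) hm.le

end Vale.Agent.P253W.V
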