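import Vale.Agent.P253W.V.Defs
import Vale.Agent.P253W.V.Alg
import Vale.Agent.P253Z.B1a
import Vale.Agent.P253Z.B1b
import Vale.Agent.P253Z.B3
import Vale.Agent.P253.R2.H618.Exh1

/-!
# P253W, block V, row FIN: from the envelope to the plurisubharmonicity of `G`
-/

open scoped Manifold ContDiff Bundle ENNReal NNReal Topology ComplexConjugate ComplexOrder Matrix
open Bundle IsManifold MeasureTheory Set Metric Filter Vale.Agent.P253.Mfd Vale.Agent.P253Z
open Vale.Agent.P272.K (Cm dz dzb cHess jacM Chart)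
open Vale.Agent.P253.R2.H451 (ContPsh levi2)

noncomputable section

namespace Vale.Agent.P253W.V

namespace Fn

variable {n : ℕ}

open scoped MatrixOrder Matrix.Norms.L2Operator in
theorem ex_B {g : Mx n} (hg : g.PosDef) : ∃ B : Mx n, IsUnit B ∧ g = star B * B :=
  CStarAlgebra.isStrictlyPositive_iff_eq_star_mul_self.1 hg.isStrictlyPositive

theorem ex_on {w : EuclideanSpace ℂ (Fin n)} (w0 : w ≠ 0) (i₀ : Fin n) :
    ∃ q : Fin n → EuclideanSpace ℂ (Fin n), q i₀ = w ∧ (∀ i, q i ≠ 0) ∧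
      ∀ i j, i ≠ j → inner ℂ (q i) (q j) = 0 := by
  have h0 : (‖w‖ : ℂ) ≠ 0 := by simpa using w0
  obtain ⟨b, hb⟩ := Orthonormal.exists_orthonormalBasis_extension_of_card_eq (𝕜 := ℂ)
    (E := EuclideanSpace ℂ (Fin n))
    (ι := Fin n) finrank_euclideanSpace (v := fun _ => (‖w‖⁻¹ : ℂ) • w) (s := {i₀})
    ⟨fun _ => norm_smul_inv_norm (𝕜 := ℂ) w0, fun _ _ h => (h (Subsingleton.elim _ _)).elim⟩
  refine ⟨fun i => (‖w‖ : ℂ) • b i, ?_, fun i => smul_ne_zero h0 (b.toBasis.ne_zero i),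
    fun i j h => ?_⟩
  · simp only [hb i₀ rfl, smul_smul, mul_inv_cancel₀ h0, one_smul]
  · rw [inner_smul_left, inner_smul_right, b.inner_eq_zero h, mul_zero, mul_zero]

/-- an orthogonal basis which contains a given vector -/
theorem orth {g : Mx n} (hg : g.PosDef) {p : Cm n} (hp : p ≠ 0) (i₀ : Fin n) :
    ∃ q : Fin n → Cm n, q i₀ = p ∧ (∀ i, q i ≠ 0) ∧
      ∀ i j, i ≠ j → star (q i) ⬝ᵥ (g *ᵥ q j) = 0 := by
  obtain ⟨B, hB, rfl⟩ := ex_B hg
  have hd := (Matrix.isUnit_iff_isUnit_det B).1 hB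
  have e : ∀ v, B *ᵥ (B⁻¹ *ᵥ v) = v := fun v => by
    rw [Matrix.mulVec_mulVec, Matrix.mul_nonsing_inv _ hd, Matrix.one_mulVec]
  have e' : B⁻¹ *ᵥ (B *ᵥ p) = p := by
    rw [Matrix.mulVec_mulVec, Matrix.nonsing_inv_mul _ hd, Matrix.one_mulVec]
  obtain ⟨b, h1, h2, h3⟩ := ex_on (w := WithLp.toLp 2 (B *ᵥ p)) (fun h => hp (by
    rw [← e', show B *ᵥ p = 0 from congrArg WithLp.ofLp h, Matrix.mulVec_zero])) i₀
  refine ⟨fun i => B⁻¹ *ᵥ (b i).ofLp, ?_, fun i h => ?_, fun i j h => ?_⟩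
  · simp only [h1, e']
  · have h4 := e (b i).ofLp
    rw [show B⁻¹ *ᵥ _ = 0 from h, Matrix.mulVec_zero] at h4
    exact h2 i (congrArg (WithLp.toLp 2) h4.symm)
  · rw [← Matrix.mulVec_mulVec, e, Matrix.dotProduct_mulVec, Matrix.star_eq_conjTranspose,
      ← Matrix.star_mulVec, e, dotProduct_comm, ← EuclideanSpace.inner_eq_star_dotProduct, h3 i j h]

theorem det_sum {g : Mx n} (hg : g.PosDef) {q : Fin n → Cm n}
    (h : ∀ i j, i ≠ j → star (q i) ⬝ᵥ (g⁻¹ *ᵥ q j) = 0) (d : Fin n → ℝ) :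
    (∑ i, (d i : ℂ) • Matrix.vecMulVec (q i) (star (q i))).det.re =
      g.det.re * ∏ i, (d i * hq g (q i)) := by
  set Q : Mx n := Matrix.of fun j i => q i j with hQ
  have h1 : ∑ i, (d i : ℂ) • Matrix.vecMulVec (q i) (star (q i)) =
      Q * Matrix.diagonal (fun i => (d i : ℂ)) * Qᴴ := by
    ext j k
    rw [Matrix.sum_apply, Matrix.mul_apply]
    refine Finset.sum_congr rfl fun i _ => ?_
    simp [Matrix.vecMulVec_apply, hQ]
    ring
  have h2 : Qᴴ * g⁻¹ * Q = Matrix.diagonal fun i => (hq g (q i) : ℂ) := by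
    ext i j
    have h3 : (Qᴴ * g⁻¹ * Q) i j = star (q i) ⬝ᵥ (g⁻¹ *ᵥ q j) := by
      rw [Matrix.mul_assoc]
      rfl
    rw [h3]
    rcases eq_or_ne i j with rfl | hij
    · rw [Matrix.diagonal_apply_eq, hq]
      exact (Complex.ext rfl (Complex.nonneg_iff.1
        (hg.inv.posSemidef.dotProduct_mulVec_nonneg _)).2.symm)
    · rw [Matrix.diagonal_apply_ne _ hij, h i j hij]
  have h3 := congrArg Matrix.det h2
  have h4 : g.det = (g.det.re : ℂ) :=
    Complex.ext rfl (Complex.pos_iff.1 hg.det_pos).2.symm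
  rw [Matrix.det_mul, Matrix.det_mul, Matrix.det_nonsing_inv, Ring.inverse_eq_inv',
    Matrix.det_diagonal] at h3
  rw [h1, Matrix.det_mul, Matrix.det_mul, Matrix.det_diagonal, ← Complex.ofReal_re (_ * _)]
  congr 1
  push_cast
  rw [← h4, Finset.prod_mul_distrib, ← h3]
  field_simp [hg.det_pos.ne']

theorem four_sq (z : ℂ) (r : ℝ) :
    ∑ k : Fin 4, ‖z + r • (Complex.I ^ (k : ℕ))‖ ^ 2 = 4 * ‖z‖ ^ 2 + 4 * r ^ 2 := by
  simp only [Fin.sum_univ_four, ← Complex.normSq_eq_norm_sq, Complex.normSq_apply]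
  simp [pow_succ]
  ring

/-- discs on which the mean value is smaller than the value at the centre -/
theorem strict {E : Type} [NormedAddCommGroup E] [NormedSpace ℂ E] [FiniteDimensional ℂ E]
    {O : Set E} (hO : IsOpen O) {G : E → ℝ} (hG : ContDiffOn ℝ 2 G O) {q V : E} (hq : q ∈ O)
    (h : levi2 G q V < 0) : ∃ W : E, ∃ κ > 0, ∀ᶠ p in 𝓝 q,
      (∀ τ ∈ closedBall (0 : ℂ) 1, p + τ • W ∈ O) ∧
      Real.circleAverage (fun τ => G (p + τ • W)) 0 1 ≤ G p - κ := by
  have c2 : ContinuousOn (fderiv ℝ (fderiv ℝ G)) O :=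
    (hG.fderiv_of_isOpen hO (m := 1) le_rfl).continuousOn_fderiv_of_isOpen hO le_rfl
  have c3 : ContinuousOn (fun p => levi2 G p V) O :=
    ((c2.clm_apply continuousOn_const).clm_apply continuousOn_const).add
      ((c2.clm_apply continuousOn_const).clm_apply continuousOn_const)
  obtain ⟨δ, δ0, hδ⟩ := Metric.mem_nhds_iff.1 (inter_mem (hO.mem_nhds hq)
    ((c3.continuousAt (hO.mem_nhds hq)).eventually_lt_const (u := levi2 G q V / 2) (by linarith)))
  obtain ⟨R, R0, hR⟩ : ∃ R : ℝ, 0 < R ∧ ‖R • V‖ ≤ δ / 2 := ⟨δ / 2 / (‖V‖ + 1), by positivity, by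
    rw [norm_smul, Real.norm_of_nonneg (by positivity), div_mul_eq_mul_div,
      div_le_iff₀ (by positivity)]
    nlinarith [norm_nonneg V]⟩
  have κ0 : 0 < R ^ 2 * (-levi2 G q V / 8) := mul_pos (by positivity) (by linarith)
  refine ⟨R • V, _, κ0, mem_of_superset (ball_mem_nhds q (half_pos δ0)) fun p hp => ?_⟩
  have m : ∀ τ ∈ closedBall (0 : ℂ) 1, p + τ • R • V ∈ ball q δ := fun τ hτ => by
    have h1 : ‖τ • R • V‖ ≤ δ / 2 := (norm_smul_le _ _).trans
      ((mul_le_of_le_one_left (norm_nonneg _) (mem_closedBall_zero_iff.1 hτ)).trans hR)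
    rw [mem_ball, dist_eq_norm, add_sub_right_comm]
    linarith [norm_add_le (p - q) (τ • R • V), mem_ball_iff_norm.1 hp]
  refine ⟨fun τ hτ => (hδ (m τ hτ)).1, ?_⟩
  have c : ContinuousOn (fun τ : ℂ => G (p + τ • R • V)) (closedBall 0 1) :=
    hG.continuousOn.comp (by fun_prop) fun τ hτ => (hδ (m τ hτ)).1
  generalize hκ : R ^ 2 * (-levi2 G q V / 8) = κ
  have h1 := P253.R2.H618.four_submean (u := fun τ => -G (p + τ • R • V) - κ * ‖τ‖ ^ 2) one_pos
    (c.neg.sub (by fun_prop)) fun z hz η η0 => by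
      have h2 := hδ (m z (ball_subset_closedBall hz))
      have h3 : levi2 G (p + z • R • V) (R • V) ≤ -(4 * κ) := by
        have e : levi2 G (p + z • R • V) (R • V) = R ^ 2 * levi2 G (p + z • R • V) V := by
          simp only [levi2, smul_comm Complex.I R V, map_smul, smul_apply, smul_eq_mul]
          ring
        rw [e, ← hκ]
        nlinarith [show levi2 G (p + z • R • V) V < _ from h2.2, sq_pos_of_pos R0]
      filter_upwards [(P253.R2.H618.four_taylor hO hG h2.1 (R • V) isSmall_zero).def η0] with r hr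
      rw [Real.norm_of_nonneg (sq_nonneg r), Real.norm_eq_abs] at hr
      have e : ∀ k : Fin 4, p + (z + r • Complex.I ^ (k : ℕ)) • R • V =
          p + z • R • V + (r • Complex.I ^ (k : ℕ) • R • V + 0) := fun k => by
        rw [add_smul, smul_assoc, add_zero, add_assoc]
      simp only [e, Finset.sum_sub_distrib, Finset.sum_neg_distrib, ← Finset.mul_sum, four_sq]
      unfold levi2 at h3
      nlinarith [(abs_le.1 hr).2, mul_le_mul_of_nonneg_left h3 (sq_nonneg r)]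
  have i1 := (c.mono sphere_subset_closedBall).circleIntegrable zero_le_one
  rw [Real.circleAverage_congr_sphere (f₂ := fun τ => (-1 : ℝ) • G (p + τ • R • V) + -κ)
    fun τ hτ => by simp [show ‖τ‖ = 1 by simpa using hτ, sub_eq_add_neg],
    Real.circleAverage_fun_add (f₁ := fun τ => (-1 : ℝ) • G (p + τ • R • V)) i1.const_smul
      (circleIntegrable_const _ _ _), Real.circleAverage_const, Real.circleAverage_fun_smul] at h1
  simp at h1
  linarith

variable {M : Type} [MetricSpace M] [ChartedSpace (Cm n) M]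

/-- constant discs -/
def cst {S t : ℝ} (ht : t ∈ Ioo 0 S) (x : M) {p : Cm n} (hp : p ≠ 0) : Disc n M S where
  f _ := x
  ξ _ := p
  ζ _ := (Real.log t / 2 : ℝ)
  cf := continuousOn_const
  hf := mdifferentiableOn_const
  cξ _ _ := continuousOn_const
  hξ _ _ := differentiableOn_const _
  ne _ _ := hp
  hζ := diffContOnCl_const
  le _ _ := by
    rw [Complex.ofReal_re, mul_div_cancel₀ _ two_ne_zero, Real.exp_log ht.1]
    exact ht.2.le

theorem cst_at {S t : ℝ} (ht : t ∈ Ioo 0 S) (x : M) {p : Cm n} (hp : p ≠ 0) :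
    (cst ht x hp).At t x :=
  ⟨rfl, by rw [cst, Complex.ofReal_re, mul_div_cancel₀ _ two_ne_zero, Real.exp_log ht.1]⟩

variable [RiemannianBundle (fun x : M => TangentSpace 𝓘(ℝ, Cm n) x)] {F : Flow n M}

theorem cst_γ {S t : ℝ} (ht : t ∈ Ioo 0 S) (x : M) {p : Cm n} (hp : p ≠ 0) :
    F.γ (cst ht x hp) = Real.log (F.H t x p) :=
  (Real.circleAverage_const _ _ _).trans
    (congrArg (fun s => Real.log (F.H s x p)) (cst_at ht x hp).2)

/-- the envelope is bounded by one disc -/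
theorem up (hF : F.Is) {S t : ℝ} {l : ℝ → M → ℝ} (hl : F.Env S l) (ht : t ∈ Ioo 0 S) {x : M}
    (hx : (F.gx t x).PosDef) (i₀ : Fin n) (D : Disc n M S) (hD : D.At t x) (h0 : D.ξ 0 ≠ 0) :
    l t x ≤ F.u t x + (F.γ D - Real.log (F.H t x (D.ξ 0))) := by
  obtain ⟨q, q0, q1, q2⟩ := orth hx.inv h0 i₀
  set D' := Function.update (fun i => cst ht x (q1 i)) i₀ D with hD'
  have h1 : ∀ i, (D' i).ξ 0 = q i := fun i => by
    rcases eq_or_ne i i₀ with rfl | h
    · rw [hD', Function.update_self, q0]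
    · rw [hD', Function.update_of_ne h]; rfl
  have h2 : (F.Z D').det.re = (F.gx t x).det.re * (Real.exp (-F.γ D) * F.H t x (D.ξ 0)) := by
    simp only [Flow.Z, h1]
    rw [det_sum hx q2, Finset.prod_eq_single i₀ (fun i _ h => ?_) (by simp), hD',
      Function.update_self, q0, Flow.H]
    rw [hD', Function.update_of_ne h, cst_γ, Real.exp_neg, Flow.H,
      Real.exp_log (Alg.hq_pos hx (q1 i)), inv_mul_cancel₀ (Alg.hq_pos hx (q1 i)).ne']
  have p1 := Alg.det_pos hx
  have p2 : 0 < F.H t x (D.ξ 0) := Alg.hq_pos hx h0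
  have p3 : 0 < ‖F.Ω x‖ ^ 2 := pow_pos (norm_pos_iff.2 (hF.ne x)) 2
  refine (hl.up t ht x D' (fun i => ?_) (by rw [h2]; positivity)).trans_eq ?_
  · rcases eq_or_ne i i₀ with rfl | h
    · rwa [hD', Function.update_self]
    · rw [hD', Function.update_of_ne h]; exact cst_at _ _ _
  · rw [h2, ← div_div, Real.log_div (by positivity) (by positivity),
      Real.log_mul (by positivity) p2.ne', Real.log_exp, Flow.u]
    ring

end Fn

open Fn

/-- **FIN** -/
theorem fin_row : FIN := by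
  intro n M _ _ _ _ _ _ _ _ _ _ _ _ μ F c hF hD h1 _
  have a : B1a n M := b1a
  have v := b3 c.vol a (b1b c.kahler a)
  have i₀ : Fin n := ⟨0, c.npos⟩
  have pos : ∀ t, 0 < t → ∀ x, (F.gx t x).PosDef := fun t ht x =>
    hF.pos t ht.le _ (a.chart x) _ (mem_chart_target _ x)
  refine ⟨fun S l hl t ht x => ?_, fun H e he q hz hξ V => ?_⟩
  · have h0 : (fun _ => 1 : Cm n) ≠ 0 := fun h => one_ne_zero (congrFun h i₀)
    have h2 := up hF hl ht (pos t ht.1 x) i₀ _ (cst_at ht x h0) h0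
    rwa [cst_γ, show (cst ht x h0).ξ 0 = fun _ => 1 from rfl, sub_self, add_zero] at h2
  by_contra! hV
  set S := Real.exp (2 * q.2.2.re) + 1 with hS
  have hO : IsOpen ({p : Cm n × Cm n × ℂ | p.1 ∈ e.target ∧ p.2.1 ≠ 0} ∩
      {p | Real.exp (2 * p.2.2.re) < S}) :=
    ((e.open_target.preimage continuous_fst).inter
      (isOpen_ne_fun (by fun_prop) continuous_const)).inter (isOpen_lt (by fun_prop) (by fun_prop))
  obtain ⟨W, κ, κ0, hW⟩ := strict hO (((h1.G_sm e he).of_le (by norm_cast)).mono inter_subset_left)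
    ⟨⟨hz, hξ⟩, lt_add_one (Real.exp _)⟩ hV
  obtain ⟨l, hl, hae⟩ := H S (by positivity)
  have := properSpace_riemannian (Cm n) M
  have : IsFiniteMeasureOnCompacts μ := ⟨v.fin⟩
  have : μ.IsOpenPosMeasure := ⟨fun U h h' => (v.pos U h h').ne'⟩
  have t0 := Real.exp_pos (2 * q.2.2.re)
  have hc : Tendsto (fun r : ℝ × M => ((e r.2, q.2.1, (Real.log r.1 / 2 : ℝ) + q.2.2.im * Complex.I) :
      Cm n × Cm n × ℂ)) (𝓝 (Real.exp (2 * q.2.2.re), e.symm q.1)) (𝓝 q) := by
    have h2 : ContinuousAt (fun r : ℝ × M => ((e r.2, q.2.1, (Real.log r.1 / 2 : ℝ) +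
        q.2.2.im * Complex.I) : Cm n × Cm n × ℂ)) (Real.exp (2 * q.2.2.re), e.symm q.1) :=
      ((e.continuousAt (e.map_target hz)).comp_of_eq continuousAt_snd rfl).prodMk
        (continuousAt_const.prodMk ((Complex.continuous_ofReal.continuousAt.comp
        ((continuousAt_fst.log t0.ne').div_const 2)).add
          continuousAt_const))
    simpa [ContinuousAt, e.right_inv hz] using h2
  obtain ⟨⟨t, x⟩, h2, ⟨h3, h4⟩, ht, hx⟩ := (Measure.dense_of_ae hae).inter_nhds_nonempty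
    ((hc.eventually hW).and (prod_mem_nhds (Ioo_mem_nhds t0 (lt_add_one _))
      (e.open_source.mem_nhds (e.map_target hz))))
  obtain ⟨D, d1, d2, d3⟩ := hD n M μ F c hF h1 S e he _
    (Differentiable.diffContOnCl (by fun_prop)) (fun τ hτ => ⟨(h3 τ hτ).1.1, (h3 τ hτ).2.le⟩)
    fun τ hτ => (h3 τ (sphere_subset_closedBall hτ)).1.2
  have e1 : 2 * ((Real.log t / 2 : ℝ) + q.2.2.im * Complex.I).re = Real.log t := by
    simp [mul_div_cancel₀]
  have d4 : D.f 0 = x := by simpa [e.left_inv hx] using (d1 0).1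
  have d5 : cv e x (D.ξ 0) = q.2.1 := by simpa [d4] using d2 0 (mem_closedBall_self zero_le_one)
  have h5 := up hF hl ht (pos t ht.1 x) i₀ D
    ⟨d4, by rw [(d1 0).2, zero_smul, add_zero, e1, Real.exp_log ht.1]⟩
    fun h => hξ (by rw [← d5, h, cv, Matrix.zero_vecMul])
  rw [h1.H_eq t ht.1.le e he x hx, d5, d3] at h5
  rw [Flow.G, e1, Real.exp_log ht.1] at h4
  linarith [h2 ht]

end Vale.Agent.P253W.V
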