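import Vale.Agent.P253W.V.Defs2

/-!
# P253W, block V: row GRN (Green's formula on `ℂ`, cut-off functions)
-/

open scoped ContDiff Topology
open MeasureTheory Set Metric Filter Complex
open Vale.Agent.P253.R2.H451 (levi2)

noncomputable section

namespace Vale.Agent.P253W.V

namespace GrnL

variable {K : Set ℂ} {u g : ℂ → ℝ}

/-- the derivative in the direction `a` -/
def dd (a : ℂ) (u : ℂ → ℝ) (τ : ℂ) : ℝ := fderiv ℝ u τ a

theorem intg (hK : IsCompact K) (hu : ContinuousOn u K) (hg : ContinuousOn g K)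
    (h0 : ∀ τ ∉ K, g τ = 0) : Integrable fun τ => u τ * g τ :=
  ((hu.mul hg).integrableOn_compact hK).integrable_of_forall_notMem_eq_zero
    fun τ hτ => by simp [h0 τ hτ]

theorem dd_at {m k : ℕ∞ω} {τ : ℂ} (hu : ContDiffAt ℝ k u τ) (h : m + 1 ≤ k) (a : ℂ) :
    ContDiffAt ℝ m (dd a u) τ := (hu.fderiv_right h).clm_apply contDiffAt_const

theorem dd_smooth (hu : ContDiff ℝ ∞ u) (a : ℂ) : ContDiff ℝ ∞ (dd a u) :=
  contDiff_iff_contDiffAt.2 fun _ => dd_at hu.contDiffAt (by simp) a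

theorem dd_cont (hu : ∀ τ ∈ K, ContDiffAt ℝ 1 u τ) (a : ℂ) : ContinuousOn (dd a u) K :=
  fun τ hτ => (dd_at (m := 0) (hu τ hτ) (by simp) a).continuousAt.continuousWithinAt

theorem dd_dd {τ : ℂ} (hu : ContDiffAt ℝ 2 u τ) (a b : ℂ) :
    dd a (dd b u) τ = fderiv ℝ (fderiv ℝ u) τ a b := by
  have h : DifferentiableAt ℝ (fderiv ℝ u) τ :=
    (hu.fderiv_right (m := 1) (by norm_num)).differentiableAt one_ne_zero
  change fderiv ℝ (fun y => fderiv ℝ u y b) τ a = _
  rw [fderiv_clm_apply h (differentiableAt_const b)]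
  simp

theorem dd_comm {τ : ℂ} (hu : ContDiffAt ℝ 2 u τ) (a b : ℂ) :
    dd a (dd b u) τ = dd b (dd a u) τ := by
  rw [dd_dd hu, dd_dd hu]
  exact hu.isSymmSndFDerivAt (by simp) a b

theorem tsupport_dd (a : ℂ) : tsupport (dd a u) ⊆ tsupport (fderiv ℝ u) :=
  tsupport_comp_subset (g := fun L : ℂ →L[ℝ] ℝ => L a) rfl _

theorem dd_zero {τ : ℂ} (h : τ ∉ tsupport u) (a : ℂ) : dd a u τ = 0 := by
  simp [dd, fderiv_of_notMem_tsupport ℝ h]

theorem lp_eq {τ : ℂ} (hu : ContDiffAt ℝ 2 u τ) : Lp u τ = dd 1 (dd 1 u) τ + dd I (dd I u) τ := by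
  rw [dd_dd hu, dd_dd hu]
  simp [Lp, levi2]

theorem lp_zero {τ : ℂ} (h : τ ∉ tsupport (fderiv ℝ u)) : Lp u τ = 0 := by
  simp [Lp, levi2, fderiv_of_notMem_tsupport ℝ h]

theorem two_le : (2 : ℕ∞ω) ≤ ∞ := by
  have h : ((2 : ℕ∞) : ℕ∞ω) ≤ ((⊤ : ℕ∞) : ℕ∞ω) := WithTop.coe_le_coe.2 le_top
  exact h

theorem intg₁ (hK : IsCompact K) (hu : ContinuousOn u K) (hg : ContDiff ℝ ∞ g)
    (hs : tsupport g ⊆ K) : Integrable fun τ => u τ * g τ :=
  intg hK hu hg.continuous.continuousOn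
    fun _ hτ => image_eq_zero_of_notMem_tsupport fun h => hτ (hs h)

theorem intg₂ (hK : IsCompact K) (hu : ContinuousOn u K) (hg : ContDiff ℝ ∞ g)
    (hs : tsupport g ⊆ K) (a : ℂ) : Integrable fun τ => u τ * dd a g τ :=
  intg₁ hK hu (dd_smooth hg a) (((tsupport_dd a).trans (tsupport_fderiv_subset ℝ)).trans hs)

/-- integration by parts -/
theorem ibp (hK : IsCompact K) (hu : ∀ τ ∈ K, ContDiffAt ℝ 1 u τ) (hg : ContDiff ℝ ∞ g)
    (hs : tsupport g ⊆ K) (a : ℂ) : ∫ τ, u τ * dd a g τ = -∫ τ, dd a u τ * g τ := by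
  have hc : ContinuousOn u K := fun τ hτ => (hu τ hτ).continuousAt.continuousWithinAt
  exact integral_mul_fderiv_eq_neg_fderiv_mul_of_integrable (intg₁ hK (dd_cont hu a) hg hs)
    (intg₂ hK hc hg hs a) (intg₁ hK hc hg hs)
    (fun τ hτ => (hu τ (hs hτ)).differentiableAt one_ne_zero)
    fun τ _ => (hg.differentiable (by simp)).differentiableAt

theorem ibp₂ (hK : IsCompact K) (hu : ∀ τ ∈ K, ContDiffAt ℝ 2 u τ) (hg : ContDiff ℝ ∞ g)
    (hs : tsupport g ⊆ K) (a : ℂ) :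
    ∫ τ, u τ * dd a (dd a g) τ = ∫ τ, dd a (dd a u) τ * g τ := by
  rw [ibp hK (fun τ hτ => (hu τ hτ).of_le (by norm_num)) (dd_smooth hg a)
    (((tsupport_dd a).trans (tsupport_fderiv_subset ℝ)).trans hs),
    ibp hK (fun τ hτ => dd_at (hu τ hτ) (by norm_num) a) hg hs, neg_neg]

end GrnL

open GrnL

theorem grn_row : GRN := by
  refine ⟨fun U v χ hU hv ⟨hχ, _, hc, hs⟩ => ?_, fun a b ha hab => ?_⟩
  · have hv' : ∀ τ ∈ tsupport χ, ContDiffAt ℝ 2 v τ := fun τ hτ =>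
      hv.contDiffAt (hU.mem_nhds (hs hτ))
    have hvc : ContinuousOn v (tsupport χ) := fun τ hτ =>
      (hv' τ hτ).continuousAt.continuousWithinAt
    have i1 : ∀ a, Integrable fun τ => v τ * dd a (dd a χ) τ := fun a =>
      intg₂ hc hvc (dd_smooth hχ a) ((tsupport_dd a).trans (tsupport_fderiv_subset ℝ)) a
    have i2 : ∀ a, Integrable fun τ => dd a (dd a v) τ * χ τ := fun a =>
      intg₁ hc (dd_cont (fun τ hτ => dd_at (hv' τ hτ) (by norm_num) a) a) hχ subset_rfl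
    have e1 : (fun τ => v τ * Lp χ τ) =
        fun τ => v τ * dd 1 (dd 1 χ) τ + v τ * dd I (dd I χ) τ := funext fun τ => by
      rw [lp_eq (hχ.contDiffAt.of_le two_le), mul_add]
    have e2 : (fun τ => χ τ * Lp v τ) =
        fun τ => dd 1 (dd 1 v) τ * χ τ + dd I (dd I v) τ * χ τ := funext fun τ => by
      by_cases hτ : τ ∈ tsupport χ
      · rw [lp_eq (hv' τ hτ)]
        ring
      · simp [image_eq_zero_of_notMem_tsupport hτ]
    rw [e1, e2, integral_add (i1 1) (i1 I), integral_add (i2 1) (i2 I),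
      ibp₂ hc hv' hχ subset_rfl, ibp₂ hc hv' hχ subset_rfl]
    exact ⟨(i1 1).add (i1 I), (i2 1).add (i2 I), rfl⟩
  · let φ : ContDiffBump (0 : ℂ) := ⟨a, (a + b) / 2, ha, by linarith⟩
    have hφ : tsupport φ = closedBall 0 ((a + b) / 2) := φ.tsupport_eq
    have hcl : IsClosed (ann a b) :=
      (isClosed_le continuous_const continuous_norm).inter
        (isClosed_le continuous_norm continuous_const)
    have hd : tsupport (fderiv ℝ φ) ⊆ ann a b := by
      refine closure_minimal (fun τ hτ => ⟨?_, ?_⟩) hcl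
      · by_contra h
        refine hτ ?_
        rw [(φ.eventuallyEq_one_of_mem_ball (mem_ball_zero_iff.2 (not_le.1 h))).fderiv_eq]
        exact fderiv_const_apply _
      · have := support_fderiv_subset ℝ hτ
        rw [hφ, mem_closedBall_zero_iff] at this
        linarith
    refine ⟨φ, ⟨φ.contDiff, fun _ => φ.nonneg, φ.hasCompactSupport, ?_⟩,
      fun τ hτ => φ.one_of_mem_closedBall hτ, hd, fun τ hτ => lp_zero fun h => hτ (hd h)⟩
    rw [hφ]
    exact closedBall_subset_ball (by linarith)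

end Vale.Agent.P253W.V
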