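import Vale.Agent.P253W.V.Defs

/-!
# P253W, block V, row HAR: the Harnack inequality
-/

set_option linter.unusedSectionVars false

open scoped Manifold ContDiff Bundle Topology ComplexOrder Matrix
open Bundle IsManifold Set Metric Filter Vale.Agent.P253Z
open Vale.Agent.P272.K (Cm dz Chart)
open Vale.Agent.P210.R2.H53 (MinGeo properSpace_riemannian)

noncomputable section

namespace Vale.Agent.P253W.V

namespace Har

variable {n : ℕ}

theorem qf_nonneg {A : Mx n} (h : A.PosSemidef) (v : Cm n) : 0 ≤ qf A v := by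
  have := (Complex.le_def.1 (h.dotProduct_mulVec_nonneg (star v))).1
  rwa [star_star] at this

theorem qf_sub (A B : Mx n) (v : Cm n) : qf (A - B) v = qf A v - qf B v := by
  simp only [qf, Matrix.sub_mulVec, dotProduct_sub, Complex.sub_re]

theorem qf_smul (c : ℝ) (A : Mx n) (v : Cm n) : qf ((c : ℂ) • A) v = c * qf A v := by
  simp only [qf, Matrix.smul_mulVec, dotProduct_smul, smul_eq_mul, Complex.re_ofReal_mul]

/-- the real derivative in terms of the complex ones -/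
theorem fd_eq {f : Cm n → ℝ} {z : Cm n} (hf : DifferentiableAt ℝ f z) (v : Cm n) :
    fderiv ℝ f z v = 2 * (∑ k, v k * dz k (fun y => (f y : ℂ)) z).re := by
  have h1 : ∀ w, fderiv ℝ (fun y => (f y : ℂ)) z w = (fderiv ℝ f z w : ℝ) := fun w =>
    congrArg (fun L : Cm n →L[ℝ] ℂ => L w)
      (Complex.ofRealCLM.hasFDerivAt.comp z hf.hasFDerivAt).fderiv
  have h2 : v = ∑ k, ((v k).re • (Pi.single k 1 : Cm n) +
      (v k).im • (Pi.single k Complex.I : Cm n)) := by
    funext j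
    rw [Finset.sum_apply, Finset.sum_eq_single j (fun k _ h => by simp [h.symm]) (by simp)]
    simp
  conv_lhs => rw [h2]
  rw [map_sum, Complex.re_sum, Finset.mul_sum]
  refine Finset.sum_congr rfl fun k _ => ?_
  rw [map_add, map_smul, map_smul, dz, h1, h1]
  simp
  ring

theorem amgm {D R a l : ℝ} (hl : 0 < l) (hR : 0 ≤ R) (ha : 0 ≤ a) (h : D ^ 2 ≤ R * a) :
    2 * D ≤ l * a + R / l := by
  have h1 : l * a * (R / l) = R * a := by field_simp
  have h2 : 0 ≤ l * a + R / l := by positivity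
  exact (abs_le_of_sq_le_sq' (by nlinarith [sq_nonneg (l * a - R / l)]) h2).2

variable {M : Type} [MetricSpace M] [ChartedSpace (Cm n) M] [IsManifold 𝓘(ℂ, Cm n) 1 M]
  [RiemannianBundle fun x : M => TangentSpace 𝓘(ℝ, Cm n) x] {F : Flow n M}

/-- the derivative of `τ R` along a path in space-time -/
theorem der (b : F.Bas1) (h : F.S3a) {s l : ℝ} (hs : 0 < s) (hl : 0 < l) {I : Set ℝ} {σ : ℝ}
    (hI : σ ∈ I) {τ : ℝ → ℝ} (hτ : HasDerivAt τ (l * τ σ) σ) (hsτ : s ≤ τ σ) {c : ℝ → M}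
    (hc : ContinuousWithinAt c I σ) {e : Chart n M} (he : Hc e) (hx : c σ ∈ e.source) {v : Cm n}
    (hv : HasDerivWithinAt (fun r => e (c r)) v I σ) (h1 : qf (F.g s e (e (c σ))) v ≤ 1) :
    ∃ p, HasDerivWithinAt (fun r => τ r * F.R (τ r) (c r)) p I σ ∧
      -(1 / (s * l) * (τ σ * F.R (τ σ) (c σ))) ≤ p := by
  have t0 := hs.trans_le hsτ
  have hz := e.map_source hx
  have d1 : DifferentiableAt ℝ (fun q : ℝ × Cm n => q.1 * ch e F.R q) (τ σ, e (c σ)) :=
    differentiableAt_fst.mul (((b.R_sm e he).contDiffAt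
      (prod_mem_nhds (Ici_mem_nhds t0) (e.open_target.mem_nhds hz))).differentiableAt (by simp))
  have d2 := d1.hasFDerivAt.comp_hasDerivWithinAt (f := fun r => (τ r, e (c r))) σ
    (hτ.hasDerivWithinAt.prodMk hv)
  have ev : (fun r => τ r * F.R (τ r) (c r)) =ᶠ[𝓝[I] σ]
      (fun q : ℝ × Cm n => q.1 * ch e F.R q) ∘ fun r => (τ r, e (c r)) := by
    filter_upwards [hc (e.open_source.mem_nhds hx)] with r hr
    simp only [Function.comp, ch, e.left_inv hr]
  refine ⟨_, d2.congr_of_eventuallyEq_of_mem ev hI, ?_⟩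
  have d3 : HasDerivAt (fun r => r * F.R r (e.symm (e (c σ)))) _ (τ σ) :=
    d1.hasFDerivAt.comp_hasDerivAt (f := fun r => (r, e (c σ))) (τ σ)
      ((hasDerivAt_id _).prodMk (hasDerivAt_const _ _))
  have d4 : HasFDerivAt (fun y => τ σ * F.R (τ σ) (e.symm y)) _ (e (c σ)) :=
    d1.hasFDerivAt.comp (f := fun y => (τ σ, y)) (e (c σ)) (hasFDerivAt_prodMk_right _ _)
  have g1 := h.grad _ t0 e he _ hz v
  have g2 := fd_eq d4.differentiableAt v
  have g3 := (h.R_mono (e.symm (e (c σ)))).derivWithin_nonneg (x := τ σ)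
  rw [derivWithin_of_mem_nhds (Ici_mem_nhds t0)] at g3
  have g4 := qf_nonneg (h.ric_le _ t0.le e he _ hz) v
  have g5 := qf_nonneg (h.g_anti _ _ hs.le hsτ e he _ hz).1 v
  have g6 := (h.R_pos _ t0.le (c σ)).le
  rw [qf_sub] at g4 g5
  rw [qf_smul, e.left_inv hx] at g4
  have g7 := amgm hl g6 (mul_nonneg t0.le g3) (g1.trans (mul_le_mul_of_nonneg_right
    ((sub_nonneg.1 g4).trans (mul_le_of_le_one_right g6 (by linarith))) (mul_nonneg t0.le g3)))
  have g8 := (abs_le.1 (Complex.abs_re_le_norm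
    (∑ k, v k * dz k (fun y => ((τ σ * F.R (τ σ) (e.symm y) : ℝ) : ℂ)) (e (c σ))))).1
  have g9 : F.R (τ σ) (c σ) / l ≤ 1 / (s * l) * (τ σ * F.R (τ σ) (c σ)) := by
    rw [one_div_mul_eq_div, div_le_div_iff₀ hl (by positivity)]
    nlinarith [mul_le_mul_of_nonneg_left hsτ (mul_nonneg g6 hl.le)]
  have e1 : ((l * τ σ, v) : ℝ × Cm n) = (l * τ σ) • ((1 : ℝ), (0 : Cm n)) + (0, v) := by simp
  rw [d3.deriv] at g7
  rw [d4.fderiv] at g2
  rw [e1, map_add, map_smul, smul_eq_mul]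
  change _ = _ at g2
  simp only [ContinuousLinearMap.comp_apply, ContinuousLinearMap.inr_apply] at g2
  linarith

theorem core (b : F.Bas1) (h : F.S3a) {s t d : ℝ} (hs : 0 < s) (hst : s < t) (hd : 0 < d)
    {c : ℝ → M} (hc : ContinuousOn c (Icc 0 d))
    (hv : ∀ σ ∈ Icc 0 d, ∃ v, HasDerivWithinAt (fun r => pc n (c σ) (c r)) v (Icc 0 d) σ ∧
      qf (F.g s (pc n (c σ)) (pc n (c σ) (c σ))) v ≤ 1) :
    s * F.R s (c 0) ≤ t * F.R t (c d) * Real.exp (d ^ 2 / (s * Real.log (t / s))) := by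
  have hL : 0 < Real.log (t / s) := Real.log_pos ((one_lt_div hs).2 hst)
  obtain ⟨l, hl⟩ : ∃ l, l = Real.log (t / s) / d := ⟨_, rfl⟩
  have l0 : 0 < l := hl ▸ div_pos hL hd
  have key : ∀ σ ∈ Icc 0 d, ∃ p, HasDerivWithinAt (fun r => s * Real.exp (l * r) *
      F.R (s * Real.exp (l * r)) (c r) * Real.exp (1 / (s * l) * r)) p (Icc 0 d) σ ∧ 0 ≤ p :=
    fun σ hσ => by
      obtain ⟨v, h1, h2⟩ := hv σ hσ
      obtain ⟨p, h3, h4⟩ := der b h hs l0 hσ (τ := fun r => s * Real.exp (l * r))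
        ((((hasDerivAt_id σ).const_mul l).exp.const_mul s).congr_deriv (by simp only [id]; ring))
        (le_mul_of_one_le_right hs.le (Real.one_le_exp (mul_nonneg l0.le hσ.1))) (hc σ hσ)
        (chart_mem_maximalAtlas _) (mem_chart_source _ _) h1 h2
      refine ⟨_, h3.mul ((hasDerivAt_id σ).const_mul (1 / (s * l))).exp.hasDerivWithinAt, ?_⟩
      have := mul_le_mul_of_nonneg_right h4 (Real.exp_pos (1 / (s * l) * σ)).le
      simp only [id]
      linarith
  choose! p hp using key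
  have mono := monotoneOn_of_hasDerivWithinAt_nonneg (convex_Icc 0 d) (f' := p)
    (fun σ hσ => (hp σ hσ).1.continuousWithinAt)
    (fun σ hσ => (hp σ (interior_subset hσ)).1.mono interior_subset)
    (fun σ hσ => (hp σ (interior_subset hσ)).2) ⟨le_rfl, hd.le⟩ ⟨hd.le, le_rfl⟩ hd.le
  have e1 : s * Real.exp (l * d) = t := by
    rw [hl, div_mul_cancel₀ _ hd.ne', Real.exp_log (div_pos (hs.trans hst) hs)]
    field_simp
  have e2 : 1 / (s * l) * d = d ^ 2 / (s * Real.log (t / s)) := by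
    rw [hl]
    field_simp
  simpa only [mul_zero, Real.exp_zero, mul_one, e1, e2] using mono

end Har

theorem har_row : HAR := by
  intro n M _ _ _ _ _ _ _ _ _ _ _ _ μ F _ _ geo b _ h A hA s t hs hst x y
  have := hA s hs.le
  have : ProperSpace (Wm (A.G s)) := properSpace_riemannian (Cm n) _
  obtain ⟨-, g2, g3, -⟩ := geo n (Wm (A.G s)) (A.kahler s hs.le)
  obtain ⟨c, h1, h2, h3⟩ := g2 x y _ (isCompact_closedBall _ _) le_rfl
  rcases (dist_nonneg (α := Wm (A.G s)) (x := x) (y := y)).eq_or_lt with e | e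
  · obtain rfl : x = y := dist_eq_zero (γ := Wm (A.G s)) |>.1 e.symm
    rw [Fam.d, ← e]
    simpa using h.R_mono x hs.le (hs.trans hst).le hst.le
  · obtain ⟨v, hv⟩ := g3 c _ e h1
    have hc : ContinuousOn c (Icc 0 (dist (α := Wm (A.G s)) x y)) :=
      (LipschitzOnWith.of_dist_le_mul (K := 1) fun p hp q hq => by
        rw [h1 p hp q hq, Real.dist_eq, NNReal.coe_one, one_mul]).continuousOn
    have := Har.core (c := c) b h hs hst e hc fun σ hσ => by
      have he : Hc (pc n (M := M) (c σ)) := chart_mem_maximalAtlas _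
      have hx := mem_chart_source (Cm n) (M := M) (c σ)
      obtain ⟨p1, p2, -⟩ := (hv _ he).2 σ hσ hx
      exact ⟨_, p1, (A.hm_eq s hs.le _ he _ ((pc n (M := M) (c σ)).map_source hx) ▸ p2).le⟩
    rwa [h2, h3] at this

end Vale.Agent.P253W.V
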