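import Vale.Agent.P253W.V.Defs
import Vale.Agent.P272.K.INT.Piola

/-!
# P253W, block V: integration by parts in space-time
-/

open scoped ContDiff Topology ComplexConjugate ComplexOrder Matrix
open MeasureTheory Set Filter
open Vale.Agent.P272.K (Cm dz dzb cHess)
open Vale.Agent.P272.K.INT

noncomputable section

namespace Vale.Agent.P253W.V

namespace Ibp

variable {n : ℕ} {U K : Set (P n)} {E : Type} [NormedField E] [NormedAlgebra ℝ E] {q : P n}
  {j k : Fin n}

/-- smooth on `U` -/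
def Sm (U : Set (P n)) (F : P n → E) : Prop := ∀ q ∈ U, ContDiffAt ℝ ∞ F q

/-- smooth on `U`, zero outside `K` -/
def Cs (U K : Set (P n)) (F : P n → E) : Prop := Sm U F ∧ ∀ q, q ∉ K → F q = 0

theorem Cs.ev {F : P n → E} (h : Cs U K F) (hK : IsCompact K) (hq : q ∉ K) : F =ᶠ[𝓝 q] fun _ => 0 :=
  (hK.isClosed.isOpen_compl.eventually_mem hq).mono h.2

theorem Cs.cd {F : P n → E} (h : Cs U K F) (hK : IsCompact K) (e : K ⊆ U) : ContDiff ℝ ∞ F :=
  contDiff_iff_contDiffAt.2 fun q => (em (q ∈ K)).elim (fun c => h.1 q (e c))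
    fun c => contDiffAt_const.congr_of_eventuallyEq (h.ev hK c)

theorem Cs.int {F : P n → E} (h : Cs U K F) (hK : IsCompact K) (e : K ⊆ U) : Integrable F :=
  (h.cd hK e).continuous.integrable_of_hasCompactSupport (HasCompactSupport.intro hK h.2)

theorem Cs.mul {F G : P n → E} (h : Cs U K F) (h' : Sm U G) : Cs U K fun q => F q * G q :=
  ⟨fun q e => (h.1 q e).mul (h' q e), fun q e => by simp [h.2 q e]⟩

theorem Cs.mul' {F G : P n → E} (h : Cs U K F) (h' : Sm U G) : Cs U K fun q => G q * F q :=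
  ⟨fun q e => (h' q e).mul (h.1 q e), fun q e => by simp [h.2 q e]⟩

theorem Cs.fd {F : P n → E} (h : Cs U K F) (hK : IsCompact K) (e : K ⊆ U) (v : P n) :
    Integrable (fun q => fderiv ℝ F q v) ∧ ∫ q, fderiv ℝ F q v = 0 := by
  have c := h.cd hK e
  have h1 : Integrable fun q => fderiv ℝ F q v := ((c.continuous_fderiv (by simp)).clm_apply
    continuous_const).integrable_of_hasCompactSupport
      ((HasCompactSupport.intro hK h.2).fderiv_apply (𝕜 := ℝ) v)
  refine ⟨h1, ?_⟩
  have : (volume : Measure (P n)).IsAddHaarMeasure := Measure.prod.instIsAddHaarMeasure _ _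
  simpa using integral_mul_fderiv_eq_neg_fderiv_mul_of_integrable (μ := (volume : Measure (P n)))
    (f := fun _ => (1 : E)) (g := F) (v := v) (by simp) (by simpa using h1)
    (by simpa using h.int hK e) (by fun_prop) fun x _ => c.differentiable (by simp) x

theorem sl {F : P n → E} (h : ContDiffAt ℝ ∞ F q) : ContDiffAt ℝ ∞ (fun w => F (q.1, w)) q.2 :=
  ContDiffAt.comp (g := F) q.2 h (contDiffAt_const.prodMk contDiffAt_id)

theorem sld {F : P n → E} (h : ContDiffAt ℝ ∞ F q) :
    DifferentiableAt ℝ (fun w => F (q.1, w)) q.2 := (sl h).differentiableAt (by simp)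

theorem fd_sl {F : P n → E} (h : DifferentiableAt ℝ F q) (v : Cm n) :
    fderiv ℝ (fun w => F (q.1, w)) q.2 v = fderiv ℝ F q (0, v) :=
  DFunLike.congr_fun (HasFDerivAt.comp (g := F) (f := fun w => (q.1, w)) q.2 h.hasFDerivAt
    (hasFDerivAt_prodMk_right (𝕜 := ℝ) q.1 q.2)).fderiv v

/-- `∂ / ∂ z_j` in space -/
def sz (j : Fin n) (F : P n → ℂ) (q : P n) : ℂ := dz j (fun w => F (q.1, w)) q.2

/-- `∂ / ∂ z̄_j` in space -/
def szb (j : Fin n) (F : P n → ℂ) (q : P n) : ℂ := dzb j (fun w => F (q.1, w)) q.2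

variable {F G : P n → ℂ}

theorem sz_eq (h : DifferentiableAt ℝ F q) : sz j F q = (fderiv ℝ F q (0, Pi.single j 1) -
    Complex.I * fderiv ℝ F q (0, Pi.single j Complex.I)) / 2 := by rw [sz, dz, fd_sl h, fd_sl h]

theorem szb_eq (h : DifferentiableAt ℝ F q) : szb j F q = (fderiv ℝ F q (0, Pi.single j 1) +
    Complex.I * fderiv ℝ F q (0, Pi.single j Complex.I)) / 2 := by rw [szb, dzb, fd_sl h, fd_sl h]

theorem Sm.sz (h : Sm U F) (j : Fin n) : Sm U (sz j F) ∧ Sm U (szb j F) := by
  have d : ∀ q ∈ U, ∀ v, ContDiffAt ℝ ∞ (fun q => fderiv ℝ F q v) q := fun q e v =>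
    ((h q e).fderiv_right (by simp)).clm_apply contDiffAt_const
  have ev : ∀ q ∈ U, ∀ᶠ p in 𝓝 q, DifferentiableAt ℝ F p := fun q e =>
    (((h q e).of_le (m := 1) (by simp)).eventually (by simp)).mono fun _ c =>
      c.differentiableAt one_ne_zero
  exact ⟨fun q e => (((d q e _).sub (contDiffAt_const.mul (d q e _))).div_const 2).congr_of_eventuallyEq
    ((ev q e).mono fun _ c => sz_eq c), fun q e => (((d q e _).add (contDiffAt_const.mul
      (d q e _))).div_const 2).congr_of_eventuallyEq ((ev q e).mono fun _ c => szb_eq c)⟩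

theorem Cs.sz (h : Cs U K F) (hK : IsCompact K) (j : Fin n) :
    Cs U K (sz j F) ∧ Cs U K (szb j F) := by
  have e : ∀ q, q ∉ K → (fun w => F (q.1, w)) =ᶠ[𝓝 q.2] fun _ => 0 := fun q c =>
    ((Continuous.prodMk_right q.1).tendsto q.2).eventually (h.ev hK c)
  exact ⟨⟨(h.1.sz j).1, fun q c => (dz_congr (e q c)).trans (dz_const 0)⟩,
    (h.1.sz j).2, fun q c => (dzb_congr (e q c)).trans (dzb_const 0)⟩

theorem Cs.int_sz (h : Cs U K F) (hK : IsCompact K) (e : K ⊆ U) (j : Fin n) :
    ∫ q, Ibp.sz j F q = 0 ∧ ∫ q, szb j F q = 0 := by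
  have d := (h.cd hK e).differentiable (by simp)
  have a := h.fd hK e (0, Pi.single j 1)
  have b := h.fd hK e (0, Pi.single j Complex.I)
  simp only [sz_eq (d _), szb_eq (d _), integral_div]
  rw [integral_sub a.1 (b.1.const_mul _), integral_add a.1 (b.1.const_mul _), integral_const_mul,
    a.2, b.2]
  simp

theorem sz_mul (h : ContDiffAt ℝ ∞ F q) (h' : ContDiffAt ℝ ∞ G q) :
    sz j (fun q => F q * G q) q = sz j F q * G q + F q * sz j G q := dz_mul (sld h) (sld h')

theorem szb_mul (h : ContDiffAt ℝ ∞ F q) (h' : ContDiffAt ℝ ∞ G q) :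
    szb j (fun q => F q * G q) q = szb j F q * G q + F q * szb j G q := dzb_mul (sld h) (sld h')

theorem sz_szb (h : ContDiffAt ℝ ∞ F q) : szb k (sz j F) q = sz j (szb k F) q :=
  (dz_dzb_comm ((sl h).of_le (by norm_cast))).symm

/-- the symmetry of an operator with divergence free coefficients -/
theorem symm {A : Fin n → Fin n → P n → ℂ} (hK : IsCompact K) (e : K ⊆ U) (hF : Sm U F)
    (hG : Cs U K G) (hA : ∀ k j, Sm U (A k j)) (h1 : ∀ q ∈ U, ∀ k, ∑ j, sz j (A k j) q = 0)
    (h2 : ∀ q ∈ U, ∀ j, ∑ k, szb k (A k j) q = 0) :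
    ∫ q, (F q * ∑ k, ∑ j, A k j q * sz j (szb k G) q).re =
      ∫ q, (G q * ∑ k, ∑ j, A k j q * sz j (szb k F) q).re := by
  have FA : ∀ k j, Sm U fun q => F q * A k j q := fun k j q c => (hF q c).mul (hA k j q c)
  have c1 : ∀ k j, Cs U K fun q => F q * A k j q * szb k G q := fun k j =>
    (hG.sz hK k).2.mul' (FA k j)
  have c2 : ∀ k j, Cs U K fun q => G q * A k j q * sz j F q := fun k j =>
    (hG.mul (hA k j)).mul (hF.sz j).1
  have i1 : ∀ k j, Integrable (sz j fun q => F q * A k j q * szb k G q) := fun k j =>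
    ((c1 k j).sz hK j).1.int hK e
  have i2 : ∀ k j, Integrable (szb k fun q => G q * A k j q * sz j F q) := fun k j =>
    ((c2 k j).sz hK k).2.int hK e
  have i3 : ∀ k j, Integrable fun q => sz j (fun q => F q * A k j q * szb k G q) q -
      szb k (fun q => G q * A k j q * sz j F q) q := fun k j => (i1 k j).sub (i2 k j)
  have a1 : Integrable fun q => F q * ∑ k, ∑ j, A k j q * sz j (szb k G) q := by
    simp only [Finset.mul_sum, ← mul_assoc]
    exact integrable_finsetSum _ fun k _ => integrable_finsetSum _ fun j _ =>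
      (((hG.sz hK k).2.sz hK j).1.mul' (FA k j)).int hK e
  have a2 : Integrable fun q => G q * ∑ k, ∑ j, A k j q * sz j (szb k F) q := by
    simp only [Finset.mul_sum, ← mul_assoc]
    exact integrable_finsetSum _ fun k _ => integrable_finsetSum _ fun j _ =>
      ((hG.mul (hA k j)).mul ((hF.sz k).2.sz j).1).int hK e
  refine (integral_re a1).trans ((congrArg _ ?_).trans (integral_re a2).symm)
  rw [← sub_eq_zero, ← integral_sub a1 a2, integral_congr_ae (g := fun q => ∑ k, ∑ j,
    (sz j (fun q => F q * A k j q * szb k G q) q - szb k (fun q => G q * A k j q * sz j F q) q))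
      (Eventually.of_forall fun q => ?_), integral_finsetSum _ fun k _ =>
        integrable_finsetSum _ fun j _ => i3 k j]
  · refine Finset.sum_eq_zero fun k _ => ?_
    rw [integral_finsetSum _ fun j _ => i3 k j]
    refine Finset.sum_eq_zero fun j _ => ?_
    rw [integral_sub (i1 k j) (i2 k j), ((c1 k j).int_sz hK e j).1, ((c2 k j).int_sz hK e k).2,
      sub_self]
  by_cases c : q ∈ U
  swap
  · have c' : q ∉ K := fun h => c (e h)
    simp [hG.2 q c', ((hG.sz hK _).2.sz hK _).1.2 q c', ((c1 _ _).sz hK _).1.2 q c',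
      ((c2 _ _).sz hK _).2.2 q c']
  have e1 : ∑ k, ∑ j, F q * sz j (A k j) q * szb k G q = 0 := Finset.sum_eq_zero fun k _ => by
    rw [← Finset.sum_mul, ← Finset.mul_sum, h1 q c, mul_zero, zero_mul]
  have e2 : ∑ k, ∑ j, G q * szb k (A k j) q * sz j F q = 0 := Finset.sum_comm.trans
    (Finset.sum_eq_zero fun j _ => by
      rw [← Finset.sum_mul, ← Finset.mul_sum, h2 q c, mul_zero, zero_mul])
  refine Eq.trans ?_ (Finset.sum_congr rfl fun k _ => Finset.sum_congr rfl fun j _ => by
    rw [sz_mul (FA k j q c) ((hG.1.sz k).2 q c), sz_mul (hF q c) (hA k j q c),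
      szb_mul ((hG.1 q c).mul (hA k j q c)) ((hF.sz j).1 q c), szb_mul (hG.1 q c) (hA k j q c),
      sz_szb (hF q c)]).symm
  rw [← add_zero (_ - _), ← sub_zero 0]
  nth_rewrite 1 [← e1]
  rw [← e2]
  simp only [Finset.mul_sum, ← Finset.sum_sub_distrib, ← Finset.sum_add_distrib]
  exact Finset.sum_congr rfl fun k _ => Finset.sum_congr rfl fun j _ => by ring

theorem trg_eq {g : Mx n} (h : g.PosDef) (a : Mx n) (x : ℝ) :
    x * trg g a * g.det.re = ((x : ℂ) * ∑ k, ∑ j, g.adjugate k j * a j k).re := by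
  have h0 := h.det_pos
  obtain ⟨d, hd⟩ : ∃ d : ℝ, g.det = d := ⟨_, (Complex.eq_re_of_ofReal_le (r := 0) h0.le)⟩
  have d0 : d ≠ 0 := fun e => h0.ne' (by simp [hd, e])
  rw [trg, Matrix.inv_def, Ring.inverse_eq_inv', hd, Matrix.smul_mul, Matrix.trace_smul,
    smul_eq_mul, ← Complex.ofReal_inv, Complex.re_ofReal_mul, Complex.re_ofReal_mul,
    Complex.ofReal_re]
  simp only [Matrix.trace, Matrix.diag_apply, Matrix.mul_apply]
  field_simp

theorem dT_eq {f : P n → ℝ} (h : DifferentiableAt ℝ f q) : dT f q = fderiv ℝ f q (1, 0) := by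
  rw [dT, ← fderiv_apply_one_eq_deriv]
  exact DFunLike.congr_fun (HasFDerivAt.comp (g := f) (f := fun s => (s, q.2)) q.1 h.hasFDerivAt
    (hasFDerivAt_prodMk_left (𝕜 := ℝ) q.1 q.2)).fderiv 1

end Ibp

open Ibp

/-- **IBP** -/
theorem ibp_row : IBP := fun n U g f χ hg hf ⟨c1, _, c3, c4⟩ => by
  have sf : Sm U f := fun q e => hf.contDiffAt (hg.op.mem_nhds e)
  have sχ : Cs U (tsupport χ) χ := ⟨fun q _ => c1.contDiffAt, fun q => image_eq_zero_of_notMem_tsupport⟩
  have cf : ∀ {f : P n → ℝ}, Sm U f → Sm U fun q => (f q : ℂ) := fun h q e =>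
    Complex.ofRealCLM.contDiff.contDiffAt.comp q (h q e)
  have cχ : Cs U (tsupport χ) fun q => (χ q : ℂ) := ⟨cf sχ.1, fun q e => by simp [sχ.2 q e]⟩
  have sg : ∀ j k, Sm U fun q => g q j k := fun j k q e => (hg.sm j k).contDiffAt (hg.op.mem_nhds e)
  have sA : ∀ k j, Sm U fun q => (g q).adjugate k j := fun k j q e => by
    simp only [Matrix.adjugate_apply]
    refine contDiffAt_det fun a b => ?_
    rcases eq_or_ne a j with rfl | c
    · simpa using contDiffAt_const
    · simpa [Matrix.updateRow_ne c] using sg a b q e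
  have h1 : ∀ q ∈ U, ∀ k, ∑ j, sz j (fun q => (g q).adjugate k j) q = 0 := fun q e k => by
    simp only [sz, Matrix.adjugate_apply]
    rw [piola (M := fun y => g (q.1, y)) (a := fun _ => Pi.single k 1) (fun i j => sld (sg i j q e))
      (fun _ => differentiableAt_const _) fun i k l => hg.cl q e k l i]
    exact Finset.sum_eq_zero fun r _ => Matrix.det_eq_zero_of_row_eq_zero r fun l => by simp
  refine ⟨?_, ?_⟩
  · have := symm c3 c4 (cf sf) cχ sA h1 fun q e j => by
      rw [← map_zero (starRingEnd ℂ), ← h1 q e j, map_sum]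
      refine Finset.sum_congr rfl fun k _ => (dzb_congr ?_).trans dzb_conj
      filter_upwards [((Continuous.prodMk_right q.1).tendsto q.2).eventually (hg.op.mem_nhds e)]
        with w hw
      exact ((hg.pos _ hw).isHermitian.adjugate.apply k j).symm
    convert this using 3 with q q
    · by_cases e : q ∈ U
      · exact trg_eq (hg.pos q e) _ _
      · have : ∀ j k, cH χ q j k = 0 := fun j k =>
          ((cχ.sz c3 k).2.sz c3 j).1.2 q fun c => e (c4 c)
        rw [show cH χ q = 0 from Matrix.ext this]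
        change _ = (_ * ∑ k, ∑ j, _ * cH χ q j k).re
        simp [trg, this]
    · by_cases e : q ∈ U
      · exact trg_eq (hg.pos q e) _ _
      · simp [sχ.2 q fun c => e (c4 c)]
  have d : ∀ {f : P n → ℝ}, Sm U f → Sm U (dT f) := fun h q e =>
    (((h q e).fderiv_right (by simp)).clm_apply contDiffAt_const).congr_of_eventuallyEq
      ((((h q e).of_le (m := 1) (by simp)).eventually (by simp)).mono fun _ c =>
        dT_eq (c.differentiableAt one_ne_zero))
  have z : ∀ {f : P n → ℝ}, Cs U (tsupport χ) f → ∀ q, q ∉ tsupport χ → fderiv ℝ f q = 0 :=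
    fun h q e => by simp [(h.ev c3 e).fderiv_eq]
  have dχ : Cs U (tsupport χ) (dT χ) := ⟨d sχ.1, fun q e => by
    rw [dT_eq (c1.differentiable (by simp) q), z sχ q e]; rfl⟩
  rw [eq_neg_iff_add_eq_zero, ← integral_add ((dχ.mul' sf).int c3 c4) ((sχ.mul (d sf)).int c3 c4),
    ← ((sχ.mul' sf).fd c3 c4 (1, 0)).2]
  refine integral_congr_ae (Eventually.of_forall fun q => ?_)
  by_cases e : q ∈ U
  · have a := (sf q e).differentiableAt (by simp)
    have b := c1.differentiable (by simp) q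
    simp only [dT_eq a, dT_eq b, fderiv_fun_mul a b]
    simp
  · have e' : q ∉ tsupport χ := fun c => e (c4 c)
    simp [dχ.2 q e', sχ.2 q e', z (sχ.mul' sf) q e']

end Vale.Agent.P253W.V
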