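import Vale.Agent.P253W.V.Defs2
import Mathlib.Analysis.Calculus.LineDeriv.IntegrationByParts

/-!
# P253W, block V, row LEL: the area of a holomorphic curve in a ball
-/

open scoped Topology ComplexConjugate
open MeasureTheory Set Metric Filter Asymptotics
open Vale.Agent.P272.K (Cm)
open Complex (I)

noncomputable section

namespace Vale.Agent.P253W.V

namespace Lela

theorem sq_pos (s : ℝ) : HasDerivAt (fun s : ℝ => max s 0 ^ 2) (2 * max s 0) s := by
  rcases lt_trichotomy s 0 with h | rfl | h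
  · rw [max_eq_right h.le, mul_zero]
    exact (hasDerivAt_const s (0 : ℝ)).congr_of_eventuallyEq
      ((eventually_lt_nhds h).mono fun t ht => by simp [ht.le])
  · simp only [hasDerivAt_iff_isLittleO_nhds_zero, max_self, mul_zero, smul_zero, sub_zero,
      zero_add, zero_pow two_ne_zero]
    refine IsBigO.trans_isLittleO (IsBigO.of_bound 1 (Eventually.of_forall fun t => ?_))
      (isLittleO_pow_id one_lt_two)
    rcases le_total t 0 with h | h <;> simp [h, sq_nonneg]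
  · rw [max_eq_left h.le]
    have k : HasDerivAt (fun s : ℝ => s ^ 2) (2 * s) s := by simpa using hasDerivAt_pow 2 s
    exact k.congr_of_eventuallyEq ((eventually_gt_nhds h).mono fun t ht => by simp [ht.le])

/-- the integral of a derivative -/
theorem div0 {W K : Set ℂ} (hW : IsOpen W) (hK : IsCompact K) (hKW : K ⊆ W) {g g' : ℂ → ℝ} {v : ℂ}
    (hg : ContinuousOn g K) (hg' : ContinuousOn g' K)
    (hd : ∀ τ ∈ W, HasLineDerivAt ℝ g (g' τ) τ v) (h0 : ∀ τ ∈ W, τ ∉ K → g τ = 0) :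
    ∫ τ in K, g' τ = 0 := by
  have h := integral_bilinear_hasLineDerivAt_right_eq_neg_left_of_integrable (μ := volume)
    (f := fun _ : ℂ => (1 : ℝ)) (f' := fun _ => 0) (g := K.indicator g) (g' := K.indicator g')
    (v := v) (B := ContinuousLinearMap.mul ℝ ℝ) (by simp)
    (by simpa using (integrable_indicator_iff hK.measurableSet).2 (hg'.integrableOn_compact hK))
    (by simpa using (integrable_indicator_iff hK.measurableSet).2 (hg.integrableOn_compact hK))
    (fun x _ => (hasFDerivAt_const (1 : ℝ) x).hasLineDerivAt v) fun x _ => by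
      by_cases hx : x ∈ K
      · rw [indicator_of_mem hx]
        refine (hd x (hKW hx)).congr_of_eventuallyEq ?_
        filter_upwards [hW.mem_nhds (hKW hx)] with y hy
        by_cases h : y ∈ K
        · exact indicator_of_mem h g
        · rw [indicator_of_notMem h, h0 y hy h]
      · rw [indicator_of_notMem hx]
        refine ((hasFDerivAt_const (0 : ℝ) x).hasLineDerivAt v).congr_of_eventuallyEq ?_
        filter_upwards [hK.isClosed.isOpen_compl.mem_nhds hx] with y hy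
        exact indicator_of_notMem hy g
  simpa [integral_indicator hK.measurableSet] using h

/-- the profile and its derivative -/
def kk (a δ s : ℝ) : ℝ := max (a - s) 0 ^ 2 / (s + δ)

def kd (a δ s : ℝ) : ℝ := (-(2 * max (a - s) 0) * (s + δ) - max (a - s) 0 ^ 2) / (s + δ) ^ 2

theorem kk_deriv {a δ s : ℝ} (h : s + δ ≠ 0) : HasDerivAt (kk a δ) (kd a δ s) s := by
  have h1 := (sq_pos (a - s)).comp s ((hasDerivAt_id s).const_sub a)
  have h2 := h1.div ((hasDerivAt_id s).add_const δ) h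
  refine h2.congr_deriv ?_
  simp [kd]

theorem kk_ineq {a δ s p A : ℝ} (ha : 0 ≤ a) (hδ : 0 < δ) (hs : 0 ≤ s) (hA : 0 ≤ A)
    (hp : p ≤ s * A) :
    max (a - s) 0 ^ 2 * δ / (s + δ) ^ 2 * A - 2 * a * A ≤ kd a δ s * p + kk a δ s * A := by
  set u := max (a - s) 0 with hu
  have h0 : 0 ≤ u := le_max_right _ _
  have h1 : u ≤ a := max_le (by linarith) ha
  have h2 : kd a δ s ≤ 0 := div_nonpos_of_nonpos_of_nonneg (by
    rw [← hu]; nlinarith [mul_nonneg h0 (add_pos_of_nonneg_of_pos hs hδ).le]) (sq_nonneg _)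
  have h3 : kd a δ s * s + kk a δ s = u ^ 2 * δ / (s + δ) ^ 2 - 2 * (u * (s / (s + δ))) := by
    rw [kd, kk, ← hu]
    field_simp
    ring
  have h4 : u * (s / (s + δ)) ≤ a :=
    (mul_le_of_le_one_right h0 (div_le_one_of_le₀ (by linarith) (by linarith))).trans h1
  have h5 := mul_le_mul_of_nonpos_left hp h2
  have h6 := mul_le_mul_of_nonneg_right h4 hA
  have h7 := congrArg (· * A) h3
  nlinarith

variable {E : Type} [NormedAddCommGroup E] [InnerProductSpace ℂ E]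

theorem line {Z : ℂ → E} {Z' : E} {τ : ℂ} (h : HasDerivAt Z Z' τ) (v : ℂ) :
    HasDerivAt (fun t : ℝ => Z (τ + t • v)) (v • Z') 0 :=
  (h.hasFDerivAt.restrictScalars ℝ).hasLineDerivAt v

theorem field {Z Z' : ℂ → E} {Z'' : E} {τ : ℂ} (h : HasDerivAt Z (Z' τ) τ)
    (h' : HasDerivAt Z' Z'' τ) (a : ℝ) {δ : ℝ} (hδ : 0 < δ) (v : ℂ) :
    HasLineDerivAt ℝ (fun σ => kk a δ (‖Z σ‖ ^ 2) * (v * inner ℂ (Z σ) (Z' σ)).re)
      (kd a δ (‖Z τ‖ ^ 2) * (2 * (v * inner ℂ (Z τ) (Z' τ)).re ^ 2) + kk a δ (‖Z τ‖ ^ 2) *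
        ((v ^ 2 * inner ℂ (Z τ) Z'').re + ‖v‖ ^ 2 * ‖Z' τ‖ ^ 2)) τ v := by
  have e0 : τ + (0 : ℝ) • v = τ := by simp
  have h1 : HasDerivAt (fun t : ℝ => ‖Z (τ + t • v)‖ ^ 2) (2 * (v * inner ℂ (Z τ) (Z' τ)).re) 0 := by
    have := Complex.reCLM.hasFDerivAt.comp_hasDerivAt (0 : ℝ) ((line h v).inner ℂ (line h v))
    rw [e0] at this
    refine (this.congr_of_eventuallyEq (.of_forall fun t =>
      (inner_self_eq_norm_sq (𝕜 := ℂ) _).symm)).congr_deriv ?_
    rw [← inner_conj_symm (v • Z' τ), inner_smul_right, Complex.add_conj]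
    simp
  have h2 := Complex.reCLM.hasFDerivAt.comp_hasDerivAt (0 : ℝ)
    (((line h v).inner ℂ (line h' v)).const_mul v)
  have h3 := (kk_deriv (a := a) (δ := δ) (s := ‖Z (τ + (0 : ℝ) • v)‖ ^ 2) (by positivity)).comp
    (0 : ℝ) h1
  have h4 := h3.mul h2
  refine HasDerivAt.congr_deriv h4 ?_
  simp only [Function.comp_def, e0]
  rw [inner_smul_right, inner_smul_left, inner_self_eq_norm_sq_to_K, mul_add, ← mul_assoc v,
    ← mul_assoc v, Complex.mul_conj', map_add, ← sq]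
  simp only [Complex.reCLM_apply, Complex.coe_algebraMap, ← Complex.ofReal_pow,
    ← Complex.ofReal_mul, Complex.ofReal_re]
  ring

theorem main [CompleteSpace E] {W K : Set ℂ} {Z : ℂ → E} {τ₁ : ℂ} {a : ℝ} (hW : IsOpen W)
    (hZ : DifferentiableOn ℂ Z W) (hτ : τ₁ ∈ W) (h0 : Z τ₁ = 0) (h1 : deriv Z τ₁ ≠ 0) (ha : 0 < a)
    (hK : IsCompact K) (hKW : K ⊆ W) (hKa : ∀ τ ∈ W, ‖Z τ‖ ^ 2 < a → τ ∈ K) :
    a / 128 ≤ ∫ τ in K, ‖deriv Z τ‖ ^ 2 := by
  have a0 := hZ.analyticOnNhd hW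
  have a1 := a0.deriv
  have a2 := a1.deriv
  have c0 := a0.continuousOn.mono hKW
  have c1 := a1.continuousOn.mono hKW
  have c2 := a2.continuousOn.mono hKW
  set A₀ := ‖deriv Z τ₁‖ ^ 2 with hA₀
  have hA : 0 < A₀ := by positivity
  -- the small disc
  obtain ⟨r, hr, hb⟩ : ∃ r > 0, ∀ τ ∈ ball τ₁ r, τ ∈ W ∧ ‖Z τ‖ ^ 2 < a / 2 ∧
      A₀ / 2 < ‖deriv Z τ‖ ^ 2 ∧ ‖dslope Z τ₁ τ‖ ^ 2 < 2 * A₀ := by
    refine Metric.eventually_nhds_iff_ball.1 ((hW.eventually_mem hτ).and (Eventually.and ?_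
      (Eventually.and ?_ ?_)))
    · exact ((a0 _ hτ).continuousAt.norm.pow 2).eventually_lt_const (by simp [h0, ha])
    · exact ((a1 _ hτ).continuousAt.norm.pow 2).eventually_const_lt (half_lt_self hA)
    · exact ((continuousAt_dslope_same.2 (a0 _ hτ).differentiableAt).norm.pow 2).eventually_lt_const
        (by rw [Pi.pow_apply, dslope_same]; linarith)
  set δ := 2 * A₀ * r ^ 2 with hδ
  have hδ0 : 0 < δ := by positivity
  have cφ : ContinuousOn (fun τ => ‖Z τ‖ ^ 2) K := c0.norm.pow 2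
  have cm : ContinuousOn (fun τ => max (a - ‖Z τ‖ ^ 2) 0) K :=
    (continuous_id.max continuous_const).comp_continuousOn (continuousOn_const.sub cφ)
  have ck : ContinuousOn (fun τ => kk a δ (‖Z τ‖ ^ 2)) K :=
    (cm.pow 2).div (cφ.add continuousOn_const) fun τ _ => by positivity
  have cd : ContinuousOn (fun τ => kd a δ (‖Z τ‖ ^ 2)) K :=
    (((continuousOn_const.mul cm).neg.mul (cφ.add continuousOn_const)).sub (cm.pow 2)).div
      ((cφ.add continuousOn_const).pow 2) fun τ _ => by positivity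
  have cP : ∀ v : ℂ, ContinuousOn (fun τ => (v * inner ℂ (Z τ) (deriv Z τ)).re) K := fun v =>
    Complex.continuous_re.comp_continuousOn (continuousOn_const.mul (c0.inner c1))
  set g : ℂ → ℂ → ℝ := fun v τ => kd a δ (‖Z τ‖ ^ 2) * (2 * (v * inner ℂ (Z τ) (deriv Z τ)).re ^ 2) +
    kk a δ (‖Z τ‖ ^ 2) * ((v ^ 2 * inner ℂ (Z τ) (deriv (deriv Z) τ)).re +
      ‖v‖ ^ 2 * ‖deriv Z τ‖ ^ 2) with hg
  have cg : ∀ v, ContinuousOn (g v) K := fun v =>
    (cd.mul (continuousOn_const.mul ((cP v).pow 2))).add (ck.mul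
      ((Complex.continuous_re.comp_continuousOn (continuousOn_const.mul (c0.inner c2))).add
        (continuousOn_const.mul (c1.norm.pow 2))))
  have ig : ∀ v, ∫ τ in K, g v τ = 0 := fun v => div0 hW hK hKW (ck.mul (cP v)) (cg v)
    (fun τ h => field (a0 τ h).differentiableAt.hasDerivAt (a1 τ h).differentiableAt.hasDerivAt
      a hδ0 v) fun τ h h' => by
      have : a - ‖Z τ‖ ^ 2 ≤ 0 := sub_nonpos.2 (not_lt.1 fun h'' => h' (hKa τ h h''))
      simp [kk, this]
  set h : ℂ → ℝ := fun τ =>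
    max (a - ‖Z τ‖ ^ 2) 0 ^ 2 * δ / (‖Z τ‖ ^ 2 + δ) ^ 2 * ‖deriv Z τ‖ ^ 2 with hh
  have ih : IntegrableOn h K := ((((cm.pow 2).mul continuousOn_const).div
    ((cφ.add continuousOn_const).pow 2) fun τ _ =>
      pow_ne_zero 2 (add_pos_of_nonneg_of_pos (sq_nonneg _) hδ0).ne').mul
      (c1.norm.pow 2)).integrableOn_compact hK
  have iA : IntegrableOn (fun τ => ‖deriv Z τ‖ ^ 2) K := (c1.norm.pow 2).integrableOn_compact hK
  have i1 : ∫ τ in K, (2 * h τ - 4 * a * ‖deriv Z τ‖ ^ 2) ≤ ∫ τ in K, (g 1 τ + g I τ) := by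
    refine integral_mono ((ih.const_mul 2).sub (iA.const_mul _))
      (((cg 1).add (cg I)).integrableOn_compact hK) fun τ => ?_
    have e1 := kk_ineq (p := ‖inner ℂ (Z τ) (deriv Z τ)‖ ^ 2) ha.le hδ0 (sq_nonneg ‖Z τ‖)
      (sq_nonneg ‖deriv Z τ‖) (by
        rw [← mul_pow]
        exact pow_le_pow_left₀ (norm_nonneg _) (norm_inner_le_norm _ _) 2)
    rw [Complex.sq_norm, Complex.normSq_apply] at e1
    simp only [hh, hg, one_mul, one_pow, norm_one, Complex.norm_I, Complex.I_sq, neg_mul,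
      Complex.neg_re, Complex.I_mul_re]
    linarith
  rw [integral_add ((cg 1).integrableOn_compact hK) ((cg I).integrableOn_compact hK), ig, ig,
    integral_sub (ih.const_mul 2) (iA.const_mul _), integral_const_mul, integral_const_mul] at i1
  have hsub : ball τ₁ r ⊆ K := fun τ hτ => hKa τ (hb τ hτ).1 (by linarith [(hb τ hτ).2.1])
  have i2 : ∫ τ in ball τ₁ r, h τ ≤ ∫ τ in K, h τ :=
    setIntegral_mono_set ih (.of_forall fun τ => by simp only [hh]; positivity) hsub.eventuallyLE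
  have i3 : a ^ 2 / (64 * r ^ 2) * volume.real (ball τ₁ r) ≤ ∫ τ in ball τ₁ r, h τ := by
    refine setIntegral_ge_of_const_le_real measurableSet_ball measure_ball_lt_top.ne
      (fun τ hτ => ?_) (ih.mono_set hsub)
    obtain ⟨-, b1, b2, b3⟩ := hb τ hτ
    have b4 : ‖Z τ‖ ^ 2 ≤ δ := by
      have := sub_smul_dslope Z τ₁ τ
      rw [h0, sub_zero] at this
      rw [← this, norm_smul, mul_pow, hδ, mul_comm]
      exact mul_le_mul b3.le (pow_le_pow_left₀ (norm_nonneg _)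
        (mem_ball_iff_norm.1 hτ).le 2) (sq_nonneg _) (by positivity)
    calc a ^ 2 / (64 * r ^ 2) = (a / 2) ^ 2 * δ / (δ + δ) ^ 2 * (A₀ / 2) := by
          rw [hδ]; field_simp; ring
      _ ≤ h τ := by
          simp only [hh]
          gcongr
          exact le_max_of_le_left (by linarith)
  have i4 : volume.real (ball τ₁ r) = r ^ 2 * Real.pi := by
    rw [Measure.real, Complex.volume_ball]
    simp [hr.le]
  have i5 : a ^ 2 / (64 * r ^ 2) * (r ^ 2 * Real.pi) = a * (a / 64 * Real.pi) := by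
    field_simp
  rw [i4, i5] at i3
  refine le_of_mul_le_mul_left ?_ (show 0 < 4 * a by positivity)
  nlinarith [Real.pi_gt_three, mul_pos ha ha]

end Lela

/-- **LEL** -/
theorem lel_row : LEL := by
  intro n
  refine ⟨1 / (128 * (n + 1)), by positivity, fun W Y τ₁ ρ hW hY hτ h1 hρ hK => ?_⟩
  set L := (EuclideanSpace.equiv (Fin n) ℂ).symm with hL
  have hd : ∀ τ ∈ W, deriv (fun σ => L (Y σ - Y τ₁)) τ = L (deriv Y τ) := fun τ h =>
    ((L : Cm n →L[ℂ] EuclideanSpace ℂ (Fin n)).hasFDerivAt.comp_hasDerivAt τ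
      ((hY.differentiableAt (hW.mem_nhds h)).hasDerivAt.sub_const (Y τ₁))).deriv
  have n1 : ∀ w : Cm n, ‖w‖ ≤ ‖L w‖ := fun w =>
    (pi_norm_le_iff_of_nonneg (norm_nonneg _)).2 fun i => PiLp.norm_apply_le (L w) i
  have n2 : ∀ w : Cm n, ‖L w‖ ^ 2 ≤ (n + 1) * ‖w‖ ^ 2 := fun w => by
    rw [EuclideanSpace.norm_sq_eq]
    refine (Finset.sum_le_card_nsmul _ _ (‖w‖ ^ 2) fun i _ =>
      pow_le_pow_left₀ (norm_nonneg _) (norm_le_pi_norm w i) 2).trans ?_
    simp only [Finset.card_univ, Fintype.card_fin, nsmul_eq_mul]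
    nlinarith [sq_nonneg ‖w‖]
  have h := Lela.main (Z := fun σ => L (Y σ - Y τ₁)) (a := ρ ^ 2) hW
    (L.differentiable.comp_differentiableOn (hY.sub_const _)) hτ (by simp)
    (by rw [hd _ hτ]; simpa using h1) (by positivity) hK (fun _ h => h.1) fun τ h h' =>
      ⟨h, (n1 _).trans (abs_le_of_sq_le_sq' h'.le hρ.le).2⟩
  have c1 := ((hY.analyticOnNhd hW).deriv.continuousOn.mono
    fun τ (h : τ ∈ {τ ∈ W | ‖Y τ - Y τ₁‖ ≤ ρ}) => h.1)
  have h2 : ∫ τ in {τ ∈ W | ‖Y τ - Y τ₁‖ ≤ ρ}, ‖deriv (fun σ => L (Y σ - Y τ₁)) τ‖ ^ 2 ≤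
      ∫ τ in {τ ∈ W | ‖Y τ - Y τ₁‖ ≤ ρ}, (n + 1) * ‖deriv Y τ‖ ^ 2 := by
    rw [setIntegral_congr_fun hK.measurableSet (g := fun τ => ‖L (deriv Y τ)‖ ^ 2)
      fun τ h => by simp only [hd τ h.1]]
    exact integral_mono (((L.continuous.comp_continuousOn c1).norm.pow 2).integrableOn_compact hK)
      (((c1.norm.pow 2).integrableOn_compact hK).const_mul _) fun τ => n2 _
  rw [integral_const_mul] at h2
  refine le_of_mul_le_mul_left ?_ (show (0 : ℝ) < n + 1 by positivity)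
  refine le_trans (le_of_eq ?_) (h.trans h2)
  field_simp

end Vale.Agent.P253W.V
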