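import Vale.Agent.P272.K.C2.PosLin

/-!
# P253W, block V: linear algebra for the pointwise consequences of the matrix Harnack inequality
-/

open scoped ComplexConjugate ComplexOrder Matrix
open Vale.Agent.P272.K.C2

noncomputable section

namespace Vale.Agent.P253W.V

namespace Lfc

variable {ι : Type} [Fintype ι]

/-- the discriminant -/
theorem disc {A B : ℝ} {τ : ℂ} (hA : 0 ≤ A) (hB : 0 ≤ B)
    (h : ∀ c : ℂ, 0 ≤ ((A : ℂ) + conj c * τ + c * conj τ + c * conj c * B).re) :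
    ‖τ‖ ^ 2 ≤ A * B := by
  have h1 : ∀ s : ℝ, 0 ≤ (‖τ‖ ^ 2 * B) * (s * s) + (2 * ‖τ‖ ^ 2) * s + A := fun s => by
    have h2 := h (s * τ)
    have h3 : τ * conj τ = ((‖τ‖ ^ 2 : ℝ) : ℂ) := by
      rw [Complex.mul_conj, Complex.normSq_eq_norm_sq]
    have h4 : (A : ℂ) + conj (s * τ) * τ + s * τ * conj τ + s * τ * conj (s * τ) * B =
        (((‖τ‖ ^ 2 * B) * (s * s) + (2 * ‖τ‖ ^ 2) * s + A : ℝ) : ℂ) := by
      rw [map_mul, Complex.conj_ofReal]
      push_cast at h3 ⊢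
      linear_combination (2 * (s : ℂ) + s * s * B) * h3
    rwa [h4, Complex.ofReal_re] at h2
  have h2 := discrim_le_zero h1
  rw [discrim] at h2
  rcases (sq_nonneg ‖τ‖).eq_or_lt with h3 | h3
  · rw [← h3]; exact mul_nonneg hA hB
  · have h4 : ‖τ‖ ^ 2 * ‖τ‖ ^ 2 ≤ ‖τ‖ ^ 2 * (A * B) := by nlinarith
    exact le_of_mul_le_mul_left h4 h3

/-- optimising a parameter -/
theorem opt {p q S r : ℝ} (hp : 0 ≤ p) (hq : 0 ≤ q)
    (h : ∀ μ : ℝ, 0 < μ → S ≤ μ * p ^ 2 + q ^ 2 / μ + r) : S ≤ 2 * p * q + r := by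
  refine le_of_forall_pos_le_add fun η hη => ?_
  set ε := η / (p + q + 1) with hε
  have hε0 : 0 < ε := by positivity
  have h1 := h ((q + ε) / (p + ε)) (by positivity)
  have h2 : (q + ε) / (p + ε) * p ^ 2 ≤ (q + ε) * p := by
    rw [div_mul_eq_mul_div, div_le_iff₀ (by positivity)]
    have : 0 ≤ (q + ε) * p * ε := by positivity
    nlinarith
  have h3 : q ^ 2 / ((q + ε) / (p + ε)) ≤ q * (p + ε) := by
    rw [div_div_eq_mul_div, div_le_iff₀ (by positivity)]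
    have : 0 ≤ q * (p + ε) * ε := by positivity
    nlinarith
  have h4 : ε * (p + q + 1) = η := by rw [hε]; field_simp
  nlinarith

/-- the sesquilinear form of a matrix -/
def sf (A : Matrix ι ι ℂ) (v w : ι → ℂ) : ℂ := star v ⬝ᵥ (A *ᵥ w)

theorem sf_add (A B : Matrix ι ι ℂ) (v w : ι → ℂ) : sf (A + B) v w = sf A v w + sf B v w := by
  simp only [sf, Matrix.add_mulVec, dotProduct_add]

theorem sf_sub (A B : Matrix ι ι ℂ) (v w : ι → ℂ) : sf (A - B) v w = sf A v w - sf B v w := by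
  simp only [sf, Matrix.sub_mulVec, dotProduct_sub]

theorem sf_smul (c : ℂ) (A : Matrix ι ι ℂ) (v w : ι → ℂ) : sf (c • A) v w = c * sf A v w := by
  simp only [sf, Matrix.smul_mulVec, dotProduct_smul, smul_eq_mul]

theorem sf_conj (A : Matrix ι ι ℂ) (v w : ι → ℂ) : sf Aᴴ v w = conj (sf A w v) := by
  simp only [sf, dotProduct, Matrix.mulVec, Finset.mul_sum, Pi.star_apply, Complex.star_def,
    map_sum, map_mul, Complex.conj_conj, Matrix.conjTranspose_apply]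
  rw [Finset.sum_comm]
  exact Finset.sum_congr rfl fun l _ => Finset.sum_congr rfl fun k _ => by ring

theorem sf_smul2 (A : Matrix ι ι ℂ) (c d : ℂ) (v w : ι → ℂ) :
    sf A (c • v) (d • w) = conj c * d * sf A v w := by
  simp only [sf, star_smul, Matrix.mulVec_smul, dotProduct_smul, smul_dotProduct, smul_eq_mul,
    Complex.star_def]
  ring

theorem sf_exp (A : Matrix ι ι ℂ) (c : ℂ) (v w : ι → ℂ) : sf A (v + c • w) (v + c • w) =
    sf A v v + c * sf A v w + conj c * sf A w v + c * conj c * sf A w w := by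
  simp only [sf, star_add, star_smul, Matrix.mulVec_add, Matrix.mulVec_smul, dotProduct_add,
    add_dotProduct, dotProduct_smul, smul_dotProduct, smul_eq_mul, Complex.star_def]
  ring

theorem sf_mul (A B C : Matrix ι ι ℂ) (v w : ι → ℂ) :
    sf A (B *ᵥ v) (C *ᵥ w) = sf (Bᴴ * A * C) v w := by
  simp only [sf, Matrix.star_mulVec, Matrix.mulVec_mulVec, Matrix.dotProduct_mulVec,
    Matrix.vecMul_vecMul, Matrix.mul_assoc]

theorem sf_sum {κ : Type} (s : Finset κ) (A : κ → Matrix ι ι ℂ) (v w : ι → ℂ) :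
    sf (∑ i ∈ s, A i) v w = ∑ i ∈ s, sf (A i) v w := by
  simp only [sf, Matrix.sum_mulVec, dotProduct_sum]

theorem sf_eq (A : Matrix ι ι ℂ) (v w : ι → ℂ) :
    sf A v w = ∑ l, ∑ k, w k * conj (v l) * A l k := by
  simp only [sf, dotProduct, Matrix.mulVec, Finset.mul_sum, Pi.star_apply, Complex.star_def]
  exact Finset.sum_congr rfl fun l _ => Finset.sum_congr rfl fun k _ => by ring

theorem re_eq {z : ℂ} (h : 0 ≤ z) : ((z.re : ℝ) : ℂ) = z ∧ 0 ≤ z.re := by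
  have := Complex.le_def.1 h
  exact ⟨Complex.ext rfl (by simpa using this.2), by simpa using this.1⟩

theorem sf_re {A : Matrix ι ι ℂ} (h : A.PosSemidef) (v : ι → ℂ) :
    (((sf A v v).re : ℝ) : ℂ) = sf A v v ∧ 0 ≤ (sf A v v).re :=
  re_eq (h.dotProduct_mulVec_nonneg v)

/-- Cauchy-Schwarz -/
theorem cs {A : Matrix ι ι ℂ} (h : A.PosSemidef) (v w : ι → ℂ) :
    ‖sf A w v‖ ^ 2 ≤ (sf A v v).re * (sf A w w).re := by
  refine disc (sf_re h v).2 (sf_re h w).2 fun c => ?_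
  have h1 := (sf_re h (v + c • w)).2
  rw [sf_exp] at h1
  rw [(sf_re h v).1, (sf_re h w).1, ← sf_conj, h.1.eq]
  convert h1 using 2
  ring

variable {K T Q : Matrix ι ι ℂ}

theorem pol (hK : K.PosSemidef) (hQ : Q.PosSemidef)
    (h : ∀ c : ℂ, (K + conj c • T + c • Tᴴ + (c * conj c) • Q).PosSemidef) (a b : ι → ℂ) :
    ‖sf T a b‖ ^ 2 ≤ ((sf K a a).re + (sf K b b).re) * ((sf Q a a).re + (sf Q b b).re) := by
  refine disc (add_nonneg (sf_re hK a).2 (sf_re hK b).2) (add_nonneg (sf_re hQ a).2 (sf_re hQ b).2)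
    fun d => ?_
  have h1 := fun c : ℂ => (h (d * c)).dotProduct_mulVec_nonneg (a + c • b)
  have h2 := add_nonneg (add_nonneg (h1 1) (h1 (-1))) (add_nonneg (h1 Complex.I) (h1 (-Complex.I)))
  have h3 := (re_eq h2).2
  change 0 ≤ (sf _ _ _ + sf _ _ _ + (sf _ _ _ + sf _ _ _)).re at h3
  simp only [sf_exp, sf_add, sf_smul, sf_conj, map_mul, map_one, map_neg, Complex.conj_I] at h3
  push_cast
  rw [(sf_re hK a).1, (sf_re hK b).1, (sf_re hQ a).1, (sf_re hQ b).1]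
  have h4 : ∀ x y : ℂ, y = 4 * x → 0 ≤ y.re → 0 ≤ x.re := fun x y hxy hy => by
    rw [hxy] at hy
    simpa using hy
  refine h4 _ _ ?_ h3
  ring_nf
  simp only [Complex.I_sq, Complex.I_pow_four]
  ring

theorem mix (hK : K.PosSemidef) (hQ : Q.PosSemidef)
    (h : ∀ c : ℂ, (K + conj c • T + c • Tᴴ + (c * conj c) • Q).PosSemidef) (a b : ι → ℂ) :
    ‖sf T a b‖ ≤ 2 * (√(sf K a a).re * √(sf Q b b).re + √(sf K b b).re * √(sf Q a a).re) := by
  obtain ⟨xa, hxa, ea⟩ : ∃ x, 0 ≤ x ∧ (sf K a a).re = x ^ 2 :=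
    ⟨_, Real.sqrt_nonneg _, (Real.sq_sqrt (sf_re hK a).2).symm⟩
  obtain ⟨xb, hxb, eb⟩ : ∃ x, 0 ≤ x ∧ (sf K b b).re = x ^ 2 :=
    ⟨_, Real.sqrt_nonneg _, (Real.sq_sqrt (sf_re hK b).2).symm⟩
  obtain ⟨ya, hya, fa⟩ : ∃ x, 0 ≤ x ∧ (sf Q a a).re = x ^ 2 :=
    ⟨_, Real.sqrt_nonneg _, (Real.sq_sqrt (sf_re hQ a).2).symm⟩
  obtain ⟨yb, hyb, fb⟩ : ∃ x, 0 ≤ x ∧ (sf Q b b).re = x ^ 2 :=
    ⟨_, Real.sqrt_nonneg _, (Real.sq_sqrt (sf_re hQ b).2).symm⟩
  have h1 : ‖sf T a b‖ ^ 2 ≤ 2 * (xa * ya) * (xb * yb) + ((xa * yb) ^ 2 + (xb * ya) ^ 2) := by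
    refine opt (by positivity) (by positivity) fun μ hμ => ?_
    obtain ⟨l, hl, rfl⟩ : ∃ l : ℝ, 0 < l ∧ μ = l ^ 4 := by
      refine ⟨√(√μ), by positivity, ?_⟩
      rw [show (4 : ℕ) = 2 * 2 from rfl, pow_mul, Real.sq_sqrt (Real.sqrt_nonneg _),
        Real.sq_sqrt hμ.le]
    have h2 := pol hK hQ h ((l : ℂ) • a) (((l⁻¹ : ℝ) : ℂ) • b)
    simp only [sf_smul2, Complex.conj_ofReal, ← Complex.ofReal_mul, Complex.re_ofReal_mul,
      mul_inv_cancel₀ hl.ne', Complex.ofReal_one, one_mul, ea, eb, fa, fb] at h2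
    refine h2.trans (le_of_eq ?_)
    field_simp
    ring
  rw [ea, eb, fa, fb, Real.sqrt_sq hxa, Real.sqrt_sq hxb, Real.sqrt_sq hya, Real.sqrt_sq hyb]
  have h2 : ‖sf T a b‖ ≤ xa * yb + xb * ya :=
    (pow_le_pow_iff_left₀ (norm_nonneg _) (by positivity) two_ne_zero).1
      (h1.trans (le_of_eq (by ring)))
  have h3 : 0 ≤ xa * yb + xb * ya := by positivity
  linarith

variable [DecidableEq ι]

theorem tr_re {G A : Matrix ι ι ℂ} (hG : G.PosDef) (hA : A.PosSemidef) :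
    ((((G⁻¹ * A).trace.re : ℝ)) : ℂ) = (G⁻¹ * A).trace ∧ 0 ≤ (G⁻¹ * A).trace.re :=
  re_eq (trace_mul_nonneg hG.inv.posSemidef hA)

theorem le_tr {G A : Matrix ι ι ℂ} (hG : G.PosDef) (hA : A.PosSemidef) :
    (((((G⁻¹ * A).trace.re : ℝ)) : ℂ) • G - A).PosSemidef := by
  rw [(tr_re hG hA).1]
  exact trace_smul_sub_posSemidef hG hA

theorem grad {G : Matrix ι ι ℂ} (hG : G.PosDef) (hK : K.PosSemidef) (hQ : Q.PosSemidef)
    (h : ∀ c : ℂ, (K + conj c • T + c • Tᴴ + (c * conj c) • Q).PosSemidef) :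
    ‖(G⁻¹ * T).trace‖ ^ 2 ≤ (G⁻¹ * K).trace.re * (G⁻¹ * Q).trace.re := by
  refine disc (tr_re hG hK).2 (tr_re hG hQ).2 fun c => ?_
  have h1 := (tr_re hG (h c)).2
  have h2 : (G⁻¹ * Tᴴ).trace = conj (G⁻¹ * T).trace := by
    rw [← Complex.star_def, ← Matrix.trace_conjTranspose, Matrix.conjTranspose_mul,
      hG.inv.1.eq, Matrix.trace_mul_comm]
  rw [(tr_re hG hK).1, (tr_re hG hQ).1]
  simpa only [Matrix.mul_add, Matrix.mul_smul, Matrix.trace_add, Matrix.trace_smul, smul_eq_mul,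
    h2] using h1

/-- a curvature type tensor is bounded by its trace -/
theorem bis {G : Matrix ι ι ℂ} (hG : G.PosDef) {R : ι → ι → Matrix ι ι ℂ}
    (hR : ∀ k l, (R k l)ᴴ = R l k)
    (h : ∀ X : ι → ℂ, (∑ l, ∑ k, (X k * conj (X l)) • R k l).PosSemidef) :
    (∑ l, ∑ k, G⁻¹ l k • R k l).PosSemidef ∧ ∀ X : ι → ℂ,
      ((((X ⬝ᵥ (G *ᵥ star X)).re : ℝ) : ℂ) • (∑ l, ∑ k, G⁻¹ l k • R k l) -
        ∑ l, ∑ k, (X k * conj (X l)) • R k l).PosSemidef := by
  have hN : ∀ a : ι → ℂ, ∃ N : Matrix ι ι ℂ, N.PosSemidef ∧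
      (∀ X, sf (∑ l, ∑ k, (X k * conj (X l)) • R k l) a a = sf N X X) ∧
      sf (∑ l, ∑ k, G⁻¹ l k • R k l) a a = (Gᵀ⁻¹ * N).trace := by
    intro a
    have e : ∀ X, sf (∑ l, ∑ k, (X k * conj (X l)) • R k l) a a =
        sf (Matrix.of fun l k => sf (R k l) a a) X X := fun X => by
      rw [sf_eq (Matrix.of _)]
      simp only [sf_sum, sf_smul, Matrix.of_apply]
    refine ⟨Matrix.of fun l k => sf (R k l) a a, ?_, e, ?_⟩
    · refine .of_dotProduct_mulVec_nonneg ?_ fun X => ?_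
      · ext l k
        simp only [Matrix.conjTranspose_apply, Matrix.of_apply, Complex.star_def]
        rw [← sf_conj, hR]
      · exact le_of_le_of_eq ((h X).dotProduct_mulVec_nonneg a) (e X)
    · rw [← Matrix.transpose_nonsing_inv, Matrix.trace, Finset.sum_comm]
      simp only [sf_sum, sf_smul, Matrix.diag_apply, Matrix.mul_apply, Matrix.transpose_apply,
        Matrix.of_apply]
  have hH : (∑ l, ∑ k, G⁻¹ l k • R k l).IsHermitian := by
    rw [Matrix.IsHermitian]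
    simp only [Matrix.conjTranspose_sum, Matrix.conjTranspose_smul, hR]
    rw [Finset.sum_comm]
    refine Finset.sum_congr rfl fun l _ => Finset.sum_congr rfl fun k _ => ?_
    rw [hG.inv.1.apply]
  refine ⟨.of_dotProduct_mulVec_nonneg hH fun a => ?_, fun X => ?_⟩
  · obtain ⟨N, h1, -, h3⟩ := hN a
    exact le_of_le_of_eq (trace_mul_nonneg hG.transpose.inv.posSemidef h1) h3.symm
  · refine .of_dotProduct_mulVec_nonneg (Matrix.IsHermitian.sub ?_ (h X).1) fun a => ?_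
    · rw [Matrix.IsHermitian, Matrix.conjTranspose_smul, hH.eq, Complex.star_def,
        Complex.conj_ofReal]
    · obtain ⟨N, h1, h2, h3⟩ := hN a
      have h4 := (trace_smul_sub_posSemidef hG.transpose h1).dotProduct_mulVec_nonneg X
      change 0 ≤ sf _ _ _ at h4 ⊢
      have h5 : X ⬝ᵥ (G *ᵥ star X) = sf Gᵀ X X := by
        rw [sf, Matrix.mulVec_transpose, dotProduct_comm (star X), Matrix.dotProduct_mulVec]
      rw [sf_sub, sf_smul] at h4 ⊢
      rw [h2, h3, h5, (sf_re hG.transpose.posSemidef X).1, mul_comm]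
      exact h4

end Lfc

end Vale.Agent.P253W.V
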