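import Vale.Agent.P253W.V.Defs
import Vale.Agent.P253W.V.LfcA
import Vale.Agent.P253W.FG.Calc
import Vale.Agent.P272.K.C2.ChernLu

/-!
# P253W, block V: pointwise consequences of the matrix Harnack inequality
-/

open scoped ContDiff Topology ComplexConjugate ComplexOrder Matrix
open Set Metric Filter
open Vale.Agent.P272.K (Cm dz dzb cHess)
open Vale.Agent.P272.K.C2
open Vale.Agent.P253W.FG

noncomputable section

namespace Vale.Agent.P253W.V

namespace Lfc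

variable {n : ℕ}

theorem rm_conj {G : Cm n → Mx n} {z : Cm n} (hG : MC 2 G z)
    (hpos : ∀ᶠ y in 𝓝 z, (G y).PosDef) (k l : Fin n) : (RM k l G z)ᴴ = RM l k G z := by
  have one : (1 : WithTop ℕ∞) ≠ 0 := by norm_num
  have hG1 : MC 1 G z := hG.mono (by norm_num)
  have hH : ∀ᶠ y in 𝓝 z, (G y).IsHermitian := hpos.mono fun y hy => hy.1
  have e1 : (fun y => (DMb l G y)ᴴ) =ᶠ[𝓝 z] DM l G := by
    filter_upwards [MC.eventually (q := 1) hG1, hH.eventually_nhds] with y h1 h2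
    rw [DMb_of_isHermitian (h1.md one) h2, Matrix.conjTranspose_conjTranspose]
  have e2 : (D2 k l G z)ᴴ = D2 l k G z := by
    rw [D2, ← DMb_conjTranspose ((hG.DMb (m' := 1) (by norm_num)).md one), DMb_congr e1, D2,
      DM_DMb_comm hG]
  rw [RM, RM, Matrix.conjTranspose_add, Matrix.conjTranspose_neg, e2, Matrix.conjTranspose_mul,
    Matrix.conjTranspose_mul, show (DMb l G z)ᴴ = DM l G z from e1.self_of_nhds,
    hpos.self_of_nhds.inv.1.eq, DMb_of_isHermitian (hG1.md one) hH, Matrix.mul_assoc]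

theorem ld_at {G : Cm n → Mx n} {z : Cm n} (hG : MC 2 G z) (hpos : (G z).PosDef) :
    ContDiffAt ℝ 2 (fun y => Real.log (G y).det.re) z :=
  (Complex.reCLM.contDiff.contDiffAt.comp z hG.det).log (det_re_pos hpos).ne'

theorem tr_rm {G : Cm n → Mx n} {z : Cm n} (hG : MC 2 G z)
    (hpos : ∀ᶠ y in 𝓝 z, (G y).PosDef) (k l : Fin n) :
    ((G z)⁻¹ * RM k l G z).trace = rho G z k l := by
  rw [rho, cHess_neg (ld_at hG hpos.self_of_nhds), Matrix.neg_apply, cHess_log_det hG hpos, RM,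
    Matrix.mul_add, Matrix.mul_neg, Matrix.trace_add, Matrix.trace_neg]
  simp only [Matrix.mul_assoc]
  ring

theorem tr_K {G : Cm n → Mx n} {z : Cm n} (hG : MC 2 G z)
    (hpos : ∀ᶠ y in 𝓝 z, (G y).PosDef) (X : Cm n) :
    ((G z)⁻¹ * Kxx G z X).trace.re = qf (rho G z) X := by
  simp only [Kxx, Matrix.mul_smul, Matrix.trace_sum, Matrix.trace_smul,
    tr_rm hG hpos, qf, dotProduct, Matrix.mulVec, Finset.mul_sum, smul_eq_mul, Pi.star_apply,
    Complex.star_def]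
  rw [Finset.sum_comm]
  congr 1
  exact Finset.sum_congr rfl fun l _ => Finset.sum_congr rfl fun k _ => by ring

theorem quad {A : ℝ → Mx n} {A' : Mx n} {t : ℝ}
    (h : ∀ j k, HasDerivAt (fun s => A s j k) (A' j k) t) (ξ : Cm n) :
    HasDerivAt (fun s => (sf (A s) ξ ξ).re) (sf A' ξ ξ).re t := by
  simp only [sf_eq]
  exact Complex.reCLM.hasFDerivAt.comp_hasDerivAt t (HasDerivAt.fun_sum fun l _ =>
    HasDerivAt.fun_sum fun k _ => (h l k).const_mul _)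

variable {U : Set (Cm n)} {W : ℝ → Cm n → Mx n} (h : LF U W) {t : ℝ} {z : Cm n}
include h

theorem mc (ht : 0 < t) (hz : z ∈ U) : MC ∞ (W t) z := fun j k =>
  Calc.slice h.op (h.sm j k) ht hz

theorem mc2 (ht : 0 < t) (hz : z ∈ U) : MC 2 (W t) z := (mc h ht hz).mono Calc.two_le

theorem pos (ht : 0 < t) (hz : z ∈ U) : ∀ᶠ y in 𝓝 z, (W t y).PosDef := by
  filter_upwards [h.op.mem_nhds hz] with y hy using h.pos t ht y hy

theorem rho_sm (j k : Fin n) :
    ContDiffOn ℝ ∞ (fun q : ℝ × Cm n => rho (W q.1) q.2 j k) (Ioi 0 ×ˢ U) := by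
  have h1 : ContDiffOn ℝ ∞ (fun q : ℝ × Cm n => (W q.1 q.2).det) (Ioi 0 ×ˢ U) := by
    simp only [Matrix.det_apply']
    exact ContDiffOn.sum fun σ _ => contDiffOn_const.mul (contDiffOn_prod fun i _ => h.sm _ _)
  have h2 : ContDiffOn ℝ ∞ (fun q : ℝ × Cm n => -Real.log (W q.1 q.2).det.re) (Ioi 0 ×ˢ U) :=
    ((Complex.reCLM.contDiff.comp_contDiffOn h1).log fun q hq =>
      (det_re_pos (h.pos _ hq.1 _ hq.2)).ne').neg
  exact Calc.hess (uniqueDiffOn_Ioi 0) h.op h2 j k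

theorem kxx (ht : 0 < t) (hz : z ∈ U) (X : Cm n) : (Kxx (W t) z X).PosSemidef := by
  simpa using h.mh t ht z hz X 0

theorem ktt (ht : 0 < t) (hz : z ∈ U) : (Ktt W t z).PosSemidef := by
  simpa [Kxx, Kxt, DX] using h.mh t ht z hz 0 1

theorem rho_eq (ht : 0 < t) (hz : z ∈ U) :
    ∑ l, ∑ k, (W t z)⁻¹ l k • RM k l (W t) z = rho (W t) z := by
  rw [ricci_identity (mc2 h ht hz) (pos h ht hz), rho,
    cHess_neg (ld_at (mc2 h ht hz) (h.pos t ht z hz))]
  filter_upwards [h.op.mem_nhds hz] with y hy i j k using h.cl t ht y hy i j k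

theorem bis' (ht : 0 < t) (hz : z ∈ U) : (rho (W t) z).PosSemidef ∧ ∀ X,
    ((qf (W t z) X : ℂ) • rho (W t) z - Kxx (W t) z X).PosSemidef := by
  have h1 := bis (h.pos t ht z hz) (R := fun k l => RM k l (W t) z)
    (rm_conj (mc2 h ht hz) (pos h ht hz)) (kxx h ht hz)
  rw [rho_eq h ht hz] at h1
  exact h1

theorem rho_t (ht : 0 < t) (hz : z ∈ U) (j k : Fin n) : HasDerivAt (fun s => rho (W s) z j k)
    ((Matrix.of fun j k => deriv (fun s => rho (W s) z j k) t) j k) t :=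
  (Calc.hasDT ((Calc.at_of isOpen_Ioi h.op (rho_sm h j k) (q := (t, z))
    ⟨ht, hz⟩).differentiableAt (by simp))).differentiableAt.hasDerivAt

theorem inv_t (ht : 0 < t) (hz : z ∈ U) (j k : Fin n) : HasDerivAt (fun s => (W s z)⁻¹ j k)
    (((W t z)⁻¹ * rho (W t) z * (W t z)⁻¹) j k) t := by
  have h1 := Calc.inv (g := fun s => W s z) (g' := -rho (W t) z) (h.eq t ht z hz)
    (h.pos t ht z hz).det_pos.ne' j k
  simpa only [Matrix.mul_neg, Matrix.neg_mul, neg_neg] using h1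

theorem tR_t (ht : 0 < t) (hz : z ∈ U) :
    HasDerivAt (fun s => tR W s z) (trg (W t z) (Ktt W t z) / t) t := by
  have h1 := (hasDerivAt_id t).mul (Calc.tr (g := fun s => W s z) (g' := -rho (W t) z)
    (h.eq t ht z hz) (rho_t h ht hz) (h.pos t ht z hz))
  refine HasDerivAt.congr_deriv h1 ?_
  simp only [trg, tg, Ktt, Matrix.mul_add, Matrix.mul_smul, Matrix.trace_add, Matrix.trace_smul,
    smul_eq_mul, Complex.add_re, Complex.re_ofReal_mul, Matrix.mul_neg, Matrix.neg_mul,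
    Matrix.trace_neg, Complex.neg_re, Matrix.mul_assoc, id]
  field_simp
  ring

theorem grad' (ht : 0 < t) (hz : z ∈ U) (X : Cm n) :
    ‖∑ k, X k * dz k (fun y => (tR W t y : ℂ)) z‖ ^ 2 ≤
      qf (rho (W t) z) X * trg (W t z) (Ktt W t z) := by
  have h1 := grad (h.pos t ht z hz) (kxx h ht hz X) (ktt h ht hz) (h.mh t ht z hz X)
  rw [tr_K (mc2 h ht hz) (pos h ht hz)] at h1
  have one : (1 : WithTop ℕ∞) ≤ ∞ := by exact_mod_cast le_top
  have hW : MC 1 (W t) z := (mc h ht hz).mono one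
  have hρ : MC 1 (rho (W t)) z := fun j k => (Calc.slice h.op (rho_sm h j k) ht hz).of_le one
  have h0 := (h.pos t ht z hz).det_pos.ne'
  have e : (fun y => (tR W t y : ℂ)) =ᶠ[𝓝 z] fun y => t * ((W t y)⁻¹ * rho (W t) y).trace := by
    filter_upwards [h.op.mem_nhds hz] with y hy
    rw [tR, Complex.ofReal_mul, trg, (tr_re (h.pos t ht y hy) (bis' h ht hy).1).1]
  have e2 : ∀ k, dz k (fun y => (tR W t y : ℂ)) z =
      t * ((W t z)⁻¹ * BM k (W t) (rho (W t)) z).trace := fun k => by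
    rw [dz_congr k e, dz_const_mul k _ (((hW.inv h0).mul hρ).trace.differentiableAt (by simp)),
      dz_trace_inv_mul hW hρ h0, Matrix.trace_mul_comm]
  refine le_of_eq_of_le ?_ h1
  congr 2
  simp only [e2, Kxt, DX, BM, Matrix.mul_smul, Matrix.trace_smul, Matrix.mul_sub, Matrix.trace_sub,
    Matrix.sum_mul, Matrix.smul_mul, Matrix.trace_sum, smul_eq_mul,
    ← Finset.sum_sub_distrib, Finset.mul_sum]
  exact Finset.sum_congr rfl fun k _ => by ring

theorem lam_eq (ht : 0 < t) (hz : z ∈ U) (A : Mx n) (ξ : Cm n) :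
    star ((W t z)⁻¹ *ᵥ ξ) ⬝ᵥ (A *ᵥ ((W t z)⁻¹ *ᵥ ξ)) = sf ((W t z)⁻¹ * A * (W t z)⁻¹) ξ ξ := by
  have h1 := sf_mul A (W t z)⁻¹ (W t z)⁻¹ ξ ξ
  rwa [(h.pos t ht z hz).inv.1.eq] at h1

theorem hq_t (ht : 0 < t) (hz : z ∈ U) (ξ : Cm n) : HasDerivAt (fun s => hq (W s z) ξ)
    (sf ((W t z)⁻¹ * rho (W t) z * (W t z)⁻¹) ξ ξ).re t := quad (inv_t h ht hz) ξ

theorem lam_t (ht : 0 < t) (hz : z ∈ U) (ξ : Cm n) (hξ : ξ ≠ 0) : ∃ d : ℝ,
    HasDerivAt (fun s => lam W z ξ s / hq (W s z) ξ) d t ∧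
    (star ((W t z)⁻¹ *ᵥ ξ) ⬝ᵥ (Ktt W t z *ᵥ ((W t z)⁻¹ *ᵥ ξ))).re / hq (W t z) ξ ≤ t * d := by
  have hp := h.pos t ht z hz
  have hH : 0 < hq (W t z) ξ := by
    have := Complex.lt_def.1 (hp.inv.dotProduct_mulVec_pos hξ)
    simpa [hq] using this.1
  have h1 := (hasDerivAt_id t).mul
    (quad (Calc.mul (Calc.mul (inv_t h ht hz) (rho_t h ht hz)) (inv_t h ht hz)) ξ)
  have e : (fun s => lam W z ξ s) =ᶠ[𝓝 t]
      fun s => s * (sf ((W s z)⁻¹ * rho (W s) z * (W s z)⁻¹) ξ ξ).re := by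
    filter_upwards [Ioi_mem_nhds ht] with s hs
    rw [lam, lam_eq h hs hz]
  refine ⟨_, (h1.congr_of_eventuallyEq e).div (hq_t h ht hz ξ) hH.ne', ?_⟩
  have h2 := cs hp.inv.posSemidef ξ ((rho (W t) z * (W t z)⁻¹) *ᵥ ξ)
  have h3 := sf_mul (W t z)⁻¹ (rho (W t) z * (W t z)⁻¹) 1 ξ ξ
  rw [Matrix.one_mulVec] at h3
  rw [h3, sf_mul] at h2
  simp only [Matrix.conjTranspose_mul, hp.inv.1.eq, (bis' h ht hz).1.1.eq, Matrix.mul_one,
    Matrix.mul_assoc] at h2
  have h4 := (sq_le_sq' (neg_le_of_abs_le (Complex.abs_re_le_norm _))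
    (le_of_abs_le (Complex.abs_re_le_norm _))).trans h2
  rw [lam_eq h ht hz, lam, lam_eq h ht hz]
  change _ ≤ hq (W t z) ξ * _ at h4
  simp only [Ktt, Matrix.mul_add, Matrix.add_mul, Matrix.mul_smul, Matrix.smul_mul, sf_add,
    sf_smul, Complex.add_re, Complex.re_ofReal_mul, Matrix.mul_assoc, id]
  rw [div_le_iff₀ hH, ← sub_nonneg]
  have h5 := mul_nonneg (sq_nonneg t) (div_nonneg (sub_nonneg.2 h4) hH.le)
  refine le_of_le_of_eq h5 ?_
  field_simp
  ring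

theorem conn_t (ht : 0 < t) (hz : z ∈ U) (X : Cm n) (j k : Fin n) :
    HasDerivAt (fun s => (DX X (W s) z * (W s z)⁻¹) j k)
      (-((t : ℂ)⁻¹ • (Kxt W t z X * (W t z)⁻¹)) j k) t := by
  have h1 : ∀ i j k, HasDerivAt (fun s => DM i (W s) z j k) (-DM i (rho (W t)) z j k) t := by
    intro i j k
    have h2 := Calc.hasDT ((Calc.at_of isOpen_Ioi h.op
      (Calc.d (uniqueDiffOn_Ioi 0) h.op (h.sm j k) i).1 (q := (t, z)) ⟨ht, hz⟩).differentiableAt
      (by simp))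
    refine HasDerivAt.congr_deriv h2 ?_
    simp only [dz_eq_DD]
    rw [Calc.DT_dd isOpen_Ioi h.op (h.sm j k) (q := (t, z)) ⟨ht, hz⟩, DM_apply, dz_eq_DD,
      ← DD_neg]
    refine DD_congr _ _ _ _ ?_
    filter_upwards [h.op.mem_nhds hz] with y hy
    exact (Calc.hasDT ((Calc.at_of isOpen_Ioi h.op (h.sm j k) (q := (t, y))
      ⟨ht, hy⟩).differentiableAt (by simp))).unique (h.eq t ht y hy j k)
  have h2 : ∀ j k, HasDerivAt (fun s => DX X (W s) z j k) ((-DX X (rho (W t)) z) j k) t := by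
    intro j k
    simp only [DX, Matrix.neg_apply, Matrix.sum_apply, Matrix.smul_apply, smul_eq_mul,
      ← Finset.sum_neg_distrib, ← mul_neg]
    exact HasDerivAt.fun_sum fun i _ => (h1 i j k).const_mul _
  refine HasDerivAt.congr_deriv (Calc.mul h2 (inv_t h ht hz) j k) ?_
  have ht' : (t : ℂ) ≠ 0 := by exact_mod_cast ht.ne'
  rw [Kxt, Matrix.smul_mul, smul_smul, inv_mul_cancel₀ ht', one_smul]
  refine congrArg (fun A : Mx n => A j k) (a₂ := -(_ * _)) ?_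
  noncomm_ring

end Lfc

open Lfc

theorem lfc_row : LFC := fun _ _ _ h =>
  { rho_sm := rho_sm h
    bk := fun _ ht _ hz X => ⟨kxx h ht hz X, (bis' h ht hz).2 X⟩
    ric := fun t ht z hz => ⟨(bis' h ht hz).1, le_tr (h.pos t ht z hz) (bis' h ht hz).1⟩
    ktt := fun t ht z hz => ⟨ktt h ht hz, le_tr (h.pos t ht z hz) (ktt h ht hz)⟩
    tR_t := fun _ ht _ hz => tR_t h ht hz
    grad := fun _ ht _ hz X => grad' h ht hz X
    mix := fun t ht z hz X a b => mix (kxx h ht hz X) (ktt h ht hz) (h.mh t ht z hz X) a b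
    hq_t := fun t ht z hz ξ => by
      rw [lam, lam_eq h ht hz, mul_div_cancel_left₀ _ ht.ne']
      exact hq_t h ht hz ξ
    lam_t := fun _ ht _ hz ξ hξ => lam_t h ht hz ξ hξ
    conn_t := fun _ ht _ hz X j k => conn_t h ht hz X j k }

end Vale.Agent.P253W.V
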