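import Vale.Agent.P253W.V.LipA
import Vale.Agent.P253W.V.G0

/-!
# P253W, block V, row LIP: moving the centre of a disc in time
-/

open scoped Manifold ContDiff Bundle ENNReal NNReal Topology ComplexConjugate ComplexOrder Matrix
open Bundle IsManifold MeasureTheory Set Metric Filter Vale.Agent.P253.Mfd Vale.Agent.P253Z
open Vale.Agent.P272.K (Cm dz dzb cHess jacM Chart)
open Real (circleAverage)

noncomputable section

namespace Vale.Agent.P253W.V

namespace Lip

/-- the retraction onto the closed disc -/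
def pr (w : ℂ) : ℂ := w / (max 1 ‖w‖ : ℝ)

theorem pr_cont : Continuous pr :=
  continuous_id.div (Complex.continuous_ofReal.comp (continuous_const.max continuous_norm))
    fun _ => Complex.ofReal_ne_zero.2 (one_pos.trans_le (le_max_left _ _)).ne'

theorem pr_mem (w : ℂ) : pr w ∈ closedBall (0 : ℂ) 1 := by
  have h : (0 : ℝ) < max 1 ‖w‖ := one_pos.trans_le (le_max_left _ _)
  rw [mem_closedBall_zero_iff, pr, norm_div, Complex.norm_real, Real.norm_of_nonneg h.le,
    div_le_one h]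
  exact le_max_right _ _

theorem pr_eq {w : ℂ} (h : w ∈ closedBall (0 : ℂ) 1) : pr w = w := by
  rw [pr, max_eq_left (mem_closedBall_zero_iff.1 h), Complex.ofReal_one, div_one]

theorem lg {A B η ε : ℝ} (hB : 0 < B) (h0 : 0 ≤ A) (h1 : A ≤ B) (hη : 0 < η) (h2 : η ≤ ε * B) :
    Real.log (A + η) ≤ Real.log B + ε := by
  rw [Real.log_le_iff_le_exp (by linarith), Real.exp_add, Real.exp_log hB]
  nlinarith [mul_le_mul_of_nonneg_left (Real.add_one_le_exp ε) hB.le]

variable {n : ℕ} {M : Type} [MetricSpace M] [ChartedSpace (Cm n) M] {S : ℝ}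

/-- change of the parameter -/
def comp (D : Disc n M S) {I h : ℂ → ℂ} (hI : Differentiable ℂ I) (hh : Differentiable ℂ h)
    (hm : MapsTo I (closedBall 0 1) (ball 0 1)) (ne : ∀ τ ∈ sphere (0 : ℂ) 1, D.ξ (I τ) ≠ 0)
    (le : ∀ τ ∈ closedBall (0 : ℂ) 1, Real.exp (2 * (D.ζ (I τ) + h τ).re) ≤ S) : Disc n M S where
  f τ := D.f (I τ)
  ξ τ := D.ξ (I τ)
  ζ τ := D.ζ (I τ) + h τ
  cf := D.cf.comp hI.continuous.continuousOn (hm.mono_right ball_subset_closedBall)
  hf := D.hf.comp hI.mdifferentiable.mdifferentiableOn (hm.mono_left ball_subset_closedBall)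
  cξ e he := (D.cξ e he).comp hI.continuous.continuousOn fun _ hτ =>
    ⟨ball_subset_closedBall (hm hτ.1), hτ.2⟩
  hξ e he := (D.hξ e he).comp hI.differentiableOn fun _ hτ =>
    ⟨hm (ball_subset_closedBall hτ.1), hτ.2⟩
  ne := ne
  hζ := DifferentiableOn.diffContOnCl ((D.hζ.differentiableOn.comp hI.differentiableOn
    (by rwa [closure_ball _ one_ne_zero])).add hh.differentiableOn)
  le := le

variable [IsManifold 𝓘(ℂ, Cm n) 1 M]
  [RiemannianBundle fun x : M => TangentSpace 𝓘(ℝ, Cm n) x] {F : Flow n M}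

theorem H_cont {X : Type} [TopologicalSpace X] (hI : F.Is) (b : F.Bas1) (D : Disc n M S)
    {t : X → ℝ} {w : X → ℂ} (ht : Continuous t) (hw : Continuous w) (h0 : ∀ x, 0 ≤ t x)
    (h1 : ∀ x, w x ∈ closedBall (0 : ℂ) 1) :
    Continuous fun x => F.H (t x) (D.f (w x)) (D.ξ (w x)) := by
  refine continuous_iff_continuousAt.2 fun x₀ => ?_
  set e := pc n (D.f (w x₀))
  have he : Hc e := chart_mem_maximalAtlas _
  have hf : Continuous fun x => D.f (w x) := D.cf.comp_continuous hw h1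
  have h2 : ContDiffOn ℝ 0 (fun q : (ℝ × Cm n) × Cm n => hq (F.g q.1.1 e q.1.2) q.2)
      ((Ici 0 ×ˢ e.target) ×ˢ univ) :=
    Alg.sm_hq (A := fun q : (ℝ × Cm n) × Cm n => F.g q.1.1 e q.1.2) (ξ := fun q => q.2)
      (fun i j => ((b.g_sm e he i j).of_le (by simp)).comp contDiffOn_fst fun q hq => hq.1)
      (fun q hq => (hI.pos _ hq.1.1 e he _ hq.1.2).det_pos.ne')
      fun i => (contDiff_apply ℝ ℂ i).comp_contDiffOn contDiffOn_snd
  have h3 : ContinuousOn (fun x => ((t x, e (D.f (w x))), cv e (D.f (w x)) (D.ξ (w x))))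
      ((fun x => D.f (w x)) ⁻¹' e.source) :=
    (ht.continuousOn.prodMk (e.continuousOn.comp hf.continuousOn fun x hx => hx)).prodMk
      ((D.cξ e he).comp hw.continuousOn fun x hx => ⟨h1 x, hx⟩)
  exact ((h2.continuousOn.comp h3 fun x hx => ⟨⟨h0 x, e.map_source hx⟩, mem_univ _⟩).congr
    fun x hx => b.H_eq _ (h0 x) e he _ hx _).continuousAt
      ((e.open_source.preimage hf).mem_nhds (mem_chart_source _ _))

/-- the zeros of a holomorphic covector field along a disc -/
theorem zeros (b : F.Bas1) {f : ℂ → M} {ξ : ℂ → Cm n} (cf : ContinuousOn f (ball 0 1))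
    (hξ : ∀ e : Chart n M, Hc e →
      DifferentiableOn ℂ (fun τ => cv e (f τ) (ξ τ)) (ball 0 1 ∩ f ⁻¹' e.source))
    (h0 : ξ 0 ≠ 0) : {τ | τ ∈ ball (0 : ℂ) 1 ∧ ξ τ = 0}.Countable := by
  have key : ∀ τ ∈ ball (0 : ℂ) 1, (∀ᶠ y in 𝓝[≠] τ, ξ y ≠ 0) ∨ ∀ᶠ y in 𝓝 τ, ξ y = 0 := by
    intro τ hτ
    set e := pc n (f τ)
    have he : Hc e := chart_mem_maximalAtlas _
    have hV := (cf.isOpen_inter_preimage isOpen_ball e.open_source).mem_nhds
      ⟨hτ, mem_chart_source _ _⟩
    rcases ((hξ e he).analyticAt hV).eventually_eq_zero_or_eventually_ne_zero with h | h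
    · refine Or.inr ?_
      filter_upwards [h, hV] with y h1 h2
      rw [← b.cv_self (f y) (ξ y), b.cv_ch _ e (chart_mem_maximalAtlas _) he _
        (mem_chart_source _ _) h2.2, h1, Matrix.zero_vecMul]
    · exact Or.inl (h.mono fun y h1 h2 => h1 (by rw [h2, cv, Matrix.zero_vecMul]))
  have h1 := (convex_ball (0 : ℂ) 1).isPreconnected.subset_left_of_subset_union
    isOpen_setOfPred_eventually_nhdsWithin isOpen_setOfPred_eventually_nhds
    (Set.disjoint_left.2 fun τ h1 h2 => by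
      obtain ⟨y, h3, h4⟩ := ((show ∀ᶠ y in 𝓝[≠] τ, ξ y ≠ 0 from h1).and
        ((show ∀ᶠ y in 𝓝 τ, ξ y = 0 from h2).filter_mono nhdsWithin_le_nhds)).exists
      exact h3 h4) key
    ⟨0, mem_ball_self one_pos, (key 0 (mem_ball_self one_pos)).resolve_right
      fun h => h0 h.self_of_nhds⟩
  obtain ⟨T, -, hT, h2⟩ := TopologicalSpace.countable_cover_nhdsWithin
    (s := {τ | τ ∈ ball (0 : ℂ) 1 ∧ ξ τ = 0}) (f := fun τ => {τ}) fun τ hτ =>
      mem_nhdsWithin_iff_eventually.2 ((eventually_nhdsWithin_iff.1 (h1 hτ.1)).mono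
        fun y h3 h4 => by_contra fun h5 => h3 h5 h4.2)
  exact hT.mono (by simpa using h2)

end Lip

open Lip in
theorem lip_row : LIP := by
  intro n M _ _ _ _ _ _ _ _ _ _ _ _ μ F c hI trig b1 b2 g0 S D t t' x ε hD h0 h1 h2 hε
  obtain ⟨rfl, ht⟩ := hD
  have t0 : 0 < t := ht ▸ Real.exp_pos _
  have S0 : 0 < S := by linarith
  have hζ : ContinuousOn D.ζ (closedBall 0 1) := by
    have := D.hζ.continuousOn
    rwa [closure_ball _ one_ne_zero] at this
  have hn : ∀ s, 0 ≤ s → ∀ x ξ, 0 ≤ F.H s x ξ := fun s hs x ξ => by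
    by_cases h : ξ = 0
    · simp [Flow.H, hq, h]
    · exact (b2.H_pos s hs x ξ h).le
  have hγ : ∀ D : Disc n M S, ContinuousOn (fun τ =>
      F.H (Real.exp (2 * (D.ζ τ).re)) (D.f τ) (D.ξ τ)) (sphere 0 1) := fun D => by
    have := D.hζ.continuousOn
    rw [closure_ball _ one_ne_zero] at this
    exact (G0a.H_cont hI b1 D (t := fun τ => Real.exp (2 * (D.ζ τ).re))
      (Real.continuous_exp.comp_continuousOn (continuousOn_const.mul
        (Complex.continuous_re.comp_continuousOn this))) fun _ => (Real.exp_pos _).le).mono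
      sphere_subset_closedBall
  have iγ : ∀ D : Disc n M S, CircleIntegrable (fun τ => Real.log
      (F.H (Real.exp (2 * (D.ζ τ).re)) (D.f τ) (D.ξ τ))) 0 1 := fun D => ((hγ D).log fun τ hτ =>
    (b2.H_pos _ (Real.exp_pos _).le _ _ (D.ne τ hτ)).ne').circleIntegrable zero_le_one
  obtain ⟨τ₁, hτ₁, hm⟩ := (isCompact_sphere (0 : ℂ) 1).exists_isMinOn
    (NormedSpace.sphere_nonempty.2 zero_le_one) (hγ D)
  set m := F.H (Real.exp (2 * (D.ζ τ₁).re)) (D.f τ₁) (D.ξ τ₁)
  have m0 : 0 < m := b2.H_pos _ (Real.exp_pos _).le _ _ (D.ne τ₁ hτ₁)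
  have H0 := b2.H_pos 0 le_rfl (D.f 0) _ h0
  set Δ := F.u S (D.f 0) - F.u 0 (D.f 0) with hΔ
  have Δ0 : 0 ≤ Δ := sub_nonneg.2 (hI.mono _ self_mem_Ici S0.le S0.le)
  obtain ⟨η, η0, η1, η2⟩ : ∃ η, 0 < η ∧ η ≤ ε / 5 * m ∧
      η ≤ ε / 5 * (Real.exp Δ * F.H 0 (D.f 0) (D.ξ 0)) :=
    ⟨min _ _, by positivity, min_le_left _ _, min_le_right _ _⟩
  have ha : Continuous fun w => (D.ζ (pr w)).re :=
    Complex.continuous_re.comp (hζ.comp_continuous pr_cont pr_mem)
  set J : ℝ → ℂ → ℝ := fun c w =>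
    Real.log (F.H (Real.exp (2 * ((D.ζ (pr w)).re + c))) (D.f (pr w)) (D.ξ (pr w)) + η) with hJ
  have Jc : Continuous (Function.uncurry J) :=
    ((H_cont hI b1 D (t := fun p : ℝ × ℂ => Real.exp (2 * ((D.ζ (pr p.2)).re + p.1)))
      (Real.continuous_exp.comp (continuous_const.mul ((ha.comp continuous_snd).add continuous_fst)))
      (pr_cont.comp continuous_snd) (fun _ => (Real.exp_pos _).le) fun p => pr_mem _).add
      continuous_const).log fun p =>
        (add_pos_of_nonneg_of_pos (hn _ (Real.exp_pos _).le _ _) η0).ne'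
  have p0 : pr 0 = 0 := pr_eq (mem_closedBall_self zero_le_one)
  have ex : ∀ s, 0 < s → Real.exp (2 * ((D.ζ 0).re + Real.log (s / t) / 2)) = s := fun s hs => by
    rw [mul_add, Real.exp_add, ht, mul_div_cancel₀ _ two_ne_zero, Real.exp_log (div_pos hs t0),
      mul_div_cancel₀ _ t0.ne']
  have l1 : 0 < Real.log (t' / t) := Real.log_pos ((one_lt_div t0).2 h1)
  have l2 : Real.log (t' / t) < Real.log (S / t) :=
    Real.log_lt_log (div_pos (t0.trans h1) t0) (div_lt_div_of_pos_right h2 t0)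
  obtain ⟨I, h, hI1, hh, hI2, hh0, hb, hav⟩ := core trig Jc ha (d := Real.log (S / t) / 2)
    (d' := Real.log (t' / t) / 2) (g := F.γ D + ε / 5) (ε := ε / 5) (by linarith) (by linarith) Δ0
    (by linarith) (fun w hw => by
      have := (D.le w hw).trans_eq (ex S S0).symm
      rw [Real.exp_le_exp] at this
      rw [pr_eq hw, p0]
      linarith) (by
      rw [← Real.circleAverage_const (ε / 5) 0 1, Flow.γ,
        ← Real.circleAverage_fun_add (iγ D) (circleIntegrable_const _ _ _)]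
      refine Real.circleAverage_mono (ci (Jc.comp (f := fun w : ℂ => ((0 : ℝ), w)) (by fun_prop)))
        ((iγ D).add (circleIntegrable_const _ _ _)) fun τ hτ => ?_
      rw [abs_one] at hτ
      simp only [hJ, pr_eq (sphere_subset_closedBall hτ), add_zero]
      exact lg (m0.trans_le (hm hτ)) (hn _ (Real.exp_pos _).le _ _) le_rfl η0
        (η1.trans (mul_le_mul_of_nonneg_left (hm hτ) (by linarith)))) fun c hc => by
      simp only [hJ, p0]
      have s1 : Real.exp (2 * ((D.ζ 0).re + c)) ≤ S :=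
        (Real.exp_le_exp.2 (by linarith)).trans_eq (ex S S0)
      have s2 := hI.mono (D.f 0) (Real.exp_pos _).le S0.le s1
      have s3 := lg (mul_pos (Real.exp_pos Δ) H0) (hn _ (Real.exp_pos _).le _ _)
        ((b2.H_le _ (Real.exp_pos (2 * ((D.ζ 0).re + c))).le _ _).trans
          (mul_le_mul_of_nonneg_right (Real.exp_le_exp.2 (sub_le_sub_right s2 _)) H0.le)) η0 η2
      rw [Real.log_mul (Real.exp_pos _).ne' H0.ne', Real.log_exp] at s3
      linarith [g0 S D h0]
  have I0 : I 0 = 0 := norm_le_zero_iff.1 (by simpa using hI2 0 (mem_closedBall_self zero_le_one))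
  have m1 : MapsTo I (ball 0 1) (ball 0 1) := fun τ hτ => mem_ball_zero_iff.2
    ((hI2 τ (ball_subset_closedBall hτ)).trans_lt (mem_ball_zero_iff.1 hτ))
  have m2 : MapsTo I (closedBall 0 1) (closedBall 0 1) := fun τ hτ => mem_closedBall_zero_iff.2
    ((hI2 τ hτ).trans (mem_closedBall_zero_iff.1 hτ))
  have hle : ∀ τ ∈ closedBall (0 : ℂ) 1, Real.exp (2 * (D.ζ (I τ) + h τ).re) ≤ S := fun τ hτ => by
    have e1 : ∀ w : ℂ, ‖Complex.exp (2 * w)‖ = Real.exp (2 * w.re) := fun w => by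
      rw [Complex.norm_exp]; simp
    have d1 : DiffContOnCl ℂ (fun τ => D.ζ (I τ) + h τ) (ball 0 1) :=
      (D.hζ.comp hI1.diffContOnCl m1).add hh.diffContOnCl
    rw [← e1]
    refine Complex.norm_le_of_forall_mem_frontier_norm_le isBounded_ball
      ((differentiable_id.const_mul (2 : ℂ)).cexp.comp_diffContOnCl d1) (fun z hz => ?_)
      (by rwa [closure_ball _ one_ne_zero])
    rw [frontier_ball _ one_ne_zero] at hz
    have := hb z hz
    rw [pr_eq (m2 (sphere_subset_closedBall hz)), p0] at this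
    refine (e1 _).trans_le ((Real.exp_le_exp.2 ?_).trans_eq (ex S S0))
    simp only [id, Complex.add_re]
    linarith
  have hZ := zeros b1 (f := fun τ => D.f (I τ)) (ξ := fun τ => D.ξ (I τ))
    (D.cf.comp hI1.continuous.continuousOn (m1.mono_right ball_subset_closedBall))
    (fun e he => (D.hξ e he).comp hI1.differentiableOn fun _ hτ => ⟨m1 hτ.1, hτ.2⟩)
    (by simpa only [I0] using h0)
  have Ac : Continuous (Function.uncurry fun (ρ : ℝ) (τ : ℂ) => J (h (ρ * τ)).re (I (ρ * τ))) :=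
    Jc.comp (f := fun p : ℝ × ℂ => ((h (p.1 * p.2)).re, I (p.1 * p.2)))
      (by have := hh.continuous; have := hI1.continuous; fun_prop)
  obtain ⟨ρ, ⟨r1, r2, r3⟩, r4⟩ := ((hZ.image norm).dense_compl ℝ).inter_open_nonempty _
    (((isOpen_lt (av_cont Ac) (continuous_const (y := circleAverage
      (fun τ => J (h τ).re (I τ)) 0 1 + ε / 5)))).inter (isOpen_Ioo (a := 0) (b := 1)))
    ((((av_cont Ac).continuousAt.eventually_lt (x₀ := 1) continuousAt_const
      (by simpa using hε)).filter_mono nhdsWithin_le_nhds).and (Ioo_mem_nhdsLT zero_lt_one)).exists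
  have m3 : ∀ τ ∈ closedBall (0 : ℂ) 1, (ρ : ℂ) * τ ∈ ball (0 : ℂ) 1 := fun τ hτ => by
    rw [mem_ball_zero_iff, norm_mul, Complex.norm_real, Real.norm_of_nonneg r2.le]
    exact (mul_le_of_le_one_right r2.le (mem_closedBall_zero_iff.1 hτ)).trans_lt r3
  have hρ : Differentiable ℂ fun τ : ℂ => (ρ : ℂ) * τ := differentiable_id.const_mul _
  set D' := comp D (hI1.comp hρ) (hh.comp hρ) (fun τ hτ => m1 (m3 τ hτ))
    (fun τ hτ h3 => r4 ⟨_, ⟨m3 τ (sphere_subset_closedBall hτ), h3⟩, by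
      rw [norm_mul, mem_sphere_zero_iff_norm.1 hτ, Complex.norm_real, Real.norm_of_nonneg r2.le,
        mul_one]⟩) fun τ hτ => hle _ (ball_subset_closedBall (m3 τ hτ))
  refine ⟨D', ⟨by simp [D', comp, I0], ?_⟩, by simp [D', comp, I0], ?_⟩
  · simp only [D', comp, Function.comp_apply, mul_zero, I0, Complex.add_re, hh0]
    exact ex t' (t0.trans h1)
  · have s1 : F.γ D' ≤ circleAverage (fun τ => J (h (ρ * τ)).re (I (ρ * τ))) 0 1 := by
      refine Real.circleAverage_mono (iγ D') (ci (Ac.comp (f := fun w : ℂ => (ρ, w))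
        (by fun_prop))) fun τ hτ => ?_
      rw [abs_one] at hτ
      simp only [hJ, pr_eq (m2 (ball_subset_closedBall (m3 τ (sphere_subset_closedBall hτ))))]
      exact Real.log_le_log (b2.H_pos _ (Real.exp_pos _).le _ _ (D'.ne τ hτ))
        (le_add_of_nonneg_right η0.le)
    rw [div_div_div_cancel_right₀ two_ne_zero] at hav
    linarith [mem_ofPred.1 r1]

end Vale.Agent.P253W.V
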