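import Vale.Agent.P253W.V.LvA
import Vale.Agent.P253W.V.Alg
import Vale.Agent.P253Z.BUS

/-!
# P253W, block V, row LV: the matrix form of the Harnack inequality
-/

open scoped Manifold ContDiff Topology ComplexConjugate ComplexOrder Matrix
open Set Metric Filter Vale.Agent.P253Z
open Vale.Agent.P272.K (Cm dz dzb cHess)
open Vale.Agent.P272.K.C2
open Vale.Agent.P253.R2.H451 (levi2)
open Vale.Agent.P253W.FG.Calc (DT hasDT DT_sm DT_dd at_of two_le)
open Complex (I)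

noncomputable section

namespace Vale.Agent.P253W.V

namespace Lv

variable {n : ℕ}

theorem levi2_log {E : Type*} [NormedAddCommGroup E] [NormedSpace ℂ E] {f : E → ℝ} {p k : E}
    (hf : ContDiffAt ℝ 2 f p) (h0 : 0 < f p) (h1 : fderiv ℝ f p k = 0)
    (h2 : fderiv ℝ f p (I • k) = 0) :
    levi2 (fun y => Real.log (f y)) p k = (f p)⁻¹ * levi2 f p k := by
  have e1 : fderiv ℝ (fun y => Real.log (f y)) =ᶠ[𝓝 p] fun y => (f y)⁻¹ • fderiv ℝ f y := by
    filter_upwards [hf.eventually (by simp), hf.continuousAt.eventually (lt_mem_nhds h0)]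
      with y hy hy0
    exact ((hy.differentiableAt (by simp)).hasFDerivAt.log hy0.ne').fderiv
  have d1 := ((hf.differentiableAt (by simp)).inv h0.ne').hasFDerivAt
  have d2 := ((hf.fderiv_right (m := 1) le_rfl).differentiableAt (by simp)).hasFDerivAt
  have e2 := e1.fderiv_eq.trans (d1.smul d2).fderiv
  simp only [levi2, e2, add_apply, smul_apply, ContinuousLinearMap.smulRight_apply, h1, h2,
    smul_eq_mul, mul_zero, add_zero, Pi.inv_apply]
  ring

theorem rm_herm {m : ℕ} {A : Cm m → Mx n} {z : Cm m} (hA : MC 2 A z)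
    (hH : ∀ᶠ y in 𝓝 z, (A y).IsHermitian) (k : Fin m) : (RM k k A z).IsHermitian := by
  have h1 : DMb k A =ᶠ[𝓝 z] fun y => (DM k A y)ᴴ := by
    filter_upwards [MC.eventually (q := 2) hA, hH.eventually_nhds] with y hy hy'
    exact DMb_of_isHermitian (hy.md (by simp)) hy'
  have h2 : (D2 k k A z).IsHermitian := by
    have h3 : D2 k k A z = (D2 k k A z)ᴴ := by
      conv_lhs => rw [D2, DM_congr h1, DM_conjTranspose ((hA.DM (m' := 1) le_rfl).md (by simp)),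
        ← DM_DMb_comm hA]
    exact h3.symm
  rw [RM, h1.self_of_nhds]
  exact h2.neg.add (Matrix.isHermitian_mul_mul_conjTranspose _ hH.self_of_nhds.inv)

/-- plurisubharmonicity of `log |ξ|²` gives a sign of the curvature -/
theorem rm_psd (hq' : HQ) {A : Cm 1 → Mx n} (hA : MC 2 A 0) (hp : ∀ᶠ y in 𝓝 0, (A y).PosDef)
    (h : ∀ ξ : Cm n, ξ ≠ 0 → ∀ k,
      0 ≤ levi2 (fun q : Cm 1 × Cm n => Real.log (hq (A q.1) q.2)) (0, ξ) k) :
    (RM 0 0 A 0).PosSemidef := by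
  have hH := rm_herm hA (hp.mono fun y hy => hy.isHermitian) 0
  refine .of_dotProduct_mulVec_nonneg hH fun η => ?_
  rcases eq_or_ne η 0 with rfl | hη
  · simp
  have hp0 := hp.self_of_nhds
  have hu : IsUnit (A 0).det := (posDef_det_ne_zero hp0).isUnit
  have e0 : (A 0)⁻¹ *ᵥ (A 0 *ᵥ η) = η := by
    rw [Matrix.mulVec_mulVec, Matrix.nonsing_inv_mul _ hu, Matrix.one_mulVec]
  have hξ : A 0 *ᵥ η ≠ 0 := fun h0 => hη (by rw [← e0, h0, Matrix.mulVec_zero])
  have key := fun a : ℂ => hq' 1 n A 0 (a • fun _ => 1) (A 0 *ᵥ η) (a • DM 0 A 0 *ᵥ η) hA hp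
  have e1 : ∀ a : ℂ, a • DM 0 A 0 *ᵥ η -
      (∑ k : Fin 1, (a • fun _ : Fin 1 => (1 : ℂ)) k • DM k A 0) *ᵥ η = 0 := fun a => by
    simp [Matrix.smul_mulVec]
  simp only [e0, e1, Matrix.mulVec_zero, dotProduct_zero, Complex.zero_re, mul_zero] at key
  have h1 := (key 1).2.1
  have h2 := (key I).2.1
  have h3 := (key 1).2.2
  have h4 := levi2_log (key 1).1 (Alg.hq_pos hp0 hξ) h1 (by simpa using h2)
  have h5 := h _ hξ ((1 : ℂ) • fun _ => 1, (1 : ℂ) • DM 0 A 0 *ᵥ η)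
  rw [h4, h3] at h5
  have h6 := nonneg_of_mul_nonneg_right h5 (inv_pos.2 (Alg.hq_pos hp0 hξ))
  refine Complex.nonneg_iff.2 ⟨?_, (hH.im_star_dotProduct_mulVec_self η).symm⟩
  simpa [hq] using h6

theorem alg (c t : ℂ) (A Ab P Pb Q ρ ρt V : Mx n) :
    -(Q - (conj c * t) • P - (c * t) • Pb - (c * conj c) • (t • ρ + t ^ 2 • ρt)) +
      (A - (c * t) • ρ) * V * (Ab - (conj c * t) • ρ) =
    -Q + A * V * Ab + conj c • t • (P - A * V * ρ) + c • t • (Pb - ρ * V * Ab) +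
      (c * conj c) • (t • ρ + t ^ 2 • ρt + t ^ 2 • (ρ * V * ρ)) := by
  simp only [Matrix.mul_sub, Matrix.sub_mul, Matrix.smul_mul, Matrix.mul_smul]
  module

theorem kxx_eq (A : Cm n → Mx n) (z X : Cm n) :
    Kxx A z X = -(∑ l, ∑ k, (X k * conj (X l)) • D2 k l A z) +
      DX X A z * (A z)⁻¹ * ∑ l, conj (X l) • DMb l A z := by
  simp only [Kxx, RM, DX, smul_add, smul_neg, Finset.sum_add_distrib, Finset.sum_neg_distrib,
    Finset.mul_sum, Finset.sum_mul, Matrix.smul_mul, Matrix.mul_smul, smul_smul,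
    mul_comm]

theorem dx_herm {A : Cm n → Mx n} {z : Cm n} (hA : MD A z) (hH : ∀ᶠ y in 𝓝 z, (A y).IsHermitian)
    (X : Cm n) : (DX X A z)ᴴ = ∑ l, conj (X l) • DMb l A z := by
  simp only [DX, Matrix.conjTranspose_sum, Matrix.conjTranspose_smul, DMb_of_isHermitian hA hH]
  rfl

variable {U : Set (Cm n)} {W : ℝ → Cm n → Mx n}

/-- the curvature along the line -/
theorem rm_eq (hU : IsOpen U)
    (sm : ∀ j k, ContDiffOn ℝ ∞ (fun q : ℝ × Cm n => W q.1 q.2 j k) (Ioi 0 ×ˢ U))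
    (pos : ∀ t, 0 < t → ∀ z ∈ U, (W t z).PosDef)
    (eq : ∀ t, 0 < t → ∀ z ∈ U, ∀ j k, HasDerivAt (fun s => W s z j k) (-rho (W t) z j k) t)
    {t : ℝ} (ht : 0 < t) {z : Cm n} (hz : z ∈ U) (X : Cm n) (c : ℂ) {ζ : ℂ}
    (h0 : gam ζ c z X 0 = (t, z)) :
    RM 0 0 (fun τ => W (gam ζ c z X τ).1 (gam ζ c z X τ).2) 0 =
      Kxx (W t) z X + conj c • Kxt W t z X + c • (Kxt W t z X)ᴴ + (c * conj c) • Ktt W t z := by
  have hp : (t, z) ∈ Ioi (0 : ℝ) ×ˢ U := ⟨ht, hz⟩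
  have hD : ∀ j k, ∀ s, 0 < s → ∀ y ∈ U,
      DT (fun q : ℝ × Cm n => W q.1 q.2 j k) (s, y) = -rho (W s) y j k := fun j k s hs y hy =>
    (hasDT ((at_of isOpen_Ioi hU (sm j k) (q := (s, y)) ⟨hs, hy⟩).differentiableAt
      (by simp))).unique (eq s hs y hy j k)
  have hDy : ∀ j k, (fun y => DT (fun q : ℝ × Cm n => W q.1 q.2 j k) (t, y)) =ᶠ[𝓝 z]
      fun y => -rho (W t) y j k := fun j k => by
    filter_upwards [hU.mem_nhds hz] with y hy using hD j k t ht y hy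
  have hDD : ∀ j k, DT (DT fun q : ℝ × Cm n => W q.1 q.2 j k) (t, z) =
      -deriv (fun s => rho (W s) z j k) t := fun j k => by
    rw [← (hasDT ((at_of isOpen_Ioi hU (DT_sm isOpen_Ioi hU (sm j k)) hp).differentiableAt
      (by simp))).deriv, ← deriv.fun_neg]
    refine EventuallyEq.deriv_eq ?_
    filter_upwards [lt_mem_nhds ht] with s hs using hD j k s hs z hz
  have df : ∀ j k, DifferentiableAt ℝ (fun q : ℝ × Cm n => W q.1 q.2 j k) (gam ζ c z X 0) :=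
    fun j k => h0 ▸ (at_of isOpen_Ioi hU (sm j k) hp).differentiableAt (by simp)
  have e1 : DM 0 (fun τ => W (gam ζ c z X τ).1 (gam ζ c z X τ).2) 0 =
      DX X (W t) z - (c * t) • rho (W t) z := by
    ext j k
    refine (chain (df j k)).1.trans ?_
    rw [h0, hD j k t ht z hz]
    simp only [DX, Matrix.sub_apply, Matrix.sum_apply, Matrix.smul_apply, smul_eq_mul, DM_apply]
    ring
  have e2 : DMb 0 (fun τ => W (gam ζ c z X τ).1 (gam ζ c z X τ).2) 0 =
      ∑ l, conj (X l) • DMb l (W t) z - (conj c * t) • rho (W t) z := by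
    ext j k
    refine (chain (df j k)).2.trans ?_
    rw [h0, hD j k t ht z hz]
    simp only [Matrix.sub_apply, Matrix.sum_apply, Matrix.smul_apply, smul_eq_mul, DMb_apply]
    ring
  have e3 : D2 0 0 (fun τ => W (gam ζ c z X τ).1 (gam ζ c z X τ).2) 0 =
      ∑ l, ∑ k, (X k * conj (X l)) • D2 k l (W t) z - (conj c * t) • DX X (rho (W t)) z -
        (c * t) • ∑ l, conj (X l) • DMb l (rho (W t)) z - (c * conj c) • ((t : ℂ) • rho (W t) z +
          (t : ℂ) ^ 2 • Matrix.of fun j k => deriv (fun s => rho (W s) z j k) t) := by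
    ext j k
    refine (chain2 hU (sm j k) ht hz h0).trans ?_
    simp only [hD j k t ht z hz, hDD, dz_congr _ (hDy j k), dzb_congr _ (hDy j k), dz_neg, dzb_neg,
      DX, Matrix.sub_apply, Matrix.add_apply, Matrix.sum_apply, Matrix.smul_apply, smul_eq_mul,
      DM_apply, DMb_apply, Matrix.of_apply, mul_neg, Finset.sum_neg_distrib]
    ring
  have hW : ∀ y ∈ U, MC ∞ (W t) y := fun y hy j k => FG.Calc.slice hU (sm j k) ht hy
  have hl : ∀ y ∈ U, ContDiffAt ℝ ∞ (fun y => -Real.log (W t y).det.re) y := fun y hy =>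
    ((Complex.reCLM.contDiff.contDiffAt.comp y (hW y hy).det).log
      (Alg.det_pos (pos t ht y hy)).ne').neg
  have hρH : ∀ᶠ y in 𝓝 z, (rho (W t) y).IsHermitian := by
    filter_upwards [hU.mem_nhds hz] with y hy using cHess_isHermitian ((hl y hy).of_le two_le)
  have hρD : MD (rho (W t)) z := fun j k =>
    (contDiffAt_cHess (m := 1) (hl z hz) (by norm_cast) j k).differentiableAt (by simp)
  have hWH : ∀ᶠ y in 𝓝 z, (W t y).IsHermitian := by
    filter_upwards [hU.mem_nhds hz] with y hy using (pos t ht y hy).isHermitian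
  have e4 : (Kxt W t z X)ᴴ = (t : ℂ) • (∑ l, conj (X l) • DMb l (rho (W t)) z -
      rho (W t) z * (W t z)⁻¹ * ∑ l, conj (X l) • DMb l (W t) z) := by
    rw [Kxt, Matrix.conjTranspose_smul, Matrix.conjTranspose_sub, Matrix.conjTranspose_mul,
      Matrix.conjTranspose_mul, dx_herm hρD hρH, dx_herm ((hW z hz).md (by simp)) hWH,
      hρH.self_of_nhds.eq, hWH.self_of_nhds.inv.eq, Matrix.mul_assoc]
    simp
  rw [RM, e1, e2, e3, e4, kxx_eq, h0, Kxt, Ktt, alg]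
  simp only [Complex.ofReal_pow]

theorem mh_of (hq' : HQ) (hU : IsOpen U)
    (sm : ∀ j k, ContDiffOn ℝ ∞ (fun q : ℝ × Cm n => W q.1 q.2 j k) (Ioi 0 ×ˢ U))
    (pos : ∀ t, 0 < t → ∀ z ∈ U, (W t z).PosDef)
    (eq : ∀ t, 0 < t → ∀ z ∈ U, ∀ j k, HasDerivAt (fun s => W s z j k) (-rho (W t) z j k) t)
    {G : Cm n × Cm n × ℂ → ℝ}
    (hG : ∀ q, G q = Real.log (hq (W (Real.exp (2 * q.2.2.re)) q.1) q.2.1))
    (Gs : ∀ q : Cm n × Cm n × ℂ, q.1 ∈ U → q.2.1 ≠ 0 → ContDiffAt ℝ 2 G q)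
    (ly : ∀ q : Cm n × Cm n × ℂ, q.1 ∈ U → q.2.1 ≠ 0 → ∀ V, 0 ≤ levi2 G q V)
    {t : ℝ} (ht : 0 < t) {z : Cm n} (hz : z ∈ U) (X : Cm n) (c : ℂ) :
    (Kxx (W t) z X + conj c • Kxt W t z X + c • (Kxt W t z X)ᴴ +
      (c * conj c) • Ktt W t z).PosSemidef := by
  set ζ : ℂ := ((Real.log t / 2 : ℝ) : ℂ) with hζ
  have h0 : gam ζ c z X 0 = (t, z) := by
    simp only [gam, hζ, Pi.zero_apply, mul_zero, add_zero, zero_smul, Complex.ofReal_re]
    rw [mul_div_cancel₀ _ two_ne_zero, Real.exp_log ht]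
  have hp : gam ζ c z X 0 ∈ Ioi (0 : ℝ) ×ˢ U := h0 ▸ ⟨ht, hz⟩
  rw [← rm_eq hU sm pos eq ht hz X c h0]
  refine rm_psd hq' (fun j k => (((at_of isOpen_Ioi hU (sm j k) hp).comp 0
    (gam_sm ζ c z X).contDiffAt).of_le two_le :)) ?_ fun ξ hξ k => ?_
  · filter_upwards [(gam_sm ζ c z X).continuous.continuousAt.preimage_mem_nhds
      ((isOpen_Ioi.prod hU).mem_nhds hp)] with τ hτ using pos _ hτ.1 _ hτ.2
  · let T : Cm 1 × Cm n → Cm n × Cm n × ℂ := fun q => (z + q.1 0 • X, q.2, ζ + c * q.1 0)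
    have hT : ContDiff ℂ ∞ T := by
      have h1 : ContDiff ℂ ∞ fun q : Cm 1 × Cm n => q.1 0 :=
        (contDiff_apply ℂ ℂ 0).comp contDiff_fst
      exact (contDiff_const.add (h1.smul contDiff_const)).prodMk
        (contDiff_snd.prodMk (contDiff_const.add (contDiff_const.mul h1)))
    have hz' : (T (0, ξ)).1 ∈ U := by simpa [T] using hz
    have e : (fun q : Cm 1 × Cm n => Real.log
        (hq (W (gam ζ c z X q.1).1 (gam ζ c z X q.1).2) q.2)) = G ∘ T :=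
      funext fun q => (hG (T q)).symm
    rw [e, Bu.levi2_comp isOpen_univ hT.contDiffOn (mem_univ _) (Gs _ hz' hξ)]
    exact ly _ hz' hξ _

end Lv

theorem lv_row : LV := by
  intro n M _ _ _ _ _ _ _ _ _ _ _ _ μ F _ hF hq' h1 h2 hy e he
  have sm : ∀ j k, ContDiffOn ℝ ∞ (fun q : ℝ × Cm n => F.g q.1 e q.2 j k) (Ioi 0 ×ˢ e.target) :=
    fun j k => (h1.g_sm e he j k).mono (prod_mono Ioi_subset_Ici_self subset_rfl)
  have pos : ∀ t, 0 < t → ∀ z ∈ e.target, (F.g t e z).PosDef := fun t ht => hF.pos t ht.le e he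
  have eq : ∀ t, 0 < t → ∀ z ∈ e.target, ∀ j k,
      HasDerivAt (fun s => F.g s e z j k) (-rho (F.g t e) z j k) t := fun t ht z hz j k => by
    have := h2.g_t t ht e he z hz j k
    rwa [h2.u_hs t ht.le e he z hz] at this
  have ho : IsOpen {q : Cm n × Cm n × ℂ | q.1 ∈ e.target ∧ q.2.1 ≠ 0} :=
    (e.open_target.preimage continuous_fst).inter
      (isOpen_ne.preimage (continuous_fst.comp continuous_snd))
  exact ⟨e.open_target, sm, pos, fun t ht => h1.g_cl t ht.le e he, eq, fun t ht z hz X c =>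
    Lv.mh_of hq' e.open_target sm pos eq (G := F.G e) (fun _ => rfl)
      (fun q a b => ((h1.G_sm e he).contDiffAt (ho.mem_nhds ⟨a, b⟩)).of_le two_le) (hy e he)
      ht hz X c⟩

end Vale.Agent.P253W.V
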