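import Vale.Agent.P253W.V.Defs
import Vale.Agent.P253Z.B1a.Ch

/-!
# P253W, block V, row MK1: a Riemannian metric with given matrices
-/

open scoped Manifold ContDiff Bundle Topology ComplexConjugate ComplexOrder Matrix
open Bundle IsManifold Set Metric Filter Vale.Agent.P253.Mfd Vale.Agent.P253Z
open Vale.Agent.P272.K (Cm jacM Chart)

noncomputable section

namespace Vale.Agent.P253W.V

namespace Mk1

variable {n : ℕ}

/-- the real bilinear form of a matrix -/
def bf (A : Mx n) : Cm n →L[ℝ] Cm n →L[ℝ] ℝ :=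
  LinearMap.toContinuousLinearMap (LinearMap.toContinuousLinearMap.toLinearMap ∘ₗ
    LinearMap.mk₂ ℝ (fun v w : Cm n => (v ⬝ᵥ (A *ᵥ star w)).re)
      (fun _ _ _ => by rw [add_dotProduct, Complex.add_re])
      (fun _ _ _ => by rw [smul_dotProduct, Complex.smul_re])
      (fun _ _ _ => by rw [star_add, Matrix.mulVec_add, dotProduct_add, Complex.add_re])
      fun _ _ _ => by
        rw [star_smul, star_trivial, Matrix.mulVec_smul, dotProduct_smul, Complex.smul_re])

lemma bf_apply (A : Mx n) (v w : Cm n) : bf A v w = (v ⬝ᵥ (A *ᵥ star w)).re := rfl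

lemma bf_pb (J A : Mx n) (v w : Cm n) : bf (pb J A) v w = bf A (J *ᵥ v) (J *ᵥ w) := by
  have e : J.map (starRingEnd ℂ) *ᵥ star w = star (J *ᵥ w) := by
    ext i
    simp [Matrix.mulVec, dotProduct]
  rw [bf_apply, bf_apply, pb, ← Matrix.mulVec_mulVec, ← Matrix.mulVec_mulVec, e,
    Matrix.dotProduct_mulVec, Matrix.vecMul_transpose]

lemma bf_symm {A : Mx n} (h : A.IsHermitian) (v w : Cm n) : bf A v w = bf A w v := by
  rw [bf_apply, bf_apply, ← Complex.conj_re, ← Complex.star_def, ← Matrix.star_dotProduct_star,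
    Matrix.star_mulVec, star_star, h.eq, ← Matrix.dotProduct_mulVec]

lemma bf_pos {A : Mx n} (h : A.PosDef) {v : Cm n} (hv : v ≠ 0) : 0 < bf A v v := by
  have := h.dotProduct_mulVec_pos (x := star v) (star_ne_zero.2 hv)
  rw [star_star] at this
  exact (Complex.pos_iff.1 this).1

lemma bdd {B : Cm n →L[ℝ] Cm n →L[ℝ] ℝ} (h : ∀ v, v ≠ 0 → 0 < B v v) :
    Bornology.IsVonNBounded ℝ {v | B v v < 1} := by
  obtain ⟨c, hc, h1⟩ := (isCompact_sphere (0 : Cm n) 1).exists_forall_le' (f := fun v => B v v)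
    (B.continuous₂.comp (continuous_id.prodMk continuous_id)).continuousOn fun v hv => h v (ne_zero_of_mem_unit_sphere ⟨v, hv⟩)
  rw [NormedSpace.isVonNBounded_iff, isBounded_iff_forall_norm_le]
  refine ⟨√(1 / c), fun v (hv : B v v < 1) => Real.le_sqrt_of_sq_le ?_⟩
  rcases eq_or_ne v 0 with rfl | h0
  · simp [hc.le]
  · have h2 := norm_pos_iff.2 h0
    have h3 := h1 (‖v‖⁻¹ • v) (by simp [norm_smul, h2.ne'])
    simp only [map_smul, smul_apply, smul_eq_mul] at h3
    rw [← mul_assoc, ← mul_inv, le_inv_mul_iff₀ (by positivity)] at h3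
    rw [le_div_iff₀ hc, sq]
    exact h3.trans hv.le

variable {M : Type} [MetricSpace M] [ChartedSpace (Cm n) M] [IsManifold 𝓘(ℂ, Cm n) 1 M]

lemma fd {e e' : Chart n M} (he : Hc e) (he' : Hc e') {x : M} (hx : x ∈ e.source)
    (hx' : x ∈ e'.source) (v : Cm n) :
    fderiv ℝ (fun y => e' (e.symm y)) (e x) v = jacM e e' x *ᵥ v := by
  rw [B1aP.jac_eq he he' hx hx', LinearMap.toMatrix'_mulVec,
    ((B1aP.hol' he he' hx hx').differentiableAt.hasFDerivAt.restrictScalars ℝ).fderiv]
  rfl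

lemma mfd {e : Chart n M} (he : Hc e) {z : Cm n} (hz : z ∈ e.target) (v : Cm n) :
    mfderiv 𝓘(ℝ, Cm n) 𝓘(ℝ, Cm n) e.symm z v = jacM e (pc n (e.symm z)) (e.symm z) *ᵥ v := by
  have h1 := fd he (B1aP.chart _) (e.map_target hz) (mem_chart_source _ _) v
  have h2 := (B1aP.hol he (B1aP.chart _) hz
    (mem_chart_source _ _)).differentiableAt.restrictScalars ℝ
  have h3 : HasMFDerivAt 𝓘(ℝ, Cm n) 𝓘(ℝ, Cm n) e.symm z
      (fderiv ℝ (fun y => pc n (e.symm z) (e.symm y)) z) :=
    ⟨e.continuousAt_symm hz, h2.hasFDerivAt.hasFDerivWithinAt⟩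
  rw [e.right_inv hz] at h1
  rw [h3.mfderiv]
  exact h1

variable [IsManifold 𝓘(ℝ, Cm n) ∞ M] {W : Chart n M → Cm n → Mx n}

/-- the metric -/
def met (h1 : ∀ e : Chart n M, Hc e → ∀ z ∈ e.target, (W e z).PosDef ∧
      ∀ j k, ContDiffAt ℝ ∞ (fun y => W e y j k) z)
    (h2 : ∀ e e' : Chart n M, Hc e → Hc e' → ∀ x ∈ e.source, x ∈ e'.source →
      W e (e x) = pb (jacM e e' x) (W e' (e' x))) : Rm n M where
  inner x := bf (W (pc n x) (pc n x x))
  symm x := bf_symm (h1 _ (B1aP.chart x) _ (mem_chart_target _ x)).1.1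
  pos x _ := bf_pos (h1 _ (B1aP.chart x) _ (mem_chart_target _ x)).1
  isVonNBounded x := bdd fun _ => bf_pos (h1 _ (B1aP.chart x) _ (mem_chart_target _ x)).1
  contMDiff a := by
    rw [contMDiffAt_hom_bundle]
    refine ⟨contMDiffAt_id, ?_⟩
    have h3 : ContDiffOn ℝ ∞ (fun y => bf (W (pc n a) y)) (pc n a).target :=
      contDiffOn_clm_apply.2 fun v => contDiffOn_clm_apply.2 fun w z hz => by
        simp only [bf_apply, dotProduct, Matrix.mulVec]
        exact (Complex.reCLM.contDiff.contDiffAt.comp z (ContDiffAt.sum fun j _ =>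
          contDiffAt_const.mul (ContDiffAt.sum fun k _ =>
            ((h1 _ (B1aP.chart a) z hz).2 j k).mul contDiffAt_const))).contDiffWithinAt
    have h4 := (h3.contDiffAt ((pc n a).open_target.mem_nhds
      (mem_chart_target _ a))).comp_contMDiffAt
        ((contMDiffOn_chart (I := 𝓘(ℝ, Cm n)) (n := ∞) (x := a)).contMDiffAt
          (chart_source_mem_nhds _ a))
    refine h4.congr_of_eventuallyEq (mem_of_superset (chart_source_mem_nhds (Cm n) a) fun z hz => ?_)
    have h5 : ∀ v, (trivializationAt (Cm n) (TangentSpace 𝓘(ℝ, Cm n) : M → Type) a).symm z v =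
        jacM (pc n a) (pc n z) z *ᵥ v := fun v => by
      rw [← fd (B1aP.chart a) (B1aP.chart z) hz (mem_chart_source _ _),
        ← Trivialization.symmL_apply (R := ℝ) _ hz,
        TangentBundle.symmL_trivializationAt_eq_core hz, tangentBundleCore_coordChange_achart,
        ModelWithCorners.range_eq_univ, fderivWithin_univ]
      rfl
    refine ContinuousLinearMap.ext fun v => ContinuousLinearMap.ext fun w => ?_
    refine (inCoordinates_apply_eq₂ (E₃ := Bundle.Trivial M ℝ) hz hz (mem_univ _)).trans ?_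
    rw [h5, h5, Function.comp_apply,
      h2 _ _ (B1aP.chart a) (B1aP.chart z) z hz (mem_chart_source _ _), bf_pb]
    simp
    rfl

end Mk1

theorem mk1_row : MK1 := fun n M _ _ _ _ _ _ _ _ W h1 h2 =>
  ⟨Mk1.met h1 h2, fun e he z hz v w => by
    have h := h2 _ _ he (B1aP.chart _) _ (e.map_target hz) (mem_chart_source _ _)
    rw [e.right_inv hz] at h
    rw [← Mk1.bf_apply, h, Mk1.bf_pb, ← Mk1.mfd he hz, ← Mk1.mfd he hz]
    rfl⟩

end Vale.Agent.P253W.V
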