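import Vale.Agent.P253W.V.Defs
import Vale.Agent.P253Z.B2
import Vale.Agent.P253Z.B1b.Lin

/-!
# P253W, row V.MK2: closed forms are Kähler; the sign of the curvature
-/

open scoped Manifold ContDiff Bundle ENNReal NNReal Topology ComplexConjugate ComplexOrder Matrix
open Bundle IsManifold MeasureTheory Set Metric Filter Vale.Agent.P253.Mfd Vale.Agent.P253Z
open Vale.Agent.P272.K (Cm dz dzb cHess jacM Chart)
open Vale.Agent.P272.K.C2
open Complex (I)

set_option linter.unusedSectionVars false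

noncomputable section

namespace Vale.Agent.P253W.V

namespace Mk2

variable {n : ℕ}

theorem bil (A : Mx n) (v w : Cm n) :
    v ⬝ᵥ (A *ᵥ star w) = ∑ j, ∑ k, A j k * (v j * conj (w k)) := by
  simp only [dotProduct, Matrix.mulVec, Finset.mul_sum]
  exact Finset.sum_congr rfl fun j _ => Finset.sum_congr rfl fun k _ => by
    rw [Pi.star_apply, Complex.star_def]; ring

/-- the symmetry which comes from closedness -/
theorem sym {W : Cm n → Mx n} {z : Cm n} (hW : MD W z)
    (hc : ∀ j k l, dz l (fun y => W y j k) z = dz j (fun y => W y l k) z) (u v w : Cm n) :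
    fderiv ℝ (fun y => w ⬝ᵥ (W y *ᵥ star u)) z v -
        I * fderiv ℝ (fun y => w ⬝ᵥ (W y *ᵥ star u)) z (I • v) =
      fderiv ℝ (fun y => v ⬝ᵥ (W y *ᵥ star u)) z w -
        I * fderiv ℝ (fun y => v ⬝ᵥ (W y *ᵥ star u)) z (I • w) := by
  have h1 : ∀ a b : Cm n, fderiv ℝ (fun y => b ⬝ᵥ (W y *ᵥ star u)) z a -
      I * fderiv ℝ (fun y => b ⬝ᵥ (W y *ᵥ star u)) z (I • a) =
      2 * ∑ i, ∑ j, ∑ k, dz i (fun y => W y j k) z * (a i * b j * conj (u k)) := fun a b => by
    rw [← B2A.cplx, Finset.mul_sum]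
    refine Finset.sum_congr rfl fun i _ => ?_
    have h2 : dz i (fun y => b ⬝ᵥ (W y *ᵥ star u)) z =
        ∑ j, ∑ k, dz i (fun y => W y j k) z * (b j * conj (u k)) := by
      simp only [bil]
      rw [dz_sum i _ fun j _ => DifferentiableAt.fun_sum fun k _ => (hW j k).mul_const _]
      refine Finset.sum_congr rfl fun j _ => ?_
      rw [dz_sum i _ fun k _ => (hW j k).mul_const _]
      exact Finset.sum_congr rfl fun k _ => dz_mul_const i _ (hW j k)
    have h3 : ∑ j, ∑ k, dz i (fun y => W y j k) z * (a i * b j * conj (u k)) =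
        a i * dz i (fun y => b ⬝ᵥ (W y *ᵥ star u)) z := by
      rw [h2, Finset.mul_sum]
      refine Finset.sum_congr rfl fun j _ => ?_
      rw [Finset.mul_sum]
      exact Finset.sum_congr rfl fun k _ => by ring
    rw [h3, dz]
    ring
  rw [h1, h1, Finset.sum_comm]
  refine congrArg _ (Finset.sum_congr rfl fun i _ => Finset.sum_congr rfl fun j _ =>
    Finset.sum_congr rfl fun k _ => ?_)
  rw [hc i k j]
  ring

theorem md_bil {W : Cm n → Mx n} {z : Cm n} (hW : MD W z) (u w : Cm n) :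
    DifferentiableAt ℝ (fun y => w ⬝ᵥ (W y *ᵥ star u)) z := by
  simp only [bil]
  exact DifferentiableAt.fun_sum fun j _ => DifferentiableAt.fun_sum fun k _ =>
    (hW j k).mul_const _

variable {M : Type} [MetricSpace M] [ChartedSpace (Cm n) M] [IsManifold 𝓘(ℂ, Cm n) 1 M]
  [IsManifold 𝓘(ℝ, Cm n) ∞ M] [RiemannianBundle fun x : M => TangentSpace 𝓘(ℝ, Cm n) x]
  [IsContMDiffRiemannianBundle 𝓘(ℝ, Cm n) ∞ (Cm n) fun x : M => TangentSpace 𝓘(ℝ, Cm n) x]
  {e : Chart n M} {z : Cm n}

theorem isChris (he : Hc e) (hz : z ∈ e.target) :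
    IsChristoffel e z fun u v => chris (chartG e) z u v := fun u v w => by
  have he' := mem_maximalAtlas_real he
  rw [fderiv_chartMetric he' hz, fderiv_chartMetric he' hz, fderiv_chartMetric he' hz]
  exact chris_spec_of_pos (fun v hv => chartG_pos he' hz v hv) u v w

theorem kahler (he : Hc e) (hz : z ∈ e.target) {W : Cm n → Mx n} (hW : MD W z)
    (hc : ∀ j k l, dz l (fun y => W y j k) z = dz j (fun y => W y l k) z)
    (hq : ∀ y ∈ e.target, ∀ v w : Cm n, chartMetric e y v w = (v ⬝ᵥ (W y *ᵥ star w)).re) :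
    (∀ v w, chartMetric e z (I • v) (I • w) = chartMetric e z v w) ∧
      ∃ Γ, IsChristoffel e z Γ ∧ ∀ u v, Γ u (I • v) = I • Γ u v := by
  have he' := mem_maximalAtlas_real he
  have hU : ∀ᶠ y in 𝓝 z, y ∈ e.target := e.open_target.mem_nhds hz
  have hI : ∀ y ∈ e.target, ∀ v w : Cm n,
      chartMetric e y (I • v) w = -chartMetric e y v (I • w) := fun y hy v w => by
    rw [hq y hy, hq y hy, smul_dotProduct, star_smul, Matrix.mulVec_smul, dotProduct_smul]
    simp
  refine ⟨fun v w => by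
    rw [hI z hz, MC.I_I, ← chartG_apply, map_neg, neg_neg, chartG_apply], _, isChris he hz,
    fun u v => (eq_chris_of_pos (fun v hv => chartG_pos he' hz v hv) u _ _ fun w => ?_).symm⟩
  have h0 := isChris he hz u v (I • w)
  have h1 : fderiv ℝ (fun y => chartMetric e y (I • v) w) z u =
      -fderiv ℝ (fun y => chartMetric e y v (I • w)) z u := by
    rw [Filter.EventuallyEq.fderiv_eq (hU.mono fun y hy => hI y hy v w), fderiv_fun_neg]
    rfl
  have h2 : ∀ a b : Cm n, fderiv ℝ (fun y => chartMetric e y u b) z a =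
      (fderiv ℝ (fun y => b ⬝ᵥ (W y *ᵥ star u)) z a).re := fun a b => by
    have h3 : (fun y => chartMetric e y u b) =ᶠ[𝓝 z] fun y => (b ⬝ᵥ (W y *ᵥ star u)).re :=
      hU.mono fun y hy => (chartG_symm e y u b).trans (hq y hy b u)
    rw [h3.fderiv_eq]
    exact congrArg (fun T => T a)
      (Complex.reCLM.hasFDerivAt.comp z (md_bil hW u b).hasFDerivAt).fderiv
  have h4 : ∀ a b : Cm n, fderiv ℝ (fun y => (I • b) ⬝ᵥ (W y *ᵥ star u)) z a =
      I * fderiv ℝ (fun y => b ⬝ᵥ (W y *ᵥ star u)) z a := fun a b => by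
    simp only [smul_dotProduct, smul_eq_mul]
    exact congrArg (fun T => T a) ((md_bil hW u b).hasFDerivAt.const_mul I).fderiv
  have h5 := congrArg Complex.im (sym hW hc u v w)
  rw [koszul, ← fderiv_chartMetric he' hz, ← fderiv_chartMetric he' hz,
    ← fderiv_chartMetric he' hz, chartG_apply, hI z hz, h1, h2, h2, h4]
  rw [h2, h2, h4] at h0
  simp only [Complex.sub_im, Complex.mul_im, Complex.mul_re, Complex.I_re, Complex.I_im] at h0 h5 ⊢
  linarith

theorem hm_eq {W : Mx n} (hq : ∀ v w : Cm n, chartMetric e z v w = (v ⬝ᵥ (W *ᵥ star w)).re) :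
    hm e z = W := by
  ext j k
  have h1 : ∀ c : ℂ, (Pi.single j c : Cm n) ⬝ᵥ (W *ᵥ star (Pi.single k 1 : Cm n)) = c * W j k :=
    fun c => by
      rw [single_dotProduct, ← Pi.single_star, star_one, Matrix.mulVec_single_one]
      rfl
  rw [hm, Matrix.of_apply, hq, hq, h1, h1]
  apply Complex.ext <;> simp

theorem bk_eq (hK : IsKahler (Cm n) M) (he : Hc e) (hz : z ∈ e.target) (X a : Cm n) :
    bk (hm e) z X a = Rc (chartG e) z X a := by
  have h := localKahler_chartG hK he
  have hU : ∀ᶠ y in 𝓝 z, y ∈ e.target := e.open_target.mem_nhds hz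
  have h1 : ∀ y, B2A.mat (chartG e) y = MC.hmat (chartG e y) := fun y => by
    ext j k
    rw [B2A.mat, MC.hmat, Matrix.of_apply, Matrix.of_apply, MC.hf, MC.single_I]
  refine B2A.rm_eq h hz (fun j k => ?_) (hU.mono fun y hy => ?_) (hU.mono fun y hy v => ?_)
    (fun _ _ v hN => MC.levi hN v) X a
  · simp only [h1]
    exact (MC.hmat_smooth h hz j k).of_le B2A.two_le
  · rw [h1]
    exact MC.hmat_pos (h.herm y hy) (h.symm y hy) (h.pos y hy)
  · rw [h1, ← MC.hf_expand (h.herm y hy), MC.hf_re]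

end Mk2

open Mk2

/-- **Row MK2.** -/
theorem mk2_row : MK2 := by
  intro n M _ _ _ _ _ _ _
  refine ⟨fun W h => ⟨fun e he z hz => ?_, fun e he z hz => hm_eq (h e he z hz).2.2.2⟩,
    fun hK => ⟨fun h e he z hz X a => ?_, fun h x e he hx => ?_⟩⟩
  · exact kahler he hz (fun j k => ((h e he z hz).2.1 j k).differentiableAt (by simp))
      (h e he z hz).2.2.1 fun y hy => (h e he y hy).2.2.2
  · rw [bk_eq hK he hz]
    exact Rc_nonneg_chartG hK he hz (h _) X a
  · have hz := e.map_source hx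
    refine ⟨_, isChris he hz, fun u v => ?_⟩
    rw [sectNum_eq (mem_maximalAtlas_real he) hz (isChris he hz),
      sectNum_eq (mem_maximalAtlas_real he) hz (isChris he hz),
      (localKahler_chartG hK he).secG_add hz, ← bk_eq hK he hz]
    exact mul_nonneg zero_le_two (h e he _ hz v u)

end Vale.Agent.P253W.V
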