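import Vale.Agent.P253W.V.Ibp
import Vale.Agent.P253W.V.Alg

/-!
# P253W, block V: the local inequality in the sense of distributions
-/

open scoped ContDiff Topology ComplexOrder
open MeasureTheory Set Filter

noncomputable section

namespace Vale.Agent.P253W.V

open Ibp

/-- dominated convergence against a test function -/
theorem Ibp.Cs.lim {n : ℕ} {U K : Set (P n)} {φ G : P n → ℝ} {F : ℕ → P n → ℝ} {B : ℝ}
    (h : Cs U K φ) (hK : IsCompact K) (e : K ⊆ U) (o : IsOpen U) (c : ∀ k, ContinuousOn (F k) U)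
    (b : ∀ᶠ k in atTop, ∀ q ∈ U, |F k q| ≤ B)
    (l : ∀ q ∈ U, Tendsto (fun k => F k q) atTop (𝓝 (G q))) : Integrable (fun q => φ q * G q) ∧
    Tendsto (fun k => ∫ q, φ q * F k q) atTop (𝓝 (∫ q, φ q * G q)) := by
  have m : ∀ k, AEStronglyMeasurable (fun q => φ q * F k q) volume := fun k =>
    (continuous_iff_continuousAt.2 fun q => (em (q ∈ K)).elim (fun a => (h.1 q (e a)).continuousAt.mul
      ((c k).continuousAt (o.mem_nhds (e a)))) fun a => (continuousAt_const (y := 0)).congr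
        ((h.ev hK a).mono fun p c => by simp [show φ p = 0 from c])).aestronglyMeasurable
  have t : ∀ q, Tendsto (fun k => φ q * F k q) atTop (𝓝 (φ q * G q)) := fun q =>
    (em (q ∈ K)).elim (fun a => (l q (e a)).const_mul _) fun a => by simp [h.2 q a]
  have d : ∀ᶠ k in atTop, ∀ q, ‖φ q * F k q‖ ≤ ‖φ q‖ * B := b.mono fun k c q =>
    (em (q ∈ K)).elim (fun a => (norm_mul_le _ _).trans
      (mul_le_mul_of_nonneg_left (c q (e a)) (norm_nonneg _))) fun a => by simp [h.2 q a]
  have i := (h.int hK e).norm.mul_const B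
  exact ⟨i.mono' (aestronglyMeasurable_of_tendsto_ae _ m (.of_forall t)) (.of_forall fun q =>
    le_of_tendsto (t q).norm (d.mono fun _ c => c q)), tendsto_integral_filter_of_dominated_convergence
      _ (.of_forall m) (d.mono fun _ c => .of_forall c) i (.of_forall t)⟩

/-- **MOL**, with the first integral on the right in parentheses -/
def MOL' : Prop := VD2 → IBP → ∀ (n : ℕ) (U : Set (P n)) (g : P n → Mx n) (a : P272.K.Cm n → ℝ)
  (u L : P n → ℝ) (l δ : ℕ → P n → ℝ) (η : ℕ → ℝ) (C : ℝ), KF U g →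
  ContDiffOn ℝ ∞ (fun q : P n => a q.2) U → (∀ q ∈ U, 0 < a q.2) →
  (∀ q ∈ U, u q = Real.log (a q.2 / (g q).det.re)) → Reg U g u L l δ η C → ∀ χ, Test U χ → ∀ k,
  ∫ q, l k q * trg (g q) (cH χ q) * (g q).det.re ≤ (∫ q, dT χ q * a q.2 * Real.exp (-l k q)) +
    C * ∫ q, χ q * a q.2 * ((Real.exp (δ k q) / (1 - η k) - 1) * Real.exp (-l k q))

/-- **VD3** -/
theorem vd3_of (mol : MOL') (vd2 : VD2) (ibp : IBP) (n : ℕ) (U : Set (P n)) (g : P n → Mx n)
    (a : P272.K.Cm n → ℝ) (u L : P n → ℝ) (l δ : ℕ → P n → ℝ) (η : ℕ → ℝ) (C : ℝ) (hg : KF U g)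
    (ha : ContDiffOn ℝ ∞ (fun q : P n => a q.2) U) (a0 : ∀ q ∈ U, 0 < a q.2)
    (hu : ∀ q ∈ U, u q = Real.log (a q.2 / (g q).det.re))
    (hT : ∀ q ∈ U, dT u q = trg (g q) (cH u q)) (hR : Reg U g u L l δ η C) (χ : P n → ℝ)
    (hχ : Test U χ) : 0 ≤ ∫ q, (dT χ q * (Real.exp (u q - L q) - 1) +
      (u q - L q) * trg (g q) (cH χ q)) * (g q).det.re := by
  have M := mol vd2 ibp n U g a u L l δ η C hg ha a0 hu hR χ hχ
  obtain ⟨c1, -, c3, c4⟩ := id hχ
  have sm : ∀ {f : P n → ℝ}, ContDiffOn ℝ ∞ f U → Sm U f := fun h q e =>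
    h.contDiffAt (hg.op.mem_nhds e)
  have D0 : ∀ q ∈ U, 0 < (g q).det.re := fun q e => Alg.det_pos (hg.pos q e)
  have sD : ContDiffOn ℝ ∞ (fun q => (g q).det.re) U := Alg.sm_re (Alg.sm_det hg.sm)
  have su : ContDiffOn ℝ ∞ u U := ((ha.div sD fun q e => (D0 q e).ne').log fun q e =>
    (div_pos (a0 q e) (D0 q e)).ne').congr hu
  have eu : ∀ q ∈ U, (g q).det.re = a q.2 * Real.exp (-u q) := fun q e => by
    have := D0 q e
    have := a0 q e
    rw [Real.exp_neg, hu q e, Real.exp_log (by positivity)]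
    field_simp
  have sχ : Cs U (tsupport χ) χ := ⟨fun q _ => c1.contDiffAt, fun q => image_eq_zero_of_notMem_tsupport⟩
  have cχ : Cs U (tsupport χ) fun q => (χ q : ℂ) := ⟨fun q e =>
    Complex.ofRealCLM.contDiff.contDiffAt.comp q (sχ.1 q e), fun q e => by simp [sχ.2 q e]⟩
  have cH' : ∀ j k, Cs U (tsupport χ) fun q => cH χ q j k := fun j k => ((cχ.sz c3 k).2.sz c3 j).1
  have sT : Cs U (tsupport χ) fun q => trg (g q) (cH χ q) := ⟨sm (Alg.sm_trg hg.sm
    (fun q e => (hg.pos q e).det_pos.ne') fun j k q e => ((cH' j k).1 q e).contDiffWithinAt),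
    fun q e => by simp [show cH χ q = 0 from Matrix.ext fun j k => (cH' j k).2 q e, trg]⟩
  have dχ : Cs U (tsupport χ) (dT χ) := by
    rw [show dT χ = fun q => fderiv ℝ χ q (1, 0) from
      funext fun q => dT_eq (c1.differentiable (by simp) q)]
    exact ⟨fun q _ => (c1.contDiffAt.fderiv_right (by simp)).clm_apply contDiffAt_const,
      fun q e => by simp [(sχ.ev c3 e).fderiv_eq]⟩
  have cl : ∀ k, ContinuousOn (l k) U := fun k => (hR.lip k).elim fun _ h => h.continuousOn
  have ce : ∀ k, ContinuousOn (fun q => Real.exp (-l k q)) U := fun k => (cl k).neg.rexp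
  have be : ∀ k, ∀ q ∈ U, |Real.exp (-l k q)| ≤ Real.exp C := fun k q e => by
    rw [Real.abs_exp]
    exact Real.exp_le_exp.2 ((neg_le_abs _).trans (hR.bd k q e).1)
  have te : ∀ q ∈ U, Tendsto (fun k => Real.exp (-l k q)) atTop (𝓝 (Real.exp (-L q))) :=
    fun q e => (hR.lim q e).1.neg.rexp
  have l1 := (sT.mul (sm sD)).lim c3 c4 hg.op cl (.of_forall fun k q e => (hR.bd k q e).1)
    fun q e => (hR.lim q e).1
  have l2 := (dχ.mul (sm ha)).lim c3 c4 hg.op ce (.of_forall be) te
  have l3 := ((sχ.mul (sm ha)).lim (B := (Real.exp C * 2 + 1) * Real.exp C) (G := fun _ => 0)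
    (F := fun k q => (Real.exp (δ k q) / (1 - η k) - 1) * Real.exp (-l k q)) c3 c4 hg.op
    (fun k => (((hR.cδ k).rexp.div_const _).sub continuousOn_const).mul (ce k))
    ((hR.η_lim.eventually (gt_mem_nhds one_half_pos)).mono fun k c q e => by
      rw [abs_mul]
      refine mul_le_mul ((abs_sub _ _).trans ?_) (be k q e) (abs_nonneg _) (by positivity)
      have h1 : 0 < 1 - η k := sub_pos.2 (hR.η_mem k).2
      have h2 := Real.exp_le_exp.2 (hR.bd k q e).2.2
      have h3 := Real.exp_pos C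
      rw [abs_one, abs_of_pos (by positivity), add_le_add_iff_right, div_le_iff₀ h1]
      nlinarith)
    fun q e => by
      simpa using (((hR.lim q e).2.rexp.div (hR.η_lim.const_sub 1) (by simp)).sub_const 1).mul
        (te q e)).2
  have I := le_of_tendsto_of_tendsto' l1.2 (l2.2.add (l3.const_mul C)) fun k =>
    (integral_congr_ae (.of_forall fun q => by ring)).trans_le (M k)
  have J : ∫ q, (g q).det.re * dT χ q = ∫ q, u q * trg (g q) (cH χ q) * (g q).det.re := by
    rw [(ibp n U g u χ hg su hχ).1, (ibp n U g _ χ hg sD hχ).2, ← integral_neg]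
    refine integral_congr_ae (.of_forall fun q => ?_)
    by_cases e : q ∈ U
    swap
    · simp [sχ.2 q fun c => e (c4 c)]
    have t := (Continuous.prodMk_left q.2).tendsto q.1
    have d : HasDerivAt (fun s => u (s, q.2)) (dT u q) q.1 := (DifferentiableAt.comp (g := u) q.1
      ((sm su q e).differentiableAt (by simp)) (by fun_prop)).hasDerivAt
    have := ((d.neg.exp.const_mul (a q.2)).congr_of_eventuallyEq
      ((t.eventually (hg.op.mem_nhds e)).mono fun s c => eu _ c)).deriv
    simp only [← hT q e, show dT (fun q => (g q).det.re) q = _ from this, eu q e]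
    simp only [Pi.neg_apply]
    ring
  have i1 := (dχ.mul' (sm sD)).int c3 c4
  have i2 := ((sT.mul' (sm su)).mul (sm sD)).int c3 c4
  rw [integral_congr_ae (g := fun q => dT χ q * a q.2 * Real.exp (-L q) - (g q).det.re * dT χ q +
    (u q * trg (g q) (cH χ q) * (g q).det.re - trg (g q) (cH χ q) * (g q).det.re * L q))
    (.of_forall fun q => ?_), integral_add (by exact l2.1.sub i1) (by exact i2.sub l1.1),
    integral_sub l2.1 i1, integral_sub i2 l1.1]
  · simp only [mul_zero, integral_zero] at I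
    linarith
  by_cases e : q ∈ U
  swap
  · have c : q ∉ tsupport χ := fun c => e (c4 c)
    simp [dχ.2 q c, sT.2 q c]
  have : Real.exp (u q - L q) * (g q).det.re = a q.2 * Real.exp (-L q) := by
    rw [eu q e, mul_left_comm, ← Real.exp_add]
    congr 2
    ring
  linear_combination dT χ q * this

end Vale.Agent.P253W.V
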