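import Vale.Agent.P253W.V.MolA
import Vale.Agent.P253W.V.Vd3

/-!
# P253W, block V: the row MOL
-/

open scoped ContDiff NNReal Topology ComplexOrder Matrix
open MeasureTheory Set Metric Filter

noncomputable section

namespace Vale.Agent.P253W.V

namespace Mol

variable {n : ℕ}

/-- passage to the limit under the integral on a compact set -/
theorem lim_le {K : Set (P n)} (hK : IsCompact K) {Φ : P n × ℝ × ℝ → ℝ}
    (hΦ : ContinuousOn Φ (K ×ˢ closedBall 0 (1 / 2)))
    (h : ∀ ε ∈ Ioc (0 : ℝ) (1 / 2), ∃ s : P n → ℝ, ContinuousOn s K ∧ (∀ q ∈ K, |s q| ≤ ε) ∧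
      ∫ q in K, Φ (q, s q, ε) ≤ 0) : ∫ q in K, Φ (q, 0) ≤ 0 := by
  refine le_of_forall_pos_le_add fun θ hθ => ?_
  have hv : 0 < volume.real K + 1 := by positivity
  obtain ⟨r, hr, hu⟩ := Metric.uniformContinuousOn_iff.1
    ((hK.prod (isCompact_closedBall _ _)).uniformContinuousOn_of_continuous hΦ) _ (div_pos hθ hv)
  have he : min (r / 2) (1 / 2) ∈ Ioc (0 : ℝ) (1 / 2) :=
    ⟨lt_min (half_pos hr) one_half_pos, min_le_right _ _⟩
  obtain ⟨s, hs, hb, hi⟩ := h _ he
  have hn : ∀ q ∈ K, ‖(s q, min (r / 2) (1 / 2))‖ ≤ min (r / 2) (1 / 2) := fun q hq => by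
    rw [Prod.norm_mk]
    exact max_le (hb q hq) (Real.norm_of_nonneg he.1.le).le
  have hm : ∀ q ∈ K, (q, s q, min (r / 2) (1 / 2)) ∈ K ×ˢ closedBall (0 : ℝ × ℝ) (1 / 2) :=
    fun q hq => ⟨hq, mem_closedBall_zero_iff.2 ((hn q hq).trans he.2)⟩
  have hm0 : ∀ q ∈ K, (q, (0 : ℝ × ℝ)) ∈ K ×ˢ closedBall (0 : ℝ × ℝ) (1 / 2) :=
    fun q hq => ⟨hq, mem_closedBall_self one_half_pos.le⟩
  have h1 : IntegrableOn (fun q => Φ (q, s q, min (r / 2) (1 / 2))) K :=
    (hΦ.comp (continuousOn_id.prodMk (hs.prodMk continuousOn_const)) hm).integrableOn_compact hK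
  have h2 : IntegrableOn (fun q => Φ (q, 0)) K :=
    (hΦ.comp (continuousOn_id.prodMk continuousOn_const) hm0).integrableOn_compact hK
  have h3 : IntegrableOn (fun _ : P n => θ / (volume.real K + 1)) K :=
    continuousOn_const.integrableOn_compact hK
  have h4 := setIntegral_mono_on h2 (h1.add h3) hK.measurableSet fun q hq => by
    have h5 := hu _ (hm q hq) _ (hm0 q hq) (by
      rw [Prod.dist_eq, dist_self, dist_zero_right]
      exact max_lt hr ((hn q hq).trans_lt ((min_le_left _ _).trans_lt (half_lt_self hr))))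
    rw [Real.dist_eq] at h5
    simp only [Pi.add_apply]
    linarith [(abs_lt.1 h5).1]
  simp only [Pi.add_apply] at h4
  rw [integral_add h1 h3, setIntegral_const, smul_eq_mul] at h4
  have h6 : volume.real K * (θ / (volume.real K + 1)) ≤ θ := by
    rw [mul_div_assoc', div_le_iff₀ hv]
    nlinarith
  linarith

theorem int_eq {K : Set (P n)} {F : P n → ℝ} (h : ∀ q ∉ K, F q = 0) :
    ∫ q, F q = ∫ q in K, F q := (setIntegral_eq_integral_of_forall_compl_eq_zero h).symm

theorem dT_exp (a : P272.K.Cm n → ℝ) {f : P n → ℝ} (hf : ContDiff ℝ ∞ f) (q : P n) :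
    dT (fun p => a p.2 * Real.exp (-f p)) q = a q.2 * (Real.exp (-f q) * -dT f q) := by
  rw [dT_eq (diff_one hf q)]
  exact ((hasDerivAt_slice (diff_one hf q)).neg.exp.const_mul (a q.2)).deriv

/-- the pointwise inequality -/
theorem ptw {T D a x f m δ η ε c C : ℝ} (ha : 0 < a) (hη : η ∈ Ioo (0 : ℝ) 1)
    (hε : ε ∈ Ioo (0 : ℝ) 1) (hδ : 0 ≤ δ) (h1 : |x| ≤ c) (h2 : x ≤ C)
    (h3 : (1 - ε) * ((1 - η) * (Real.exp (m - δ) * (D / a)) * T) ≤ x) :
    T * D + a * (Real.exp (-f) * -x) - a * (|Real.exp (-m) - Real.exp (-f)| * c +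
      C * ((Real.exp δ / (1 - η) / (1 - ε) - 1) * Real.exp (-m))) ≤ 0 := by
  have e1 : 0 < 1 - η := sub_pos.2 hη.2
  have e2 : 0 < 1 - ε := sub_pos.2 hε.2
  have hw : 1 ≤ Real.exp δ / (1 - η) / (1 - ε) := by
    rw [le_div_iff₀ e2, le_div_iff₀ e1]
    nlinarith [Real.one_le_exp hδ, hη.1, hε.1]
  have e3 : T * D = a * (Real.exp δ / (1 - η) / (1 - ε) * Real.exp (-m)) *
      ((1 - ε) * ((1 - η) * (Real.exp (m - δ) * (D / a)) * T)) := by
    rw [Real.exp_sub, Real.exp_neg]
    field_simp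
  have e4 := mul_le_mul_of_nonneg_left h3
    (show 0 ≤ a * (Real.exp δ / (1 - η) / (1 - ε) * Real.exp (-m)) by positivity)
  have e5 : (Real.exp (-m) - Real.exp (-f)) * x ≤ |Real.exp (-m) - Real.exp (-f)| * c :=
    (le_abs_self _).trans ((abs_mul _ _).trans_le (mul_le_mul_of_nonneg_left h1 (abs_nonneg _)))
  have e6 := mul_le_mul_of_nonneg_right h2
    (mul_nonneg (sub_nonneg.2 hw) (Real.exp_pos (-m)).le)
  rw [← e3] at e4
  nlinarith [mul_le_mul_of_nonneg_left (add_le_add e5 e6) ha.le]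

end Mol

open Mol

/-- **MOL** -/
theorem mol_row : MOL' := by
  intro hV hI n U g a u L l δ η C hg ha ha0 hu hR χ hχ k
  obtain ⟨c, hc⟩ := hR.lip k
  obtain ⟨m, hm, hlm⟩ := hc.extend_real
  obtain ⟨h₀, hh, one⟩ := hR.one k
  have hK : IsCompact (tsupport χ) := hχ.2.2.1
  have hKU := hχ.2.2.2
  have hη := hR.η_mem k
  have cg : ContinuousOn g U :=
    continuousOn_pi.2 fun i => continuousOn_pi.2 fun j => (hg.sm i j).continuousOn
  have cD := contOn_det cg
  have ca := ha.continuousOn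
  have cδ := hR.cδ k
  have cχ := hχ.1.continuous
  have cm := hm.continuous
  have cT := contOn_trg cg hg.pos hχ.1
  have cd := continuous_dT hχ.1
  have hD : ∀ q ∈ U, 0 < (g q).det.re := fun q hq => (Complex.pos_iff.1 (hg.pos q hq).det_pos).1
  have z0 : ∀ q ∉ tsupport χ, χ q = 0 := fun q hq => image_eq_zero_of_notMem_tsupport hq
  let β : P n → ℝ := fun q => (1 - η k) * (Real.exp (m q - δ k q) * ((g q).det.re / a q.2))
  have hβ : ∀ q ∈ U, 0 < β q := fun q hq =>
    mul_pos (sub_pos.2 hη.2) (mul_pos (Real.exp_pos _) (div_pos (hD q hq) (ha0 q hq)))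
  have cβ : ContinuousOn β U := continuousOn_const.mul
    ((cm.continuousOn.sub cδ).rexp.mul (cD.div ca fun q hq => (ha0 q hq).ne'))
  have cG : ContinuousOn (fun q => (β q : ℂ) • (g q)⁻¹) U :=
    (Complex.continuous_ofReal.comp_continuousOn cβ).smul (contOn_inv cg hg.pos)
  have hG : ∀ q ∈ U, ((β q : ℂ) • (g q)⁻¹).PosDef := fun q hq =>
    (hg.pos q hq).inv.smul (Complex.zero_lt_real.2 (hβ q hq))
  have vis : ∀ q ∈ U, ∀ φ, Tch m φ q → ∀ A : Mx n, A.PosSemidef →
      ((β q : ℂ) • (g q)⁻¹ - A).PosSemidef → (A * cH φ q).trace.re ≤ dT φ q := by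
    intro q hq φ hφ A hA hA'
    have h0 : (0 : ℂ) ≤ ((β q)⁻¹ : ℝ) := Complex.zero_le_real.2 (inv_pos.2 (hβ q hq)).le
    have h1 := hR.vis k q hq φ ⟨hφ.1, ?_, hφ.2.2.trans (hlm hq).symm⟩ _ (hA.smul h0) (by
      convert hA'.smul h0 using 1
      rw [smul_sub, smul_smul, ← Complex.ofReal_mul, inv_mul_cancel₀ (hβ q hq).ne',
        Complex.ofReal_one, one_smul])
    · rw [Matrix.smul_mul, Matrix.trace_smul, smul_eq_mul, Complex.re_ofReal_mul, Real.exp_sub _ (u q),
        hu q hq, Real.exp_log (div_pos (ha0 q hq) (hD q hq)), hlm hq, div_eq_mul_inv, inv_div,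
        ← mul_assoc] at h1
      rwa [show (1 - η k) * (Real.exp (m q - δ k q) * ((g q).det.re / a q.2)) * (β q)⁻¹ = 1 from
        mul_inv_cancel₀ (hβ q hq).ne', one_mul] at h1
    · filter_upwards [hφ.2.1, hg.op.mem_nhds hq] with p h2 h3
      rwa [hlm h3]
  have one' : ∀ q ∈ U, ∀ h ∈ Icc 0 h₀, (q.1 + h, q.2) ∈ U → m (q.1 + h, q.2) ≤ m q + C * h :=
    fun q hq h h1 h2 => by
      rw [← hlm hq, ← hlm h2]
      exact one q hq h h1 h2
  let R : P n × ℝ × ℝ → ℝ := fun x => χ x.1 * (a x.1.2 *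
    (|Real.exp (-m x.1) - Real.exp (-(m x.1 + x.2.1))| * c +
      C * ((Real.exp (δ k x.1) / (1 - η k) / (1 - x.2.2) - 1) * Real.exp (-m x.1))))
  have up : ∀ {F : P n → ℝ}, ContinuousOn F U → ContinuousOn (fun x : P n × ℝ × ℝ => F x.1)
      (tsupport χ ×ˢ closedBall 0 (1 / 2)) := fun hF =>
    hF.comp continuous_fst.continuousOn fun _ h => hKU h.1
  have cs : ContinuousOn (fun x : P n × ℝ × ℝ => m x.1 + x.2.1)
      (tsupport χ ×ˢ closedBall 0 (1 / 2)) :=
    (up cm.continuousOn).add continuous_snd.fst.continuousOn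
  have cR : ContinuousOn R (tsupport χ ×ˢ closedBall 0 (1 / 2)) := by
    have h1 := (up cm.continuousOn).neg.rexp
    refine (up cχ.continuousOn).mul ((up ca).mul (((h1.sub cs.neg.rexp).abs.mul
      continuousOn_const).add (continuousOn_const.mul (((((up cδ).rexp.div_const _).div
        (continuousOn_const.sub continuous_snd.snd.continuousOn) fun x hx => ?_).sub
          continuousOn_const).mul h1))))
    have h2 := (norm_snd_le x.2).trans (mem_closedBall_zero_iff.1 hx.2)
    have h3 := (abs_le.1 h2).2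
    exact (sub_pos.2 (by linarith)).ne'
  have it : ∀ {F : P n → ℝ}, ContinuousOn F U → IntegrableOn F (tsupport χ) := fun hF =>
    (hF.mono hKU).integrableOn_compact hK
  have key := lim_le hK (Φ := fun x => (m x.1 + x.2.1) * trg (g x.1) (cH χ x.1) * (g x.1).det.re -
    a x.1.2 * Real.exp (-(m x.1 + x.2.1)) * dT χ x.1 - R x)
    ((((cs.mul (up cT)).mul (up cD)).sub (((up ca).mul cs.neg.rexp).mul
      (up cd.continuousOn))).sub cR) fun ε hε => by
    have hε1 : ε < 1 := hε.2.trans_lt one_half_lt_one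
    obtain ⟨f, hf, hfK⟩ := moll hV hK hg.op hKU hm cG hG vis hh one' hε.1 hε1
    have cf := hf.continuous
    refine ⟨fun q => f q - m q, (cf.sub cm).continuousOn, fun q hq => (hfK q hq).1, ?_⟩
    have i1 := (hI n U g f χ hg hf.contDiffOn hχ).1
    have i2 := (hI n U g (fun p => a p.2 * Real.exp (-f p)) χ hg
      (ha.mul hf.neg.exp.contDiffOn) hχ).2
    rw [int_eq fun q hq => by rw [trg_zero _ hχ.1 hq, mul_zero, zero_mul],
      int_eq (F := fun q => χ q * trg (g q) (cH f q) * (g q).det.re) fun q hq => by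
        rw [z0 q hq, zero_mul, zero_mul]] at i1
    simp only [dT_exp a hf] at i2
    rw [int_eq fun q hq => by rw [dT_zero hχ.1 hq, mul_zero],
      int_eq (F := fun q => χ q * (a q.2 * (Real.exp (-f q) * -dT f q))) fun q hq => by
        rw [z0 q hq, zero_mul]] at i2
    have j1 := it (F := fun q => f q * trg (g q) (cH χ q) * (g q).det.re)
      ((cf.continuousOn.mul cT).mul cD)
    have j2 := it (F := fun q => χ q * trg (g q) (cH f q) * (g q).det.re)
      ((cχ.continuousOn.mul (contOn_trg cg hg.pos hf)).mul cD)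
    have j3 := it (F := fun q => a q.2 * Real.exp (-f q) * dT χ q)
      ((ca.mul cf.neg.rexp.continuousOn).mul cd.continuousOn)
    have j4 := it (F := fun q => χ q * (a q.2 * (Real.exp (-f q) * -dT f q)))
      (cχ.continuousOn.mul (ca.mul (cf.neg.rexp.mul (continuous_dT hf).neg).continuousOn))
    have j5 : IntegrableOn (fun q => R (q, f q - m q, ε)) (tsupport χ) :=
      (cR.comp (continuousOn_id.prodMk ((cf.sub cm).continuousOn.prodMk continuousOn_const))
        fun q hq => ⟨hq, mem_closedBall_zero_iff.2 (by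
          rw [Prod.norm_mk]
          exact max_le ((hfK q hq).1.trans hε.2)
            ((Real.norm_of_nonneg hε.1.le).trans_le hε.2))⟩).integrableOn_compact hK
    simp only [add_sub_cancel]
    have k1 := integral_sub (j1.sub j3) j5
    have k2 := integral_sub (j2.add j4) j5
    simp only [Pi.sub_apply, Pi.add_apply] at k1 k2
    rw [k1, integral_sub j1 j3, i1, i2, sub_neg_eq_add, ← integral_add j2 j4, ← k2]
    refine setIntegral_nonpos hK.measurableSet fun q hq => ?_
    obtain ⟨-, h1, h2, h3⟩ := hfK q hq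
    rw [Matrix.smul_mul, Matrix.trace_smul, smul_eq_mul, Complex.re_ofReal_mul] at h3
    have h4 := mul_nonpos_of_nonneg_of_nonpos (hχ.2.1 q) (ptw (f := f q) (ha0 q (hKU hq)) hη
      ⟨hε.1, hε1⟩ (hR.bd k q (hKU hq)).2.1 h1 h2 h3)
    refine le_trans (le_of_eq ?_) h4
    simp only [R, add_sub_cancel, trg]
    ring
  have cl : ContinuousOn (l k) U := hc.continuousOn
  have j1 := it (F := fun q => l k q * trg (g q) (cH χ q) * (g q).det.re) ((cl.mul cT).mul cD)
  have j2 := it (F := fun q => dT χ q * a q.2 * Real.exp (-l k q))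
    ((cd.continuousOn.mul ca).mul cl.neg.rexp)
  have j3 := it (F := fun q => χ q * a q.2 *
    ((Real.exp (δ k q) / (1 - η k) - 1) * Real.exp (-l k q))) ((cχ.continuousOn.mul ca).mul
      (((cδ.rexp.div_const (1 - η k)).sub (continuousOn_const (c := 1))).mul cl.neg.rexp))
  have k1 := integral_sub j1 (j2.add (j3.const_mul C))
  simp only [Pi.add_apply] at k1
  rw [int_eq fun q hq => by rw [trg_zero _ hχ.1 hq, mul_zero, zero_mul],
    int_eq (F := fun q => dT χ q * a q.2 * Real.exp (-l k q)) fun q hq => by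
      rw [dT_zero hχ.1 hq, zero_mul, zero_mul],
    int_eq (F := fun q => χ q * a q.2 * ((Real.exp (δ k q) / (1 - η k) - 1) * Real.exp (-l k q)))
      fun q hq => by rw [z0 q hq, zero_mul, zero_mul],
    ← integral_const_mul, ← integral_add j2 (j3.const_mul C), ← sub_nonpos, ← k1]
  refine le_trans (le_of_eq (setIntegral_congr_fun hK.measurableSet fun q hq => ?_)) key
  simp only [R, hlm (hKU hq), Prod.fst_zero, Prod.snd_zero, add_zero, sub_self,
    abs_zero, sub_zero, div_one]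
  ring

end Vale.Agent.P253W.V
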