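import Vale.Agent.P253W.V.Grn

/-!
# P253W, block V: row PA (interpolation in a holomorphic family)
-/

open scoped ContDiff Topology
open MeasureTheory Set Metric Filter Complex
open Vale.Agent.P253.R2.H451 (levi2)

noncomputable section

namespace Vale.Agent.P253W.V

open GrnL

namespace PaL

/-- the polar form of `levi2` -/
def bf (D : ℂ × ℂ →L[ℝ] ℂ × ℂ →L[ℝ] ℝ) (U V : ℂ × ℂ) : ℝ := D U V + D (I • U) (I • V)

theorem cs {D : ℂ × ℂ →L[ℝ] ℂ × ℂ →L[ℝ] ℝ} (hs : ∀ U V, D U V = D V U)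
    (hp : ∀ V, 0 ≤ bf D V V) {U V : ℂ × ℂ} {α β : ℝ} (hU : bf D U U ≤ α) (hV : bf D V V ≤ β) :
    |bf D V U| ≤ √(α * β) := by
  have h : discrim (bf D V V) (2 * bf D V U) (bf D U U) ≤ 0 := discrim_le_zero fun t => by
    have h1 := hp (U + t • V)
    have e : I • (U + t • V) = I • U + t • (I • V) := by rw [smul_add, smul_comm]
    simp only [bf, e, map_add, map_smul, add_apply,
      smul_apply, smul_eq_mul] at h1 ⊢
    rw [hs U V, hs (I • U) (I • V)] at h1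
    linarith
  refine Real.abs_le_sqrt ?_
  have := mul_le_mul hU hV (hp V) ((hp U).trans hU)
  unfold discrim at h
  nlinarith

variable {N : ℂ × ℂ → ℝ} {s τ : ℂ}

/-- a first derivative on the slice -/
def sl (N : ℂ × ℂ → ℝ) (W : ℂ × ℂ) (s τ : ℂ) : ℝ := fderiv ℝ N (s, τ) W

theorem sl_at (h : ContDiffAt ℝ 2 N (s, τ)) (W : ℂ × ℂ) : ContDiffAt ℝ 1 (sl N W s) τ :=
  ((h.fderiv_right (m := 1) (by norm_num)).comp τ
    (contDiffAt_const.prodMk contDiffAt_id)).clm_apply contDiffAt_const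

theorem dd_sl (h : ContDiffAt ℝ 2 N (s, τ)) (W : ℂ × ℂ) (a : ℂ) :
    dd a (sl N W s) τ = fderiv ℝ (fderiv ℝ N) (s, τ) (0, a) W := by
  have h1 : HasFDerivAt (fderiv ℝ N) (fderiv ℝ (fderiv ℝ N) (s, τ)) (s, τ) :=
    ((h.fderiv_right (m := 1) (by norm_num)).differentiableAt one_ne_zero).hasFDerivAt
  have h2 := (h1.comp τ (hasFDerivAt_prodMk_right (𝕜 := ℝ) s τ)).clm_apply
    (hasFDerivAt_const W τ)
  change fderiv ℝ (fun y => (fderiv ℝ N ∘ fun e => (s, e)) y W) τ a = _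
  rw [h2.fderiv]
  simp

/-- the estimate on one slice -/
theorem slice {χ : ℂ → ℝ} {S : Set ℂ} {α β : ℝ} (hχ : ContDiff ℝ ∞ χ) (hS : IsCompact S)
    (hs : tsupport (fderiv ℝ χ) ⊆ S) (hN : ∀ τ ∈ S, ContDiffAt ℝ 2 N (s, τ))
    (hl : ∀ τ ∈ S, (∀ V, 0 ≤ levi2 N (s, τ) V) ∧ levi2 N (s, τ) (1, 0) ≤ α ∧
      levi2 N (s, τ) (0, 1) ≤ β) :
    ‖∫ τ, sl N (1, 0) s τ * Lp χ τ‖ ≤ (∫ τ, (|dd 1 χ τ| + |dd I χ τ|)) * √(α * β) := by
  have hd : ∀ a, tsupport (dd a χ) ⊆ S := fun a => (tsupport_dd a).trans hs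
  have hu : ∀ W, ∀ τ ∈ S, ContDiffAt ℝ 1 (sl N W s) τ := fun W τ hτ => sl_at (hN τ hτ) W
  have huc : ∀ W, ContinuousOn (sl N W s) S := fun W τ hτ =>
    (hu W τ hτ).continuousAt.continuousWithinAt
  have i1 : ∀ W a b, Integrable fun τ => sl N W s τ * dd a (dd b χ) τ := fun W a b =>
    intg₂ hS (huc W) (dd_smooth hχ b) (hd b) a
  have i2 : ∀ W a b, Integrable fun τ => dd a (sl N W s) τ * dd b χ τ := fun W a b =>
    intg₁ hS (dd_cont (hu W) a) (dd_smooth hχ b) (hd b)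
  have p : ∀ W a b, ∫ τ, sl N W s τ * dd a (dd b χ) τ = -∫ τ, dd a (sl N W s) τ * dd b χ τ :=
    fun W a b => ibp hS (hu W) (dd_smooth hχ b) (hd b) a
  have e1 : (fun τ => sl N (1, 0) s τ * Lp χ τ) = fun τ =>
      sl N (1, 0) s τ * dd 1 (dd 1 χ) τ + sl N (1, 0) s τ * dd I (dd I χ) τ := funext fun τ => by
    rw [lp_eq (hχ.contDiffAt.of_le two_le), mul_add]
  have e2 : ∫ τ, dd I (sl N (I, 0) s) τ * dd 1 χ τ = ∫ τ, dd 1 (sl N (I, 0) s) τ * dd I χ τ := by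
    rw [← neg_inj, ← p, ← p]
    simp only [dd_comm (hχ.contDiffAt.of_le two_le) I 1]
  have e3 : ∫ τ, sl N (1, 0) s τ * Lp χ τ =
      -∫ τ, ((dd 1 (sl N (1, 0) s) τ * dd 1 χ τ + dd I (sl N (I, 0) s) τ * dd 1 χ τ) +
        (dd I (sl N (1, 0) s) τ * dd I χ τ - dd 1 (sl N (I, 0) s) τ * dd I χ τ)) := by
    rw [e1, integral_add (i1 _ _ _) (i1 _ _ _), p, p,
      integral_add ((i2 _ _ _).fun_add (i2 _ _ _)) ((i2 _ _ _).sub' (i2 _ _ _)),
      integral_add (i2 _ _ _) (i2 _ _ _), integral_sub (i2 _ _ _) (i2 _ _ _), e2]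
    ring
  have i3 : ∀ a, Integrable fun τ => |dd a χ τ| := fun a => by
    simpa using (intg₁ (u := fun _ => 1) hS continuousOn_const (dd_smooth hχ a) (hd a)).abs
  rw [e3, norm_neg, ← integral_mul_const]
  refine norm_integral_le_of_norm_le (((i3 1).add (i3 I)).mul_const _)
    (Eventually.of_forall fun τ => ?_)
  by_cases hτ : τ ∈ S
  · obtain ⟨h0, h1, h2⟩ := hl τ hτ
    have hsy : ∀ U V, fderiv ℝ (fderiv ℝ N) (s, τ) U V = fderiv ℝ (fderiv ℝ N) (s, τ) V U :=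
      (hN τ hτ).isSymmSndFDerivAt (by simp)
    have a1 := cs hsy h0 h1 h2
    have m : ((0 : ℂ), (-1 : ℂ)) = -((0 : ℂ), (1 : ℂ)) := by simp
    have h3 : bf (fderiv ℝ (fderiv ℝ N) (s, τ)) (0, I) (0, I) ≤ β := by
      refine le_trans (le_of_eq ?_) h2
      simp only [bf, levi2, Prod.smul_mk, smul_eq_mul, mul_zero, mul_one, I_mul_I, m, map_neg,
        neg_apply, neg_neg]
      ring
    have a2 := cs hsy h0 h1 h3
    simp only [bf, Prod.smul_mk, smul_eq_mul, mul_zero, mul_one, I_mul_I, m, map_neg,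
      neg_apply, ← sub_eq_add_neg] at a1 a2
    simp only [dd_sl (hN τ hτ)]
    rw [← add_mul, ← sub_mul, Real.norm_eq_abs, add_mul _ _ (√(α * β))]
    refine (abs_add_le _ _).trans (add_le_add ?_ ?_)
    · rw [abs_mul, mul_comm]
      exact mul_le_mul_of_nonneg_left a1 (abs_nonneg _)
    · rw [abs_mul, mul_comm]
      exact mul_le_mul_of_nonneg_left a2 (abs_nonneg _)
  · have z : ∀ a, dd a χ τ = 0 := fun a => image_eq_zero_of_notMem_tsupport fun h => hτ (hd a h)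
    simp [z]

end PaL

open PaL

theorem pa_row : PA := by
  intro χ S hχ hS hs
  refine ⟨∫ τ, (|dd 1 χ τ| + |dd I χ τ|), integral_nonneg fun τ => by positivity,
    fun O N α β hO hN h => ?_⟩
  have hN' : ∀ σ ∈ Icc (0 : ℝ) 1, ∀ τ ∈ S, ContDiffAt ℝ 2 N (σ, τ) := fun σ hσ τ hτ =>
    hN.contDiffAt (hO.mem_nhds (h σ hσ τ hτ).1)
  have hz : ∀ τ ∉ S, Lp χ τ = 0 := fun τ hτ => lp_zero fun h => hτ (hs h)
  have hL : Continuous (Lp χ) := by
    have e : Lp χ = fun τ => dd 1 (dd 1 χ) τ + dd I (dd I χ) τ :=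
      funext fun τ => lp_eq (hχ.contDiffAt.of_le two_le)
    rw [e]
    exact (dd_smooth (dd_smooth hχ 1) 1).continuous.add (dd_smooth (dd_smooth hχ I) I).continuous
  have hc : ContinuousOn (fun p : ℝ × ℂ => sl N (1, 0) p.1 p.2) (Icc 0 1 ×ˢ S) := fun p hp => by
    have a : ContinuousAt (fderiv ℝ N) (p.1, p.2) :=
      ((hN' p.1 hp.1 p.2 hp.2).fderiv_right (m := 1) (by norm_num)).continuousAt
    have b : ContinuousAt (fun p : ℝ × ℂ => ((p.1 : ℂ), p.2)) p := by fun_prop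
    exact ((ContinuousAt.comp (f := fun p : ℝ × ℂ => ((p.1 : ℂ), p.2)) a b).clm_apply
      continuousAt_const).continuousWithinAt
  have hi : Integrable (Function.uncurry fun (σ : ℝ) (τ : ℂ) => sl N (1, 0) σ τ * Lp χ τ)
      ((volume.restrict (uIoc (0 : ℝ) 1)).prod volume) := by
    rw [Measure.restrict_prod_eq_prod_univ]
    have a : IntegrableOn (fun p : ℝ × ℂ => sl N (1, 0) p.1 p.2 * Lp χ p.2) (Icc 0 1 ×ˢ S)
        (volume.prod volume) :=
      (hc.mul (hL.comp continuous_snd).continuousOn).integrableOn_compact (isCompact_Icc.prod hS)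
    refine a.of_forall_sdiff_eq_zero (measurableSet_uIoc.prod MeasurableSet.univ) fun p hp => ?_
    have h1 : p.1 ∈ Icc (0 : ℝ) 1 := by
      have := hp.1.1
      rw [uIoc_of_le zero_le_one] at this
      exact Ioc_subset_Icc_self this
    rw [hz p.2 fun h2 => hp.2 ⟨h1, h2⟩, mul_zero]
  have e : (fun τ => (N (1, τ) - N (0, τ)) * Lp χ τ) =
      fun τ => ∫ σ in (0 : ℝ)..1, sl N (1, 0) σ τ * Lp χ τ := funext fun τ => by
    by_cases hτ : τ ∈ S
    · rw [intervalIntegral.integral_mul_const]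
      congr 1
      have a := intervalIntegral.integral_eq_sub_of_hasDerivAt (a := 0) (b := 1)
        (f := fun σ : ℝ => N (σ, τ)) (f' := fun σ : ℝ => sl N (1, 0) σ τ) (fun σ hσ => by
          rw [uIcc_of_le zero_le_one] at hσ
          exact ((hN' σ hσ τ hτ).differentiableAt two_ne_zero).hasFDerivAt.comp_hasDerivAt σ
            ((Complex.ofRealCLM.hasDerivAt (x := σ)).prodMk (hasDerivAt_const σ τ)))
        (ContinuousOn.intervalIntegrable_of_Icc zero_le_one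
          (hc.comp (continuousOn_id.prodMk continuousOn_const) fun σ hσ => ⟨hσ, hτ⟩))
      simpa using a.symm
    · simp [hz τ hτ]
  rw [e, ← intervalIntegral_integral_swap hi]
  refine (le_abs_self _).trans ?_
  have b := intervalIntegral.norm_integral_le_of_norm_le_const (a := 0) (b := 1)
    (f := fun σ : ℝ => ∫ τ, sl N (1, 0) σ τ * Lp χ τ)
    (C := (∫ τ, (|dd 1 χ τ| + |dd I χ τ|)) * √(α * β)) fun σ hσ => by
      rw [uIoc_of_le zero_le_one] at hσ
      have hσ' := Ioc_subset_Icc_self hσ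
      exact slice hχ hS hs (hN' σ hσ') fun τ hτ => (h σ hσ' τ hτ).2
  simpa using b

end Vale.Agent.P253W.V
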