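import Vale.Agent.P253W.V.Defs
import Vale.Agent.P253Z.B1a.Ch
import Vale.Agent.P272.K.C2.PosLin
import Mathlib.Analysis.Convex.Deriv

/-!
# P253W, block V, row S3G: monotone and convex quantities, growth
-/

open scoped Manifold ContDiff Bundle ENNReal NNReal Topology ComplexConjugate ComplexOrder Matrix
open Bundle IsManifold MeasureTheory Set Metric Filter Vale.Agent.P253.Mfd Vale.Agent.P253Z
open Vale.Agent.P272.K (Cm dz dzb cHess jacM Chart)
open Vale.Agent.P272.K.C2

noncomputable section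

namespace Vale.Agent.P253W.V

theorem s3g_row : S3G := by
  intro n M _ _ _ _ _ _ _ _ _ _ _ _ μ F _ hI lfc h1 h2 hL lf
  have ch := B1aP.chart (n := n) (M := M)
  have tg := fun x : M => mem_chart_target (Cm n) x
  have li : ∀ x : M, (pc n x).symm (pc n x x) = x := fun x =>
    (pc n x).left_inv (mem_chart_source _ x)
  have eR : ∀ t, 0 ≤ t → ∀ e : Chart n M, Hc e → ∀ z ∈ e.target,
      tR (fun t => F.g t e) t z = t * F.R t (e.symm z) := fun t ht e he z hz => by
    rw [tR, rho, ← h2.u_hs t ht e he z hz, ← h1.lap_eq t ht _ e he z hz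
      ((h1.sm_at _ h1.u_sm t ht e he z hz).of_le (by norm_cast)), Flow.R]
  have dR : ∀ t, 0 < t → ∀ e : Chart n M, Hc e → ∀ z ∈ e.target,
      HasDerivAt (fun s => s * F.R s (e.symm z))
        (trg (F.g t e z) (Ktt (fun t => F.g t e) t z) / t) t := fun t ht e he z hz =>
    ((lfc n _ _ (lf e he)).tR_t t ht z hz).congr_of_eventuallyEq
      (mem_of_superset (Ioi_mem_nhds ht) fun s hs => (eR s (le_of_lt hs) e he z hz).symm)
  have ct : ∀ f : ℝ → M → ℝ, SmT n (Ici 0) f → ∀ x, ContinuousOn (fun t => f t x) (Ici 0) :=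
    fun f hf x => (h1.sm_cont f hf).comp (f := fun t => (t, x)) (by fun_prop)
      fun t ht => ⟨ht, mem_univ x⟩
  have m1 : ∀ x, MonotoneOn (fun t => t * F.R t x) (Ici 0) := fun x => by
    have d := fun t ht => dR t ht _ (ch x) _ (tg x)
    simp only [li] at d
    refine monotoneOn_of_deriv_nonneg (convex_Ici 0) (continuousOn_id.mul (ct _ h1.R_sm x))
      (fun t ht => ?_) fun t ht => ?_ <;> rw [interior_Ici] at ht
    · exact (d t ht).differentiableAt.differentiableWithinAt
    · rw [(d t ht).deriv]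
      exact div_nonneg (Complex.nonneg_iff.1 (trace_mul_nonneg
        (hI.pos t (le_of_lt ht) _ (ch x) _ (tg x)).inv.posSemidef
        ((lfc n _ _ (lf _ (ch x))).ktt t ht _ (tg x)).1)).1 (le_of_lt ht)
  have up : ∀ x t s, 0 ≤ t → 0 ≤ s → F.u t x * s ≤ F.ψ (t + s) x - F.ψ t x := fun x t s ht hs => by
    have := (convex_Ici t).mul_sub_le_image_sub_of_le_deriv (C := F.u t x)
      ((ct _ hI.sm x).mono (Ici_subset_Ici.2 ht)) (fun r hr => ?_) (fun r hr => ?_) t
      self_mem_Ici (t + s) (le_add_of_nonneg_right hs) (le_add_of_nonneg_right hs)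
    · rwa [add_sub_cancel_left] at this
    all_goals rw [interior_Ici] at hr
    · exact (hI.eq r (ht.trans_lt hr) x).differentiableAt.differentiableWithinAt
    · rw [(hI.eq r (ht.trans_lt hr) x).deriv]
      exact hI.mono x ht (ht.trans (le_of_lt hr)) (le_of_lt hr)
  have ur : ∀ x t, 0 < t → t * F.R t x ≤ 2 * (F.u (2 * t) x - F.u t x) := fun x t ht => by
    have := (convex_Icc t (2 * t)).mul_sub_le_image_sub_of_le_deriv (C := F.R t x / 2)
      ((ct _ h1.u_sm x).mono fun r hr => ht.le.trans hr.1) (fun r hr => ?_) (fun r hr => ?_) t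
      ⟨le_rfl, by linarith⟩ (2 * t) ⟨by linarith, le_rfl⟩ (by linarith)
    · linarith
    all_goals rw [interior_Icc] at hr
    · exact (h2.u_t r (ht.trans hr.1) x).differentiableAt.differentiableWithinAt
    · rw [(h2.u_t r (ht.trans hr.1) x).deriv]
      have h3 : t * F.R t x ≤ r * F.R r x := m1 x ht.le (ht.trans hr.1).le hr.1.le
      nlinarith [h2.R_nonneg r (ht.trans hr.1).le x, hr.2]
  obtain ⟨C₀, hC₀⟩ := h2.psi_up
  have pu : ∀ t, 0 ≤ t → ∀ x, F.ψ t x ≤ |C₀| * (1 + t) * (1 + t + F.r x) := fun t ht x => by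
    have : 0 ≤ F.r x := dist_nonneg
    refine (hC₀ t ht x).trans ?_
    gcongr
    exact le_abs_self C₀
  refine ⟨m1, fun x => ?_, fun x ξ hξ => ?_, fun t ht e he z hz X => ?_, fun x => ?_, ?_⟩
  · have d : ∀ σ, HasDerivAt (fun σ => F.u (Real.exp σ) x) (F.R (Real.exp σ) x * Real.exp σ) σ :=
      fun σ => (h2.u_t _ (Real.exp_pos σ) x).comp σ (Real.hasDerivAt_exp σ)
    refine Monotone.convexOn_univ_of_deriv (fun σ => (d σ).differentiableAt) fun a b hab => ?_
    rw [(d a).deriv, (d b).deriv, mul_comm, mul_comm (F.R _ _)]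
    exact m1 x (Real.exp_pos a).le (Real.exp_pos b).le (Real.exp_le_exp.2 hab)
  · have lc := lfc n _ _ (lf _ (ch x))
    have d : ∀ σ, HasDerivAt (fun σ => Real.log (F.H (Real.exp σ) x ξ))
        (lam (fun t => F.g t (pc n x)) (pc n x x) ξ (Real.exp σ) / F.H (Real.exp σ) x ξ) σ :=
      fun σ => (((lc.hq_t _ (Real.exp_pos σ) _ (tg x) ξ).comp σ (Real.hasDerivAt_exp σ)).log
        (h2.H_pos _ (Real.exp_pos σ).le x ξ hξ).ne').congr_deriv (by
          rw [div_mul_cancel₀ _ (Real.exp_pos σ).ne']; rfl)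
    choose! D hD using fun t ht => lc.lam_t t ht _ (tg x) ξ hξ
    have m : MonotoneOn (fun t => lam (fun t => F.g t (pc n x)) (pc n x x) ξ t / F.H t x ξ)
        (Ioi 0) := by
      refine monotoneOn_of_deriv_nonneg (convex_Ioi 0)
        (fun t ht => (hD t ht).1.continuousAt.continuousWithinAt) (fun t ht => ?_) fun t ht => ?_ <;>
        rw [interior_Ioi] at ht
      · exact (hD t ht).1.differentiableAt.differentiableWithinAt
      · refine le_of_le_of_eq (nonneg_of_mul_nonneg_right (le_trans (div_nonneg ?_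
          (h2.H_pos t (le_of_lt ht) x ξ hξ).le) (hD t ht).2) ht) (hD t ht).1.deriv.symm
        exact (Complex.nonneg_iff.1 ((lc.ktt t ht _ (tg x)).1.dotProduct_mulVec_nonneg _)).1
    refine Monotone.convexOn_univ_of_deriv (fun σ => (d σ).differentiableAt) fun a b hab => ?_
    rw [(d a).deriv, (d b).deriv]
    exact m (Real.exp_pos a) (Real.exp_pos b) (Real.exp_le_exp.2 hab)
  · have := (lfc n _ _ (lf e he)).grad t ht z hz X
    have e1 : (fun y => (tR (fun t => F.g t e) t y : ℂ)) =ᶠ[𝓝 z]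
        fun y => ((t * F.R t (e.symm y) : ℝ) : ℂ) :=
      mem_of_superset (e.open_target.mem_nhds hz) fun y hy => congrArg _ (eR t ht.le e he y hy)
    simp only [dz_congr _ e1] at this
    rwa [(dR t ht e he z hz).deriv, mul_div_cancel₀ _ ht.ne', h2.u_hs t ht.le e he z hz]
  · have r0 : 0 ≤ F.r x := dist_nonneg
    set A := 2 * |C₀| * (2 + F.r x) + |F.u 0 x|
    have A0 : 0 ≤ A := by positivity
    have hu : ∀ t, 0 ≤ t → F.u t x ≤ A * (1 + t) := fun t ht => by
      refine le_of_mul_le_mul_right (((up x t (1 + t) ht (by linarith)).trans (sub_le_sub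
        (pu _ (by linarith) x) (h2.psi_le t ht x).1)).trans ?_) (by linarith : 0 < 1 + t)
      have h3 : -(t * F.u 0 x) ≤ |F.u 0 x| * ((1 + t) * (1 + t)) := by
        nlinarith [neg_abs_le (F.u 0 x), abs_nonneg (F.u 0 x), mul_nonneg ht ht]
      have h4 : 0 ≤ |C₀| * ((1 + t) * (t * F.r x)) := by positivity
      simp only [A]
      nlinarith
    obtain ⟨B, hB⟩ := isCompact_Icc.exists_bound_of_continuousOn
      ((ct _ h1.R_sm x).mono (Icc_subset_Ici_self : Icc (0 : ℝ) 1 ⊆ _))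
    have B0 : 0 ≤ B := (norm_nonneg _).trans (hB 0 ⟨le_rfl, zero_le_one⟩)
    refine ⟨6 * A + 2 * |F.u 0 x| + B, fun t ht => ⟨(hu t ht).trans (by
      gcongr; linarith [abs_nonneg (F.u 0 x)]), ?_⟩⟩
    rcases le_total t 1 with h | h
    · linarith [(le_abs_self _).trans (hB t ⟨ht, h⟩), abs_nonneg (F.u 0 x)]
    · refine le_of_mul_le_mul_left ((ur x t (by linarith)).trans ?_) (by linarith : 0 < t)
      have h3 : F.u 0 x ≤ F.u t x := hI.mono x self_mem_Ici ht ht
      nlinarith [hu (2 * t) (by linarith), neg_abs_le (F.u 0 x), abs_nonneg (F.u 0 x)]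
  · obtain ⟨b, b1, b2, hb⟩ := hL
    have w1 : ∀ x, 1 + F.r x ≤ (1 + F.r x) ^ (2 * b) := fun x =>
      Real.self_le_rpow_of_one_le (le_add_of_nonneg_right dist_nonneg) (by linarith)
    have hu : ∀ S, ∃ C, 0 ≤ C ∧ ∀ t ∈ Icc 0 S, ∀ x, -(C * (1 + F.r x) ^ (2 * b)) ≤ F.ψ t x ∧
        F.u t x ≤ C * (1 + F.r x) ^ (2 * b) := fun S => by
      obtain ⟨C, hC⟩ := hb S
      refine ⟨|C₀| * (2 + S) ^ 2 + |C|, by positivity, fun t ht x => ?_⟩
      have r0 : 0 ≤ F.r x := dist_nonneg
      have w0 := w1 x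
      have h3 : C * (1 + F.r x) ^ (2 * b) ≤ |C| * (1 + F.r x) ^ (2 * b) :=
        mul_le_mul_of_nonneg_right (le_abs_self C) (by linarith)
      have h4 : |C₀| * (1 + (t + 1)) * (1 + (t + 1) + F.r x) ≤
          |C₀| * (2 + S) ^ 2 * (1 + F.r x) ^ (2 * b) := by
        rw [mul_assoc, mul_assoc, sq, mul_assoc]
        have := ht.1
        have := ht.2
        refine mul_le_mul_of_nonneg_left (mul_le_mul (by linarith) ?_ (by linarith) (by linarith))
          (abs_nonneg _)
        nlinarith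
      have h5 : 0 ≤ |C₀| * (2 + S) ^ 2 * (1 + F.r x) ^ (2 * b) := by positivity
      constructor <;> linarith [hC t ht x, up x t 1 ht.1 zero_le_one, pu (t + 1) (by linarith [ht.1]) x]
    refine ⟨b, b1, b2, fun S => ?_⟩
    obtain ⟨C, C0, hC⟩ := hu (2 * (|S| + 1))
    have S0 := abs_nonneg S
    refine ⟨4 * C, fun t ht x => ?_⟩
    have tS : t ≤ |S| + 1 := by linarith [ht.2, le_abs_self S]
    have w0 : 0 ≤ C * (1 + F.r x) ^ (2 * b) :=
      mul_nonneg C0 (le_trans (add_nonneg zero_le_one dist_nonneg) (w1 x))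
    refine ⟨by linarith [(hC t ⟨ht.1, by linarith⟩ x).2], ?_⟩
    have h3 : t * F.R t x ≤ (|S| + 1) * F.R (|S| + 1) x := m1 x ht.1 (ht.1.trans tS) tS
    have h4 : -(C * (1 + F.r x) ^ (2 * b)) ≤ F.u (|S| + 1) x := by
      have := ((hC (|S| + 1) ⟨by linarith, by linarith⟩ x).1).trans
        (h2.psi_le _ (by linarith) x).2
      by_contra h
      nlinarith
    linarith [ur x (|S| + 1) (by linarith), (hC (2 * (|S| + 1)) ⟨by linarith, le_rfl⟩ x).2]

end Vale.Agent.P253W.V
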