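import Vale.Agent.P253W.V.Bas2
import Vale.Agent.P253W.V.Alg
import Vale.Agent.P253Z.B2

/-!
# P253W, block V, row S3P: pointwise consequences of the matrix Harnack inequality
-/

open scoped Manifold ContDiff Bundle Topology ComplexConjugate ComplexOrder Matrix
open Bundle IsManifold MeasureTheory Set Metric Filter Vale.Agent.P253.Mfd Vale.Agent.P253Z
open Vale.Agent.P272.K (Cm dz dzb cHess jacM Chart)
open Vale.Agent.P272.K.C2

set_option linter.unusedSectionVars false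

noncomputable section

namespace Vale.Agent.P253W.V

namespace S3p

section alg

variable {n : ℕ}

/-- `A(v̄, v)` -/
def q (A : Mx n) (v : Cm n) : ℝ := (star v ⬝ᵥ (A *ᵥ v)).re

theorem q_nn {A : Mx n} (h : A.PosSemidef) (v : Cm n) : 0 ≤ q A v := h.re_dotProduct_nonneg v

theorem q_pos {A : Mx n} (h : A.PosDef) {v : Cm n} (hv : v ≠ 0) : 0 < q A v :=
  h.re_dotProduct_pos hv

theorem q_lin (c : ℝ) (A B : Mx n) (v : Cm n) : q ((c : ℂ) • A - B) v = c * q A v - q B v := by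
  simp only [q, Matrix.sub_mulVec, Matrix.smul_mulVec, dotProduct_sub, dotProduct_smul,
    smul_eq_mul, Complex.sub_re, Complex.re_ofReal_mul]

theorem qf_eq (A : Mx n) (v : Cm n) : qf A v = q A (star v) := by rw [q, star_star, qf]

theorem psd_of {A : Mx n} (h : A.IsHermitian) (h0 : ∀ v, 0 ≤ q A v) : A.PosSemidef :=
  Matrix.PosSemidef.of_dotProduct_mulVec_nonneg h fun v =>
    Complex.nonneg_iff.2 ⟨h0 v, (h.im_star_dotProduct_mulVec_self v).symm⟩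

theorem pd_of {A : Mx n} (h : A.IsHermitian) (h0 : ∀ v, v ≠ 0 → 0 < q A v) : A.PosDef :=
  Matrix.PosDef.of_dotProduct_mulVec_pos h fun v hv =>
    Complex.pos_iff.2 ⟨h0 v hv, (h.im_star_dotProduct_mulVec_self v).symm⟩

theorem q_cont {A : ℝ → Mx n} {v : ℝ → Cm n} {I : Set ℝ}
    (h : ∀ j k, ContinuousOn (fun t => A t j k) I) (hv : ∀ j, ContinuousOn (fun t => v t j) I) :
    ContinuousOn (fun t => q (A t) (v t)) I := by
  simp only [q, dotProduct, Matrix.mulVec, Pi.star_apply]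
  exact Complex.continuous_re.comp_continuousOn (continuousOn_finsetSum _ fun i _ =>
    (hv i).star.mul (continuousOn_finsetSum _ fun j _ => (h i j).mul (hv j)))

theorem q_deriv {A : ℝ → Mx n} {A' : Mx n} {t : ℝ}
    (h : ∀ j k, HasDerivAt (fun s => A s j k) (-A' j k) t) (v : Cm n) :
    HasDerivAt (fun s => q (A s) v) (-q A' v) t := by
  have h2 := HasDerivAt.fun_sum (u := Finset.univ) fun j _ =>
    (HasDerivAt.fun_sum (u := Finset.univ) fun k _ => (h j k).mul_const (v k)).const_mul (star v j)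
  refine HasDerivAt.congr_deriv (Complex.reCLM.hasFDerivAt.comp_hasDerivAt t h2) ?_
  simp [q, dotProduct, Matrix.mulVec]

theorem ge0 {f : ℝ → ℝ} (hc : ContinuousOn f (Ici 0)) (h : ∀ t, 0 < t → 0 ≤ f t) {t : ℝ}
    (ht : 0 ≤ t) : 0 ≤ f t := by
  rcases ht.eq_or_lt with rfl | ht
  · exact ge_of_tendsto ((hc 0 self_mem_Ici).mono Ioi_subset_Ici_self).tendsto
      (eventually_mem_nhdsWithin.mono h)
  · exact h t ht

theorem hq_eq {W : Mx n} (h : W.PosDef) (ξ : Cm n) : hq W ξ = q W (W⁻¹ *ᵥ ξ) := by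
  rw [q, Matrix.mulVec_mulVec, Matrix.mul_nonsing_inv _ (Bas2.unit h), Matrix.one_mulVec, hq,
    Matrix.star_mulVec, h.inv.1.eq, Matrix.dotProduct_mulVec]

theorem sl {f : ℝ × Cm n → ℂ} {U : Set (Cm n)} {z : Cm n} (h : ContDiffOn ℝ ∞ f (Ici 0 ×ˢ U))
    (hz : z ∈ U) : ContinuousOn (fun t => f (t, z)) (Ici 0) :=
  h.continuousOn.comp (f := fun t : ℝ => (t, z)) (by fun_prop) fun _ ht => ⟨ht, hz⟩

theorem kxx_sm {W : ℝ → Cm n → Mx n} {U : Set (Cm n)} (hU : IsOpen U)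
    (h : ∀ j k, ContDiffOn ℝ ∞ (fun p : ℝ × Cm n => W p.1 p.2 j k) (Ici 0 ×ˢ U))
    (hd : ∀ p ∈ Ici (0 : ℝ) ×ˢ U, (W p.1 p.2).det ≠ 0) (X : Cm n) (j k : Fin n) :
    ContDiffOn ℝ ∞ (fun p : ℝ × Cm n => Kxx (W p.1) p.2 X j k) (Ici 0 ×ˢ U) := by
  have hI := uniqueDiffOn_Ici (0 : ℝ)
  simp only [Kxx, Matrix.sum_apply, Matrix.smul_apply, smul_eq_mul, RM, Matrix.add_apply,
    Matrix.neg_apply]
  refine ContDiffOn.sum fun l _ => ContDiffOn.sum fun i _ => contDiffOn_const.mul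
    ((FG.Calc.d hI hU (FG.Calc.d hI hU (h j k) l).2 i).1.neg.add ?_)
  exact Alg.sm_mul (A := fun p : ℝ × Cm n => DM i (W p.1) p.2 * (W p.1 p.2)⁻¹)
    (B := fun p => DMb l (W p.1) p.2)
    (Alg.sm_mul (A := fun p : ℝ × Cm n => DM i (W p.1) p.2) (fun a b => (FG.Calc.d hI hU (h a b) i).1)
      (Alg.sm_inv h hd)) (fun a b => (FG.Calc.d hI hU (h a b) l).2) j k

variable {U : Set (Cm n)} {W : ℝ → Cm n → Mx n} {z : Cm n}

/-- the quotient is monotone -/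
theorem mono (f : LF U W) (c : LC U W) (hz : z ∈ U) {ξ : Cm n} (hξ : ξ ≠ 0) :
    MonotoneOn (fun s => lam W z ξ s / hq (W s z) ξ) (Ioi 0) := by
  choose! d hd hd' using fun t ht => c.lam_t t ht z hz ξ hξ
  refine monotoneOn_of_hasDerivWithinAt_nonneg (convex_Ioi 0)
    (fun t ht => (hd t ht).continuousAt.continuousWithinAt) (f' := d)
    (fun t ht => (hd t (interior_subset ht)).hasDerivWithinAt) fun t ht => ?_
  have ht' : 0 < t := interior_subset ht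
  exact nonneg_of_mul_nonneg_right ((div_nonneg (q_nn (c.ktt t ht' z hz).1 _)
    (Alg.hq_pos (f.pos t ht' z hz) hξ).le).trans (hd' t ht')) ht'

/-- growth of the norm of a covector -/
theorem grow (f : LF U W) (c : LC U W) (hz : z ∈ U) {Λ : ℝ} (hΛ : 0 < Λ)
    (h : ((Λ : ℂ) • rho (W 1) z - W 1 z).PosSemidef) (ξ : Cm n) {t : ℝ} (ht : 1 ≤ t) :
    t ^ Λ⁻¹ * hq (W 1 z) ξ ≤ hq (W t z) ξ := by
  rcases eq_or_ne ξ 0 with rfl | hξ
  · simp [hq]
  have hp : ∀ s, 1 ≤ s → 0 < hq (W s z) ξ := fun s hs =>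
    Alg.hq_pos (f.pos s (by linarith) z hz) hξ
  have h1 : Λ⁻¹ ≤ lam W z ξ 1 / hq (W 1 z) ξ := by
    have := q_nn h ((W 1 z)⁻¹ *ᵥ ξ)
    rw [q_lin, ← hq_eq (f.pos 1 one_pos z hz)] at this
    rw [le_div_iff₀ (hp 1 le_rfl), inv_mul_le_iff₀ hΛ, lam, one_mul]
    exact sub_nonneg.1 this
  have hd : ∀ s, 1 ≤ s → HasDerivAt (fun s => Real.log (hq (W s z) ξ) - Λ⁻¹ * Real.log s)
      (lam W z ξ s / s / hq (W s z) ξ - Λ⁻¹ * s⁻¹) s := fun s hs =>
    ((c.hq_t s (by linarith) z hz ξ).log (hp s hs).ne').sub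
      ((Real.hasDerivAt_log (by linarith)).const_mul _)
  have h2 := monotoneOn_of_hasDerivWithinAt_nonneg (convex_Ici 1)
    (fun s hs => (hd s hs).continuousAt.continuousWithinAt)
    (fun s hs => (hd s (interior_subset hs)).hasDerivWithinAt) (fun s hs => by
      have hs' : 1 ≤ s := interior_subset hs
      have h3 := h1.trans (mono f c hz hξ (mem_Ioi.2 one_pos) (mem_Ioi.2 (by linarith)) hs')
      rw [div_right_comm, div_eq_mul_inv _ s, ← sub_mul]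
      exact mul_nonneg (sub_nonneg.2 h3) (inv_nonneg.2 (by linarith))) self_mem_Ici ht ht
  simp only [Real.log_one, mul_zero, sub_zero] at h2
  rw [← Real.log_le_log_iff (mul_pos (by positivity) (hp 1 le_rfl)) (hp t ht),
    Real.log_mul (by positivity) (hp 1 le_rfl).ne', Real.log_rpow (by linarith)]
  linarith

end alg

variable {n : ℕ} {M : Type} [MetricSpace M] [ChartedSpace (Cm n) M] [IsManifold 𝓘(ℂ, Cm n) 1 M]
  [IsManifold 𝓘(ℝ, Cm n) ∞ M] [RiemannianBundle fun x : M => TangentSpace 𝓘(ℝ, Cm n) x]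
  [IsContMDiffRiemannianBundle 𝓘(ℝ, Cm n) ∞ (Cm n) fun x : M => TangentSpace 𝓘(ℝ, Cm n) x]
  [IsRiemannianManifold 𝓘(ℝ, Cm n) M] [CompleteSpace M] [ConnectedSpace M] [NoncompactSpace M]
  [MeasurableSpace M] [BorelSpace M] {μ : Measure M} {F : Flow n M} {s t : ℝ} {e : Chart n M}
  {z : Cm n}

/-- the hypotheses -/
structure Hy (μ : Measure M) (F : Flow n M) : Prop where
  c : Ctx n μ
  i : F.Is
  b1 : F.Bas1
  b2 : F.Bas2
  lf : ∀ e : Chart n M, Hc e → LF e.target fun t => F.g t e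
  lc : ∀ e : Chart n M, Hc e → LC e.target fun t => F.g t e

namespace Hy

variable (H : Hy μ F)
include H

theorem ρ (ht : 0 ≤ t) (he : Hc e) (hz : z ∈ e.target) : rho (F.g t e) z = hs (F.u t) e z :=
  (H.b2.u_hs t ht e he z hz).symm

theorem hd (he : Hc e) : ∀ p ∈ Ici (0 : ℝ) ×ˢ e.target, (F.g p.1 e p.2).det ≠ 0 :=
  fun p hp => (H.i.pos p.1 hp.1 e he p.2 hp.2).det_pos.ne'

theorem cg (he : Hc e) (hz : z ∈ e.target) (v : Cm n) :
    ContinuousOn (fun t => q (F.g t e z) v) (Ici 0) :=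
  q_cont (fun j k => sl (H.b1.g_sm e he j k) hz) fun _ => continuousOn_const

theorem sρ (he : Hc e) (j k : Fin n) :
    ContDiffOn ℝ ∞ (fun p : ℝ × Cm n => hs (F.u p.1) e p.2 j k) (Ici 0 ×ˢ e.target) :=
  FG.Calc.hess (uniqueDiffOn_Ici 0) e.open_target (H.b1.u_sm e he) j k

theorem cρ (he : Hc e) (hz : z ∈ e.target) (v : Cm n) :
    ContinuousOn (fun t => q (hs (F.u t) e z) v) (Ici 0) :=
  q_cont (fun j k => sl (H.sρ he j k) hz) fun _ => continuousOn_const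

theorem c2 (ht : 0 ≤ t) (he : Hc e) (hz : z ∈ e.target) :
    ContDiffAt ℝ 2 (fun y => F.u t (e.symm y)) z :=
  (H.b1.sm_at _ H.b1.u_sm t ht e he z hz).of_le MC.two_le

theorem h0 (he : Hc e) (hz : z ∈ e.target) : (hs (F.u 0) e z).PosDef := by
  have h := H.b2.u_hs 0 le_rfl e he z hz
  simp only [H.b1.g_zero] at h
  rw [h]
  exact P253Z.b2 H.c.kahler H.c.pos H.c.npos b1a (b1b H.c.kahler b1a) e he z hz

theorem p2 (ht : 0 ≤ t) (he : Hc e) (hz : z ∈ e.target) : (hs (F.u t) e z).PosDef := by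
  rcases ht.eq_or_lt with rfl | ht
  · exact H.h0 he hz
  refine pd_of ((b1b H.c.kahler b1a).herm _ z (H.c2 ht.le he hz)) fun v hv => ?_
  have hg := H.i.pos t ht.le e he z hz
  have hinj : ∀ s, 0 ≤ s → (F.g s e z)⁻¹ *ᵥ (F.g t e z *ᵥ v) ≠ 0 := fun s hs h =>
    (q_pos hg hv).ne' <| by
      have h1 := congrArg (F.g s e z *ᵥ ·) h
      simp only [Matrix.mulVec_mulVec, ← Matrix.mul_assoc, Matrix.mul_nonsing_inv _
        (Bas2.unit (H.i.pos s hs e he z hz)), Matrix.one_mul, Matrix.mulVec_zero] at h1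
      simp [q, h1]
  have hξ : F.g t e z *ᵥ v ≠ 0 := fun h => hinj 0 le_rfl (by rw [h, Matrix.mulVec_zero])
  have h1 : ContinuousOn (fun s => q (hs (F.u s) e z) ((F.g s e z)⁻¹ *ᵥ (F.g t e z *ᵥ v)))
      (Ici 0) := q_cont (fun j k => sl (H.sρ he j k) hz) fun j => by
    simp only [Matrix.mulVec, dotProduct]
    exact continuousOn_finsetSum _ fun k _ =>
      (sl (Alg.sm_inv (H.b1.g_sm e he) (H.hd he) j k) hz).mul continuousOn_const
  have h2 := ((h1 0 self_mem_Ici).mono Ioi_subset_Ici_self).tendsto.eventually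
    (lt_mem_nhds (q_pos (H.h0 he hz) (hinj 0 le_rfl)))
  obtain ⟨s, h3, h4⟩ := (h2.and (Ioo_mem_nhdsGT ht)).exists
  have h5 := mono (H.lf e he) (H.lc e he) hz hξ h4.1 ht h4.2.le
  simp only [lam, H.ρ h4.1.le he hz, H.ρ ht.le he hz] at h5
  have h6 := (div_pos (mul_pos h4.1 h3) (Alg.hq_pos (H.i.pos s h4.1.le e he z hz) hξ)).trans_le h5
  rw [div_pos_iff_of_pos_right (Alg.hq_pos hg hξ), mul_pos_iff_of_pos_left ht,
    Matrix.mulVec_mulVec, Matrix.nonsing_inv_mul _ (Bas2.unit hg), Matrix.one_mulVec] at h6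
  exact h6

theorem p3 (ht : 0 ≤ t) (he : Hc e) (hz : z ∈ e.target) :
    ((F.R t (e.symm z) : ℂ) • F.g t e z - hs (F.u t) e z).PosSemidef := by
  refine psd_of (((H.i.pos t ht e he z hz).1.smul (Complex.conj_ofReal _)).sub
    (H.p2 ht he hz).1) fun v => ?_
  rw [q_lin]
  have h1 := Bas2.cont H.b1 H.b1.R_sm (e.symm z)
  have h2 := (h1.mul (H.cg he hz v)).sub (H.cρ he hz v)
  refine ge0 h2 (fun s hs => ?_) ht
  have h := q_nn ((H.lc e he).ric s hs z hz).2 v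
  rwa [q_lin, H.ρ hs.le he hz, ← H.b1.lap_eq s hs.le _ e he z hz (H.c2 hs.le he hz)] at h

theorem p1 (ht : 0 ≤ t) (he : Hc e) (hz : z ∈ e.target) (X v : Cm n) :
    0 ≤ bk (F.g t e) z X v ∧ bk (F.g t e) z X v ≤ qf (F.g t e z) X * qf (hs (F.u t) e z) v := by
  have ck : ContinuousOn (fun t => q (Kxx (F.g t e) z X) (star v)) (Ici 0) :=
    q_cont (fun j k => sl (kxx_sm (W := fun t => F.g t e) e.open_target (H.b1.g_sm e he)
      (H.hd he) X j k) hz) fun _ => continuousOn_const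
  simp only [bk, qf_eq]
  refine ⟨ge0 ck (fun s hs => q_nn ((H.lc e he).bk s hs z hz X).1 _) ht, sub_nonneg.1 ?_⟩
  have h2 := ((H.cg he hz (star X)).mul (H.cρ he hz (star v))).sub ck
  refine ge0 h2 (fun s hs => ?_) ht
  have h := q_nn ((H.lc e he).bk s hs z hz X).2 (star v)
  rwa [q_lin, H.ρ hs.le he hz, qf_eq] at h

theorem p4 (hs : 0 ≤ s) (hst : s ≤ t) (he : Hc e) (hz : z ∈ e.target) :
    (F.g s e z - F.g t e z).PosSemidef ∧
    ((Real.exp (F.u t (e.symm z) - F.u s (e.symm z)) : ℂ) • F.g t e z - F.g s e z).PosSemidef := by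
  have ht := hs.trans hst
  have gs := H.i.pos s hs e he z hz
  have gt := H.i.pos t ht e he z hz
  have h1 : (F.g s e z - F.g t e z).PosSemidef := psd_of (gs.1.sub gt.1) fun v => by
    have h2 := antitoneOn_of_hasDerivWithinAt_nonpos (convex_Ici 0) (H.cg he hz v)
      (f' := fun r => -q (P253W.hs (F.u r) e z) v) (fun r hr => by
        rw [interior_Ici] at hr
        exact (q_deriv (H.b2.g_t r hr e he z hz) v).hasDerivWithinAt)
      (fun r hr => neg_nonpos.2 (q_nn (H.p2 (interior_subset hr) he hz).posSemidef v)) hs ht hst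
    have h3 := q_lin 1 (F.g s e z) (F.g t e z) v
    rw [Complex.ofReal_one, one_smul] at h3
    linarith
  refine ⟨h1, ?_⟩
  have ds := Alg.det_pos gs
  have dt := Alg.det_pos gt
  have h2 : Real.exp (F.u t (e.symm z) - F.u s (e.symm z)) =
      (F.g s e z).det.re / (F.g t e z).det.re := by
    have h3 : 0 < ‖co 1 F.Ω e z‖ ^ 2 := pow_pos (norm_pos_iff.2 (Bas2.co_ne H.i he hz)) 2
    rw [H.b1.u_eq t ht e he z hz, H.b1.u_eq s hs e he z hz, Real.exp_sub,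
      Real.exp_log (div_pos h3 dt), Real.exp_log (div_pos h3 ds),
      div_div_div_cancel_left' _ _ h3.ne']
  have h3 := (A.Lin.two gt gs h1).smul (a := (((F.g s e z).det.re / (F.g t e z).det.re : ℝ) : ℂ))
    (by exact_mod_cast (div_pos ds dt).le)
  rwa [smul_sub, smul_smul, ← Complex.ofReal_mul, div_mul_div_cancel₀ dt.ne', div_self ds.ne',
    Complex.ofReal_one, one_smul, ← h2] at h3

theorem p5 (ht : 0 ≤ t) (x : M) : 0 < F.R t x := by
  have hv : (Pi.single ⟨0, H.c.npos⟩ 1 : Cm n) ≠ 0 := by simp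
  have h1 := q_nn (H.p3 ht (Bas2.hpc x) (Bas2.mpc x)) (Pi.single ⟨0, H.c.npos⟩ 1)
  rw [q_lin, Bas2.spc] at h1
  exact (mul_pos_iff_of_pos_right (q_pos (Bas2.gx_pos H.i ht x) hv)).1
    ((q_pos (H.p2 ht (Bas2.hpc x) (Bas2.mpc x)) hv).trans_le (sub_nonneg.1 h1))

omit H in
theorem up {A B : Mx n} {s t : ℝ} (hB : B.PosDef) (hst : s ≤ t)
    (h : ((s : ℂ) • B - A).PosSemidef) : ((t : ℂ) • B - A).PosSemidef := by
  have := h.add (hB.posSemidef.smul (a := ((t - s : ℝ) : ℂ)) (by exact_mod_cast sub_nonneg.2 hst))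
  rwa [Complex.ofReal_sub, sub_smul, sub_add_sub_cancel'] at this

theorem loc (x₀ : M) : ∃ Λ : ℝ, 0 < Λ ∧ ∀ᶠ x in 𝓝 x₀, ((Λ : ℂ) • F.ρx 1 x - F.gx 1 x).PosSemidef := by
  have L := FG.lamm H.c.npos
  have he : Hc (pc n x₀) := Bas2.hpc x₀
  have hc := L.cont _ (pc n x₀).target (F.g 1 (pc n x₀)) (hs (F.u 1) (pc n x₀))
    (continuousOn_pi.2 fun j => continuousOn_pi.2 fun k z hz =>
      (H.b1.g_at 1 zero_le_one _ he z hz j k).continuousAt.continuousWithinAt)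
    (continuousOn_pi.2 fun j => continuousOn_pi.2 fun k z hz => (FG.Calc.slice (pc n x₀).open_target
      (H.sρ he j k) (mem_Ici.2 zero_le_one) hz).continuousAt.continuousWithinAt)
    fun z hz => H.p2 zero_le_one he hz
  obtain ⟨Λ, h0, hΛ⟩ : ∃ Λ : ℝ, 0 < Λ ∧ FG.lam (F.gx 1 x₀) (F.ρx 1 x₀) < Λ :=
    ⟨_, add_pos_of_nonneg_of_pos (abs_nonneg _) one_pos, (le_abs_self _).trans_lt (lt_add_one _)⟩
  have h1 := ((hc.continuousAt ((pc n x₀).open_target.mem_nhds (Bas2.mpc x₀))).comp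
    ((pc n x₀).continuousAt (mem_chart_source _ x₀))).eventually (gt_mem_nhds hΛ)
  refine ⟨Λ, h0,
    (h1.and (chart_source_mem_nhds (Cm n) x₀)).mono fun x hx => ?_⟩
  have hz := (pc n x₀).map_source hx.2
  have h2 := up (H.p2 zero_le_one he hz) (le_of_lt hx.1)
    (L.le _ _ (H.i.pos 1 zero_le_one _ he _ hz).1 (H.p2 zero_le_one he hz))
  rw [Flow.gx, Flow.ρx, H.b1.g_ch 1 zero_le_one _ _ (Bas2.hpc x) he x (mem_chart_source _ x) hx.2,
    H.b1.hs_ch _ _ _ (Bas2.hpc x) he x (mem_chart_source _ x) hx.2 (H.c2 zero_le_one he hz),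
    ← Alg.pb_smul, ← Alg.pb_sub]
  exact Alg.pb_psd _ h2

theorem p6 {K : Set M} (hK : IsCompact K) : ∃ c : ℝ, 0 < c ∧ ∀ t, 1 ≤ t → ∀ x ∈ K, ∀ ξ,
    t ^ c * F.H 0 x ξ ≤ F.H t x ξ := by
  obtain ⟨Λ, hΛ, h⟩ : ∃ Λ : ℝ, 0 < Λ ∧ ∀ x ∈ K, ((Λ : ℂ) • F.ρx 1 x - F.gx 1 x).PosSemidef := by
    refine hK.induction_on (p := fun s => ∃ Λ : ℝ, 0 < Λ ∧ ∀ x ∈ s,
      ((Λ : ℂ) • F.ρx 1 x - F.gx 1 x).PosSemidef) ⟨1, one_pos, by simp⟩
      (fun s t hst ⟨Λ, h1, h2⟩ => ⟨Λ, h1, fun x hx => h2 x (hst hx)⟩)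
      (fun s t ⟨Λ, h1, h2⟩ ⟨Λ', _, h4⟩ => ⟨max Λ Λ', lt_max_of_lt_left h1, fun x hx => ?_⟩)
      fun x₀ _ => ?_
    · have hp := H.p2 zero_le_one (Bas2.hpc x) (Bas2.mpc x)
      exact hx.elim (fun hx => up hp (le_max_left _ _) (h2 x hx))
        fun hx => up hp (le_max_right _ _) (h4 x hx)
    · obtain ⟨Λ, h1, h2⟩ := H.loc x₀
      exact ⟨_, nhdsWithin_le_nhds h2, Λ, h1, fun x hx => hx⟩
  refine ⟨Λ⁻¹, inv_pos.2 hΛ, fun t ht x hx ξ => le_trans ?_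
    (grow (H.lf _ (Bas2.hpc x)) (H.lc _ (Bas2.hpc x)) (Bas2.mpc x) hΛ ?_ ξ ht)⟩
  · exact mul_le_mul_of_nonneg_left (H.b2.H_ge 1 zero_le_one x ξ) (by positivity)
  · rw [H.ρ zero_le_one (Bas2.hpc x) (Bas2.mpc x)]
    exact h x hx

end Hy

end S3p

/-- **S3P** -/
theorem s3p_row : S3P := fun n _ _ _ _ _ _ _ _ _ _ _ _ _ μ F c i lfc b1 b2 lf =>
  have H : S3p.Hy μ F := ⟨c, i, b1, b2, lf, fun e he => lfc n _ _ (lf e he)⟩
  ⟨fun _ ht _ he _ hz => H.p1 ht he hz, fun _ ht _ he _ hz => H.p2 ht he hz,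
    fun _ ht _ he _ hz => H.p3 ht he hz, fun _ _ hs hst _ he _ hz => H.p4 hs hst he hz,
    fun _ ht => H.p5 ht, fun _ hK => H.p6 hK⟩

end Vale.Agent.P253W.V
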