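import Vale.Agent.P253W.V.Defs
import Vale.Agent.P253Z.B2
import Vale.Agent.P253Z.B1b.Lin
import Vale.Agent.P210.R2.H973.Ricf
import Vale.Agent.P210.R2.H329.PtLin
import Vale.Agent.P210.R2.H204.Svi
import Vale.Agent.P210.R2.H53.Step
import Vale.Agent.P210.R2.H196.Geo
import Vale.Agent.P210.R2.H265.Jet

/-!
# P253W, block V, row STAB: the stability inequality
-/

open scoped Manifold ContDiff Bundle Topology ComplexConjugate ComplexOrder Matrix
open Bundle IsManifold MeasureTheory Set Metric Filter Vale.Agent.P253.Mfd Vale.Agent.P253Z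
open Vale.Agent.P272.K (Cm dz dzb cHess jacM Chart)
open Vale.Agent.P272.K.C2
open Vale.Agent.P210 Vale.Agent.P210.R2
open Complex (I)

noncomputable section

namespace Vale.Agent.P253W.V

namespace Staba

variable {n : ℕ}

theorem finrank_Cm (n : ℕ) : Module.finrank ℝ (Cm n) = 2 * n := by
  rw [Module.finrank_pi_fintype]
  simp [mul_comm]

theorem mat_eq (G : Cm n → Cm n →L[ℝ] Cm n →L[ℝ] ℝ) (y : Cm n) :
    B2A.mat G y = P253Z.MC.hmat (G y) := by
  ext j k
  rw [B2A.mat, P253Z.MC.hmat, Matrix.of_apply, Matrix.of_apply, P253Z.MC.hf, P253Z.MC.single_I]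

/-- the Ricci curvature of a Kähler metric is given by the Ricci form -/
theorem ric_loc {G : Cm n → Cm n →L[ℝ] Cm n →L[ℝ] ℝ} {U : Set (Cm n)} {z : Cm n}
    (h : LocalKahler G U) (hz : z ∈ U) (v : Cm n) :
    H973.ric G z v = 2 * qf (cHess (fun y => -Real.log (B2A.mat G y).det.re) z) v := by
  have hU : ∀ᶠ y in 𝓝 z, y ∈ U := h.isOpen.mem_nhds hz
  have hW : MC 2 (B2A.mat G) z := fun j k => by
    simp only [mat_eq]
    exact (P253Z.MC.hmat_smooth h hz j k).of_le B2A.two_le
  have hP : ∀ᶠ y in 𝓝 z, (B2A.mat G y).PosDef := hU.mono fun y hy => by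
    rw [mat_eq]
    exact P253Z.MC.hmat_pos (h.herm y hy) (h.symm y hy) (h.pos y hy)
  have hv : ContDiffAt ℝ 2 (fun y => Real.log (B2A.mat G y).det.re) z :=
    (Complex.reCLM.contDiff.contDiffAt.comp z (P253Z.MC.contDiffAt_det hW)).log
      (Complex.pos_iff.1 hP.self_of_nhds.det_pos).1.ne'
  have e1 : cHess (fun y => -Real.log (B2A.mat G y).det.re) z =
      ∑ l, ∑ k, (B2A.mat G z)⁻¹ l k • RM k l (B2A.mat G) z := by
    rw [ricci_identity hW hP (hU.mono fun y hy i j k => by
      simp only [mat_eq]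
      exact P253Z.MC.hmat_closed h hy i j k)]
    exact cHess_neg hv
  obtain ⟨C, hC⟩ := exists_factor hP.self_of_nhds.inv.posSemidef
  have e2 : cHess (fun y => -Real.log (B2A.mat G y).det.re) z =
      ∑ m, ∑ l, ∑ k, (C m k * conj (C m l)) • RM k l (B2A.mat G) z := by
    have e3 : ∀ l k, (B2A.mat G z)⁻¹ l k = ∑ m, C m k * conj (C m l) := fun l k => by
      rw [hC, Matrix.mul_apply]
      exact Finset.sum_congr rfl fun m _ => mul_comm _ _
    rw [e1]
    simp only [e3, Finset.sum_smul]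
    exact (Finset.sum_congr rfl fun l _ => Finset.sum_comm).trans Finset.sum_comm
  have e4 : qf (cHess (fun y => -Real.log (B2A.mat G y).det.re) z) v = ∑ m, Rc G z (C m) v := by
    rw [e2, qf, Matrix.sum_mulVec, dotProduct_sum, Complex.re_sum]
    refine Finset.sum_congr rfl fun m _ => B2A.rm_eq h hz hW hP (hU.mono fun y hy w => ?_)
      (fun _ _ w hN => P253Z.MC.levi hN w) (C m) v
    rw [mat_eq, ← P253Z.MC.hf_expand (h.herm y hy), P253Z.MC.hf_re]
  have e5 : C * B2A.mat G z * Cᴴ = 1 := by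
    refine mul_eq_one_comm.1 ?_
    rw [← Matrix.mul_assoc, ← hC]
    exact Matrix.nonsing_inv_mul _ (isUnit_iff_ne_zero.2 (posDef_det_ne_zero hP.self_of_nhds))
  have e6 : ∀ m m', P253Z.MC.hf (G z) (C m) (C m') = if m = m' then 1 else 0 := fun m m' => by
    rw [← Matrix.one_apply, ← e5, P253Z.MC.hf_expand (h.herm z hz), ← mat_eq, Finset.sum_comm]
    simp only [Matrix.mul_apply, Matrix.conjTranspose_apply, Finset.sum_mul]
    exact Finset.sum_congr rfl fun k _ => Finset.sum_congr rfl fun j _ => by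
      rw [Complex.star_def]; ring
  have e7 : ∀ m m', G z (C m) (C m') = if m = m' then 1 else 0 := fun m m' => by
    rw [← P253Z.MC.hf_re, e6]
    split_ifs <;> simp
  have e8 : ∀ m m', G z (I • C m) (C m') = 0 := fun m m' => by
    rw [← P253Z.MC.hf_re, P253Z.MC.hf_smul_left, e6]
    split_ifs <;> simp
  set b : Fin n ⊕ Fin n → Cm n := Sum.elim C fun m => I • C m
  have hon : H204.ON (G z) b := by
    rintro (i | i) (j | j)
    · exact (e7 i j).trans (by simp)
    · exact ((h.symm z hz _ _).trans (e8 j i)).trans (by simp)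
    · exact (e8 i j).trans (by simp)
    · exact ((h.herm z hz _ _).trans (e7 i j)).trans (by simp)
  obtain ⟨σ⟩ : Nonempty (Fin (Module.finrank ℝ (Cm n)) ≃ Fin n ⊕ Fin n) :=
    ⟨Fintype.equivOfCardEq (by simp [finrank_Cm, two_mul])⟩
  obtain ⟨Y, hY⟩ := H204.basis_of_on (g := G z) (b := b ∘ σ) fun i j => by
    simpa using hon (σ i) (σ j)
  have hR : H53.LocalRiem G U := ⟨h.isOpen, h.smooth, h.symm, h.pos⟩
  rw [← H973.ric_eq (b := Y) (fun i j => by simpa [hY] using hon (σ i) (σ j)), hY, e4,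
    Finset.mul_sum]
  refine (σ.sum_comp fun i => H53.secG G z (b i) v).trans ?_
  rw [Fintype.sum_sum_type, ← Finset.sum_add_distrib]
  refine Finset.sum_congr rfl fun m _ => ?_
  rw [H329.secG_symm hR hz, H329.secG_symm hR hz (b _)]
  exact h.secG_add hz v (C m)

end Staba

open Staba

/-- **STAB** -/
theorem stab_row : STAB := by
  intro n M _ _ _ _ _ _ _ hK hric c ℓ r f hr hℓ hc hf hfe
  have hJ := H265.jet_holds
  have hG := H196.geo
  have hS := H53.step_holds hJ
  have hℓ0 : 0 < ℓ := by linarith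
  have key : ∀ t ∈ Ioo 0 ℓ, ∀ e ∈ maximalAtlas 𝓘(ℝ, Cm n) ∞ M, c t ∈ e.source → ∀ v : Cm n,
      HasDerivAt (fun s => e (c s)) v t →
      ∀ Y : Module.Basis (Fin (Module.finrank ℝ (Cm n))) ℝ (Cm n),
        H204.ON (H53.chartG e (e (c t))) Y →
        ∑ i, H53.secG (H53.chartG e) (e (c t)) (Y i) v = 2 * f t ∧ 0 ≤ f t := by
    intro t ht e he hct v hv Y hY
    have he' : chartAt (Cm n) (c t) ∈ maximalAtlas 𝓘(ℝ, Cm n) ∞ M := chart_mem_maximalAtlas _
    have hc' : Hc (chartAt (Cm n) (c t)) := chart_mem_maximalAtlas _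
    have hx := mem_chart_source (Cm n) (c t)
    have hz := mem_chart_target (Cm n) (c t)
    have h1 := hfe t ht _ hc' hx _
      (H973.hasDerivAt_chart he he' (H973.minGeo_continuousAt hc ht) hct hx hv)
    refine ⟨?_, ?_⟩
    · rw [H973.ric_eq hY, H973.ric_chart he he' hct hx, ← h1]
      exact ric_loc (localKahler_chartG hK hc') hz _
    · rw [← h1]
      have h2 := (hric _ hc' _ hz).dotProduct_mulVec_nonneg
        (star (fderiv ℝ (chartAt (Cm n) (c t) ∘ e.symm) (e (c t)) v))
      rw [star_star] at h2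
      exact (Complex.nonneg_iff.1 h2).1
  set N : ℝ := (Module.finrank ℝ (Cm n) : ℝ) with hN
  set C : ℝ := r⁻¹ ^ 2 * (N - 1) with hC
  have s0 : H204.Fr (Cm n) (c 0) c 0 0 0 := H204.Fr.start hJ _ _ _
  have s1 := H204.Fr.propagate hJ hG hS hℓ0 hc (a := 0) (b := r) (α := 0) (β := r⁻¹) (S := 0)
    le_rfl hr.le (by linarith) (g := fun _ => C) continuousOn_const (by
      intro t ht e he hct v hv _ Y hY
      obtain ⟨h1, h2⟩ := key t ⟨ht.1, by linarith [ht.2]⟩ e he hct v hv Y hY
      rw [h1]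
      exact sub_le_self _ (by positivity)) (by simpa using s0)
  rw [zero_add, inv_mul_cancel₀ hr.ne'] at s1
  have hfc : ContinuousOn f (Icc r (ℓ - r)) := hf.mono (Icc_subset_Icc hr.le (by linarith))
  have s2 := H204.Fr.propagate hJ hG hS hℓ0 hc (a := r) (b := ℓ - r) (α := 1) (β := 0)
    hr.le (by linarith) (by linarith) (g := fun t => -2 * f t) (continuousOn_const.mul hfc) (by
      intro t ht e he hct v hv _ Y hY
      rw [(key t ⟨hr.trans ht.1, by linarith [ht.2]⟩ e he hct v hv Y hY).1]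
      simp) (by simpa only [zero_mul, add_zero] using s1)
  rw [zero_mul, add_zero] at s2
  have s3 := H204.Fr.propagate hJ hG hS hℓ0 hc (a := ℓ - r) (b := ℓ) (α := ℓ * r⁻¹) (β := -r⁻¹)
    (by linarith) (by linarith) le_rfl (g := fun _ => C) continuousOn_const (by
      intro t ht e he hct v hv _ Y hY
      obtain ⟨h1, h2⟩ := key t ⟨by linarith [ht.1], ht.2⟩ e he hct v hv Y hY
      rw [h1, neg_sq]
      exact sub_le_self _ (by positivity))
    (by rwa [show ℓ * r⁻¹ + -r⁻¹ * (ℓ - r) = 1 by field_simp; ring])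
  rw [show ℓ * r⁻¹ + -r⁻¹ * ℓ = 0 by ring] at s3
  have h4 := s3.nonneg
  simp only [intervalIntegral.integral_const, intervalIntegral.integral_const_mul, smul_eq_mul,
    sub_zero, sub_sub_cancel] at h4
  have h5 : r * C = 2 * n / r - 1 / r := by
    rw [hC, hN, finrank_Cm]
    push_cast
    field_simp
  have h6 : 0 < 1 / r := by positivity
  linarith

end Vale.Agent.P253W.V
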