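import Vale.Agent.P253W.V.Defs2
import Vale.Agent.P253W.V.Lfp

/-!
# P253W, block V, row TLR: a disc with a tiny boundary is tiny
-/

open scoped Manifold ContDiff Bundle ENNReal NNReal Topology ComplexConjugate ComplexOrder Matrix
open Bundle IsManifold MeasureTheory Set Metric Filter Vale.Agent.P253.Mfd Vale.Agent.P253Z
open Vale.Agent.P272.K (Cm dz dzb cHess jacM Chart)
open Vale.Agent.P253.R2.H451 (ContPsh levi2)

noncomputable section

namespace Vale.Agent.P253W.V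

namespace Tlr

variable {n : ℕ} {M : Type} [MetricSpace M] [ChartedSpace (Cm n) M] [IsManifold 𝓘(ℂ, Cm n) 1 M]
  {Ψ : Cm n → M} {f : ℂ → M} {U : Set (Cm n)}

theorem dn_eq (hU : IsOpen U) (h : Hn Ψ U) {w : Cm n} (hw : w ∈ U) {E : Type}
    [NormedAddCommGroup E] [NormedSpace ℂ E] {Y : E → Cm n} {q : E} (hY : DifferentiableAt ℂ Y q)
    (e : Y q = w) (V : E) :
    fderiv ℂ (fun p => pc n (Ψ w) (Ψ (Y p))) q V = dn Ψ w (fderiv ℂ Y q V) := by
  subst e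
  have d : DifferentiableAt ℂ (fun y => pc n (Ψ (Y q)) (Ψ y)) (Y q) :=
    mdifferentiableAt_iff_differentiableAt.1 ((mdifferentiableAt_atlas (chart_mem_atlas _ _)
      (mem_chart_source _ _)).comp _ (h.mdifferentiableAt (hU.mem_nhds hw)))
  have j : jm Ψ (Y q) = LinearMap.toMatrix' (fderiv ℂ (fun y => pc n (Ψ (Y q)) (Ψ y)) (Y q) :
      Cm n →ₗ[ℂ] Cm n) := by
    ext p i
    exact B1aP.dz_comp d p i
  rw [dn, j, LinearMap.toMatrix'_mulVec]
  exact congr($((d.hasFDerivAt.comp q hY.hasFDerivAt).fderiv) V)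

/-- the lift of a curve -/
theorem lift (h : Hn Ψ (ball 0 1)) (hi : InjOn Ψ (ball 0 1))
    (hd : ∀ w ∈ ball (0 : Cm n) 1, (jm Ψ w).det ≠ 0) (hf : H1 n f (ball 0 3)) :
    ∃ (W : Set ℂ) (Y : ℂ → Cm n), IsOpen W ∧ DifferentiableOn ℂ Y W ∧
      (∀ τ ∈ W, τ ∈ ball (0 : ℂ) 3 ∧ Y τ ∈ ball (0 : Cm n) 1 ∧ f τ = Ψ (Y τ)) ∧
      ∀ τ ∈ ball (0 : ℂ) 3, ∀ w ∈ ball (0 : Cm n) 1, f τ = Ψ w → τ ∈ W ∧ Y τ = w := by
  have k : ∀ τ ∈ ball (0 : ℂ) 3, ∀ w ∈ ball (0 : Cm n) 1, f τ = Ψ w →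
      τ ∈ ball (0 : ℂ) 3 ∩ f ⁻¹' (Ψ '' ball 0 1) ∧ Function.invFunOn Ψ (ball 0 1) (f τ) = w :=
    fun τ hτ w hw e => ⟨⟨hτ, w, hw, e.symm⟩, e ▸ hi.leftInvOn_invFunOn hw⟩
  have l : ∀ τ ∈ ball (0 : ℂ) 3 ∩ f ⁻¹' (Ψ '' ball 0 1), ∃ g : ℂ → Cm n, DifferentiableAt ℂ g τ ∧
      ∀ᶠ s in 𝓝 τ, s ∈ ball (0 : ℂ) 3 ∩ f ⁻¹' (Ψ '' ball 0 1) ∧
        Function.invFunOn Ψ (ball 0 1) (f s) = g s := by
    rintro τ ⟨hτ, w, hw, e⟩
    obtain ⟨c, hc, h1, h2⟩ := LfpA.chart_of isOpen_ball h hw (hd w hw)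
    have s : f τ ∈ c.source := e ▸ h2 w h1 ▸ c.map_target h1
    have m := hf.mdifferentiableAt (isOpen_ball.mem_nhds hτ)
    have d : DifferentiableAt ℂ (fun s => c (f s)) τ := mdifferentiableAt_iff_differentiableAt.1
      ((((contMDiffOn_of_mem_maximalAtlas hc).mdifferentiableOn one_ne_zero).mdifferentiableAt
        (c.open_source.mem_nhds s)).comp τ m)
    refine ⟨_, d, ?_⟩
    filter_upwards [isOpen_ball.mem_nhds hτ, m.continuousAt (c.open_source.mem_nhds s),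
      d.continuousAt (isOpen_ball.mem_nhds (show c (f τ) ∈ ball 0 1 by
        rwa [← e, ← h2 w h1, c.right_inv h1]))] with s a b b'
    exact k s a _ b' ((c.left_inv b).symm.trans (h2 _ (c.map_source b)))
  refine ⟨_, fun τ => Function.invFunOn Ψ (ball 0 1) (f τ), isOpen_iff_mem_nhds.2 fun τ hτ => ?_,
    fun τ hτ => ?_, fun τ hτ => ⟨hτ.1, Function.invFunOn_mem hτ.2, (Function.invFunOn_eq hτ.2).symm⟩,
    k⟩ <;> obtain ⟨g, a, b⟩ := l τ hτ
  exacts [b.mono fun _ h => h.1,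
    (a.congr_of_eventuallyEq (b.mono fun _ h => h.2)).differentiableWithinAt]

theorem cauchy {y : ℂ → Cm n} {σ : ℝ} (hy : DifferentiableOn ℂ y {τ | 1 / 3 < ‖τ‖ ∧ ‖τ‖ < 3})
    (hb : ∀ τ : ℂ, 1 / 3 < ‖τ‖ → ‖τ‖ < 3 → ‖y τ‖ ≤ σ) {τ : ℂ} (hτ : τ ∈ ann (1 / 2) 1) :
    ‖deriv y τ‖ ≤ 7 * σ := by
  have k : closedBall τ (1 / 7) ⊆ {τ | 1 / 3 < ‖τ‖ ∧ ‖τ‖ < 3} := fun s hs => by
    have := abs_le.1 ((abs_norm_sub_norm_le s τ).trans (mem_closedBall_iff_norm.1 hs))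
    exact ⟨by linarith [hτ.1], by linarith [hτ.2]⟩
  exact (Complex.norm_deriv_le_of_forall_mem_sphere_norm_le (by norm_num)
    (hy.diffContOnCl_ball k) fun s hs => hb s (k (sphere_subset_closedBall hs)).1
      (k (sphere_subset_closedBall hs)).2).trans_eq (by ring)

end Tlr

open Tlr in
theorem tlr_row : TLR := by
  intro n M _ _ _ _ _ _ _ _ _ _ _ _ μ F cx hI grn pa lel arf A T P
  obtain ⟨χ, tf, x1, x2, x3⟩ := grn.2 (1 / 2) 1 (by norm_num) (by norm_num)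
  obtain ⟨C, C0, pa⟩ := pa χ (ann (1 / 2) 1) tf.1 ((isCompact_closedBall 0 1).of_isClosed_subset
    ((isClosed_le continuous_const continuous_norm).inter (isClosed_le continuous_norm
      continuous_const)) fun _ h => mem_closedBall_zero_iff.2 h.2) x2
  obtain ⟨c, c0, lel⟩ := lel n
  obtain ⟨ar1, ar2⟩ := arf n M μ F cx hI grn P.b1 P.b2 P.s3a
  refine ⟨c / 20 ^ 2 / (7 * (C + 1)), by positivity,
    fun t l L σ Ψ f y t0 l0 s0 s1 hL hΨ hi hm hf hy hb τ₀ h0 => ?_⟩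
  obtain ⟨W, Y, oW, dY, w1, w2⟩ := lift hΨ hi (fun w hw e => by
    obtain ⟨v, a, b⟩ := Matrix.exists_mulVec_eq_zero_iff.2 e
    have := (hm w hw v).1
    rw [dn, b] at this
    exact this.not_gt (by simpa [Flow.nv, qf] using mul_pos l0 (pow_pos (norm_pos_iff.2 a) 2))) hf
  have b1 : ∀ {r : ℝ}, r < 1 → closedBall (0 : Cm n) r ⊆ ball 0 1 := closedBall_subset_ball
  have b3 : ∀ {r : ℝ}, r < 3 → closedBall (0 : ℂ) r ⊆ ball 0 3 := closedBall_subset_ball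
  have cl : ∀ {K}, IsCompact K → K ⊆ ball 0 1 → IsClosed (Ψ '' K) := fun a b =>
    (a.image_of_continuousOn (hΨ.continuousOn.mono b)).isClosed
  by_cases H : ∀ τ ∈ W, 5 / 16 < ‖Y τ‖ → ‖Y τ‖ < 7 / 16 → deriv Y τ = 0
  · have := (convex_ball (0 : ℂ) 3).isPreconnected.subset_of_closure_inter_subset
      (u := ball 0 3 ∩ f ⁻¹' (Ψ '' closedBall 0 (3 / 8))) (isOpen_iff_mem_nhds.2 ?_)
      ⟨1, by simp, by simp, y 1, mem_closedBall_zero_iff.2 ((hb 1 (by norm_num) (by simp)).1.trans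
        (by linarith)), (hb 1 (by norm_num) (by simp)).2.symm⟩ fun τ hτ => ⟨hτ.2,
        (cl (isCompact_closedBall _ _) (b1 (by norm_num))).closure_subset
          ((hf.continuousOn.continuousAt (isOpen_ball.mem_nhds hτ.2)
            ).continuousWithinAt.mem_closure hτ.1 fun _ h => h.2)⟩
    · exact image_mono (closedBall_subset_closedBall (by norm_num)) (this (b3 (by norm_num) h0)).2
    rintro τ ⟨h1, w, h2, h3⟩
    obtain ⟨h4, rfl⟩ := w2 τ h1 w (b1 (by norm_num) h2) h3.symm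
    have cY := (dY.continuousOn.continuousAt (oW.mem_nhds h4)).norm
    suffices ∀ᶠ s in 𝓝 τ, ‖Y s‖ ≤ 3 / 8 by
      filter_upwards [this, oW.mem_nhds h4] with s a b
      exact ⟨(w1 s b).1, Y s, mem_closedBall_zero_iff.2 a, (w1 s b).2.2.symm⟩
    rcases (mem_closedBall_zero_iff.1 h2).lt_or_eq with e | e
    · exact cY.eventually (eventually_le_nhds e)
    obtain ⟨r, r0, hr⟩ := Metric.mem_nhds_iff.1 (((cY.eventually (lt_mem_nhds (a := 5 / 16)
      (by simp only [e]; norm_num))).and (cY.eventually (gt_mem_nhds (a := 7 / 16)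
        (by simp only [e]; norm_num)))).and (oW.mem_nhds h4))
    filter_upwards [ball_mem_nhds τ r0] with s hs
    rw [isOpen_ball.is_const_of_deriv_eq_zero (convex_ball τ r).isPreconnected
      (dY.mono fun s hs => (hr hs).2) (fun s hs => H s (hr hs).2 (hr hs).1.1 (hr hs).1.2) hs
      (mem_ball_self r0), e]
  exfalso
  push Not at H
  obtain ⟨τ₁, u1, u2, u3, u4⟩ := H
  have L0 : 0 ≤ L := by
    have := hm _ (w1 _ u1).2.1 (deriv Y τ₁)
    exact l0.le.trans (le_of_mul_le_mul_right (this.1.trans this.2) (pow_pos (norm_pos_iff.2 u4) 2))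
  have tf' : Tf (ball 0 3) χ := ⟨tf.1, tf.2.1, tf.2.2.1, tf.2.2.2.trans (ball_subset_ball (by norm_num))⟩
  obtain ⟨a1, a2, a3⟩ := ar2 _ f χ t isOpen_ball hf tf' t0.le
  have oA : IsOpen {τ : ℂ | 1 / 3 < ‖τ‖ ∧ ‖τ‖ < 3} :=
    (isOpen_lt continuous_const continuous_norm).inter (isOpen_lt continuous_norm continuous_const)
  have dΦ : ∀ q ∈ ball (0 : ℂ) 2 ×ˢ {τ : ℂ | 1 / 3 < ‖τ‖ ∧ ‖τ‖ < 3},
      HasFDerivAt (fun q : ℂ × ℂ => q.1 • y q.2) _ q ∧ q.1 • y q.2 ∈ ball (0 : Cm n) 1 :=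
    fun q hq => ⟨hasFDerivAt_fst.fun_smul ((hy.differentiableAt (oA.mem_nhds hq.2)
      ).hasDerivAt.hasFDerivAt.comp q hasFDerivAt_snd), b1 (r := 2 * (1 / 4)) (by norm_num)
        (mem_closedBall_zero_iff.2 ((norm_smul_le _ _).trans (mul_le_mul (mem_ball_zero_iff.1
          hq.1).le ((hb _ hq.2.1 hq.2.2).1.trans s1) (norm_nonneg _) zero_le_two)))⟩
  have E := a3 (C * √(4 * (L * σ ^ 2) * (4 * (L * (7 * σ) ^ 2)))) fun s hs => by
    obtain ⟨p1, p2⟩ := ar1 _ (fun q => Ψ (q.1 • y q.2)) s t (isOpen_ball.prod oA) (hΨ.comp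
      (fun q hq => (dΦ q hq).1.differentiableAt.mdifferentiableAt.mdifferentiableWithinAt)
      fun q hq => (dΦ q hq).2) t0.le hs
    obtain ⟨g1, -, g3⟩ := grn.1 univ (fun _ => F.ψ s (Ψ 0) - F.ψ t (Ψ 0)) χ isOpen_univ
      contDiffOn_const ⟨tf.1, tf.2.1, tf.2.2.1, subset_univ _⟩
    refine le_trans (le_of_eq ?_) (pa _ _ _ _ (isOpen_ball.prod oA) p1 fun a ha τ hτ => ?_)
    · rw [← sub_zero (∫ τ, _), ← show _ = (0 : ℝ) from g3.trans (by simp [Lp, levi2]),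
        ← integral_sub (a2 s hs).1 g1]
      refine integral_congr_ae (.of_forall fun τ => ?_)
      by_cases hτ : τ ∈ ann (1 / 2) 1
      · simp only [one_smul, zero_smul, sub_mul, (hb τ (by linarith [hτ.1]) (by linarith [hτ.2])).2]
      · simp only [x3 τ hτ, mul_zero, sub_self]
    have n1 : ‖(a : ℂ)‖ ≤ 1 := by simpa [abs_of_nonneg ha.1] using ha.2
    have m : ((a : ℂ), τ) ∈ ball (0 : ℂ) 2 ×ˢ {τ : ℂ | 1 / 3 < ‖τ‖ ∧ ‖τ‖ < 3} :=
      ⟨mem_ball_zero_iff.2 (n1.trans_lt one_lt_two), by linarith [hτ.1], by linarith [hτ.2]⟩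
    have p := fun V => p2 _ m V _ (B1aP.chart _) (mem_chart_source _ _)
    have p' : ∀ V r, ‖(a : ℂ) • V.2 • deriv y τ + V.1 • y τ‖ ≤ r → levi2 _ ((a : ℂ), τ) V ≤
        4 * (L * r ^ 2) := fun V r hr => (p V).2.trans (by
      rw [dn_eq isOpen_ball hΨ (dΦ _ m).2 (dΦ _ m).1.differentiableAt rfl, (dΦ _ m).1.fderiv]
      exact mul_le_mul_of_nonneg_left ((hm _ (dΦ _ m).2 _).2.trans (mul_le_mul_of_nonneg_left
        (pow_le_pow_left₀ (norm_nonneg _) hr 2) L0)) zero_le_four)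
    refine ⟨m, fun V => (p V).1, p' _ _ (by simpa using (hb τ m.2.1 m.2.2).1), p' _ _ ?_⟩
    simpa [norm_smul] using (mul_le_of_le_one_left (norm_nonneg _) n1).trans
      (cauchy hy (fun τ a b => (hb τ a b).1) hτ)
  rw [show 4 * (L * σ ^ 2) * (4 * (L * (7 * σ) ^ 2)) = (28 * (L * σ ^ 2)) ^ 2 by ring,
    Real.sqrt_sq (by positivity)] at E
  have K : {τ ∈ W | ‖Y τ - Y τ₁‖ ≤ 1 / 20} =
      closedBall 0 (1 / 3) ∩ f ⁻¹' (Ψ '' closedBall (Y τ₁) (1 / 20)) := by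
    refine Subset.antisymm (fun τ hτ => ⟨mem_closedBall_zero_iff.2 (not_lt.1 fun e => ?_), Y τ,
      mem_closedBall_iff_norm.2 hτ.2, (w1 τ hτ.1).2.2.symm⟩) ?_
    · obtain ⟨a, b⟩ := hb τ e (mem_ball_zero_iff.1 (w1 τ hτ.1).1)
      rw [← (w2 τ (w1 τ hτ.1).1 _ (b1 (r := 1 / 4) (by norm_num) (mem_closedBall_zero_iff.2
        (a.trans s1))) b).2] at a
      linarith [abs_le.1 ((abs_norm_sub_norm_le _ _).trans hτ.2)]
    rintro τ ⟨a, w, b, e⟩
    obtain ⟨h4, rfl⟩ := w2 τ (b3 (by norm_num) a) w (closedBall_subset_ball' (by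
      rw [dist_zero_right]; linarith) b) e.symm
    exact ⟨h4, mem_closedBall_iff_norm.1 b⟩
  have cK : IsCompact {τ ∈ W | ‖Y τ - Y τ₁‖ ≤ 1 / 20} := K ▸
    (isCompact_closedBall _ _).of_isClosed_subset ((hf.continuousOn.mono (b3 (by norm_num))
      ).preimage_isClosed_of_isClosed isClosed_closedBall (cl (isCompact_closedBall _ _)
        (closedBall_subset_ball' (by rw [dist_zero_right]; linarith)))) inter_subset_left
  have iχ : Integrable fun τ => χ τ * F.nv t (f τ) (d1 n f τ) :=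
    (((tf.1.continuous.continuousOn.fun_mul a1).mono tf'.2.2.2).integrableOn_compact
      tf.2.2.1).integrable_of_forall_notMem_eq_zero fun τ h => by
        rw [image_eq_zero_of_notMem_tsupport h, zero_mul]
  have E2 := (mul_le_mul_of_nonneg_left (lel W Y τ₁ _ oW dY u1 u4 (by norm_num) cK) l0.le).trans
    (((integral_const_mul _ _).symm.trans_le (setIntegral_mono_on
      ((continuousOn_const.fun_mul (((dY.deriv oW).continuousOn.mono fun _ h => h.1).norm.fun_pow 2)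
        ).integrableOn_compact cK) iχ.integrableOn cK.measurableSet fun τ hτ => ?_)).trans
      (setIntegral_le_integral iχ (.of_forall fun τ => mul_nonneg (tf.2.1 τ) ?_)))
  · have := mul_le_mul_of_nonneg_left hL C0
    have : C * (c / 20 ^ 2 / (7 * (C + 1)) * l) < l * (c * (1 / 20) ^ 2) / 7 := by
      refine lt_of_eq_of_lt (b := l * (c * (1 / 20) ^ 2) / 7 * (C / (C + 1))) (by field_simp) ?_
      exact mul_lt_of_lt_one_right (by positivity) ((div_lt_one (by positivity)).2 (lt_add_one C))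
    linarith
  · have d := dY.differentiableAt (oW.mem_nhds hτ.1)
    rw [x1 τ (closedBall_subset_closedBall (by norm_num) (K ▸ hτ).1), one_mul,
      show d1 n f τ = dn Ψ (Y τ) (deriv Y τ) from (EventuallyEq.deriv_eq ((oW.eventually_mem
        hτ.1).mono fun s hs => by simp only [(w1 s hs).2.2, (w1 τ hτ.1).2.2])).trans
        (dn_eq isOpen_ball hΨ (w1 τ hτ.1).2.1 d rfl 1), (w1 τ hτ.1).2.2]
    exact (hm _ (w1 τ hτ.1).2.1 _).1
  · have := (hI.pos t t0.le _ (B1aP.chart (f τ)) _ (mem_chart_target _ _)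
      ).posSemidef.dotProduct_mulVec_nonneg (star (d1 n f τ))
    rw [star_star] at this
    exact (Complex.nonneg_iff.1 this).1

end Vale.Agent.P253W.V
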