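import Vale.Agent.P253W.V.Defs

/-!
# P253W, block V: real parts of polynomials are dense on the circle
-/

open Set Metric Polynomial
open scoped ComplexConjugate

noncomputable section

namespace Vale.Agent.P253W.V

theorem trig_row : TRIG := fun k δ hk hδ => by
  have : Fact ((0 : ℝ) < 1) := ⟨one_pos⟩
  let g : C(AddCircle (1 : ℝ), ℂ) := ⟨fun x => k (AddCircle.toCircle x),
    Complex.continuous_ofReal.comp (hk.comp_continuous
      (continuous_subtype_val.comp AddCircle.continuous_toCircle) fun x => x.toCircle.2)⟩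
  obtain ⟨f, hf, e⟩ := Metric.mem_closure_iff.1
    ((span_fourier_closure_eq_top (T := 1)).ge (Submodule.mem_top (x := g))) δ hδ
  have key : ∀ c : ℂ, ∃ p : ℂ[X], ∀ x, (p.eval (AddCircle.toCircle x : ℂ)).re = (c * f x).re := by
    refine Submodule.span_induction (p := fun f _ => ∀ c : ℂ, ∃ p : ℂ[X], ∀ x,
      (p.eval (AddCircle.toCircle x : ℂ)).re = (c * f x).re) ?_ (fun c => ⟨0, by simp⟩)
      (fun a b _ _ ha hb c => ?_) (fun a b _ hb c => ?_) hf
    · rintro _ ⟨n, rfl⟩ c
      obtain ⟨n, rfl | rfl⟩ := n.eq_nat_or_neg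
      · exact ⟨C c * X ^ n, fun x => by simp [AddCircle.toCircle_nsmul]⟩
      · exact ⟨C (conj c) * X ^ n, fun x => by
          rw [fourier_neg, ← Complex.conj_re]; simp [AddCircle.toCircle_nsmul]⟩
    · obtain ⟨p, hp⟩ := ha c
      obtain ⟨q, hq⟩ := hb c
      exact ⟨p + q, fun x => by simp only [eval_add, ContinuousMap.add_apply, mul_add,
        Complex.add_re, hp, hq]⟩
    · simpa only [ContinuousMap.smul_apply, smul_eq_mul, mul_assoc] using hb (c * a)
  obtain ⟨p, hp⟩ := key 1
  refine ⟨p, fun τ hτ => ?_, ?_⟩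
  · obtain ⟨x, hx⟩ := (AddCircle.homeomorphCircle (T := 1) one_ne_zero).surjective ⟨τ, hτ⟩
    rw [AddCircle.homeomorphCircle_apply] at hx
    obtain rfl : (AddCircle.toCircle x : ℂ) = τ := congrArg Subtype.val hx
    rw [hp, one_mul]
    refine lt_of_le_of_lt ?_ ((ContinuousMap.dist_apply_le_dist x).trans_lt e)
    rw [dist_comm, dist_eq_norm]
    simpa [g] using Complex.abs_re_le_norm (f x - g x)
  · have h := p.differentiable
    rw [← (h.diffContOnCl (s := ball 0 |(1 : ℝ)|)).circleAverage]
    exact (Complex.reCLM.circleAverage_comp_comm (h.continuous.continuousOn.circleIntegrable')).symm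

end Vale.Agent.P253W.V
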