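import Vale.Agent.P253W.V.Defs

/-!
# P253W, block V: the inf-convolution
-/

open scoped ContDiff NNReal Topology ComplexOrder Matrix
open Set Metric Filter
open Vale.Agent.P272.K (Cm dz dzb cHess)
open Vale.Agent.P272.K.C2 (cHess_sub cHess_const cHess_comp)

noncomputable section

namespace Vale.Agent.P253W.V.Vd1

variable {n : ℕ}

theorem uc {X : Type} [MetricSpace X] [CompactSpace X] {G : X → Mx n} (hG : Continuous G)
    (hp : ∀ x, (G x).PosDef) {u : X → ℝ} (hu : Continuous u) {η : ℝ} (h0 : 0 < η) :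
    ∃ ρ : ℝ, 0 < ρ ∧ ∀ p q, dist p q < ρ → ∀ θ : ℝ, 0 ≤ θ → θ ≤ (1 - η) * Real.exp (u p - u q) →
      (G p - (θ : ℂ) • G q).PosSemidef := by
  have hf : Continuous fun x : X × X × Cm n => (star x.2.2 ⬝ᵥ (G x.1 *ᵥ x.2.2)).re
      - (1 - η) * Real.exp (u x.1 - u x.2.1) * (star x.2.2 ⬝ᵥ (G x.2.1 *ᵥ x.2.2)).re := by
    fun_prop
  obtain ⟨ρ, r0, hρ⟩ := ((isCompact_univ.prod (isCompact_univ.prod
    (isCompact_sphere (0 : Cm n) 1))).inter_right (isClosed_le hf continuous_const (g := fun _ => 0))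
    ).exists_forall_le' (f := fun x => dist x.1 x.2.1) (by fun_prop) (a := 0) (by
      rintro ⟨p, q, v⟩ ⟨⟨-, -, hv⟩, h⟩
      refine dist_pos.2 fun e => ?_
      obtain rfl : p = q := e
      have h1 := (Complex.pos_iff.1 ((hp p).dotProduct_mulVec_pos (x := v) (by
        rintro rfl; simp at hv))).1
      simp only [mem_ofPred_eq, sub_self, Real.exp_zero] at h
      nlinarith)
  refine ⟨ρ, r0, fun p q h θ t0 t1 => Matrix.PosSemidef.of_dotProduct_mulVec_nonneg
    ((hp p).1.sub ((hp q).posSemidef.smul (Complex.zero_le_real.2 t0)).1) fun v => ?_⟩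
  have a := Complex.nonneg_iff.1 ((hp p).posSemidef.dotProduct_mulVec_nonneg v)
  have b := Complex.nonneg_iff.1 ((hp q).posSemidef.dotProduct_mulVec_nonneg v)
  rw [Matrix.sub_mulVec, Matrix.smul_mulVec, dotProduct_sub, dotProduct_smul, smul_eq_mul,
    Complex.nonneg_iff, Complex.sub_re, Complex.sub_im, Complex.re_ofReal_mul,
    Complex.im_ofReal_mul, ← a.2, ← b.2]
  refine ⟨?_, by simp⟩
  rcases eq_or_ne v 0 with rfl | hv
  · simp
  have hn : 0 < ‖v‖⁻¹ := by positivity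
  have e : ∀ M : Mx n, (star (((‖v‖⁻¹ : ℝ) : ℂ) • v) ⬝ᵥ (M *ᵥ (((‖v‖⁻¹ : ℝ) : ℂ) • v))).re
      = ‖v‖⁻¹ * (‖v‖⁻¹ * (star v ⬝ᵥ (M *ᵥ v)).re) := fun M => by
    rw [star_smul, Matrix.mulVec_smul, smul_dotProduct, dotProduct_smul, Complex.star_def,
      Complex.conj_ofReal, smul_eq_mul, smul_eq_mul, Complex.re_ofReal_mul, Complex.re_ofReal_mul]
  by_contra hc
  refine h.not_ge (hρ (p, q, ((‖v‖⁻¹ : ℝ) : ℂ) • v) ⟨⟨trivial, trivial, by
    simp [norm_smul, hv]⟩, ?_⟩)
  simp only [mem_ofPred_eq, e]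
  have := mul_le_mul_of_nonneg_right t1 b.1
  nlinarith [mul_pos hn hn]

/-- the inf-convolution -/
def ic {X : Type} [PseudoMetricSpace X] (Q : Set X) (l : X → ℝ) (a : ℝ) (q : X) : ℝ :=
  sInf ((fun p => l p + a * dist p q) '' Q)

section ic

variable {X : Type} [PseudoMetricSpace X] {Q : Set X} {l : X → ℝ} {C a : ℝ}
  (hl : ∀ p ∈ Q, |l p| ≤ C) (ha : 0 ≤ a)
include hl ha

theorem ic_le {p : X} (hp : p ∈ Q) (q : X) : ic Q l a q ≤ l p + a * dist p q :=
  csInf_le ⟨-C, by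
    rintro _ ⟨x, hx, rfl⟩
    exact le_add_of_le_of_nonneg (abs_le.1 (hl x hx)).1 (by positivity)⟩ ⟨p, hp, rfl⟩

omit hl ha in
theorem le_ic (hQ : Q.Nonempty) {q : X} {b : ℝ} (h : ∀ p ∈ Q, b ≤ l p + a * dist p q) :
    b ≤ ic Q l a q :=
  le_csInf (hQ.image _) (by rintro _ ⟨x, hx, rfl⟩; exact h x hx)

omit hl ha in
theorem ic_ex (hQ : Q.Nonempty) (q : X) {ε : ℝ} (hε : 0 < ε) :
    ∃ p ∈ Q, l p + a * dist p q < ic Q l a q + ε := by
  obtain ⟨_, ⟨p, hp, rfl⟩, h⟩ := Real.lt_sInf_add_pos (hQ.image fun p => l p + a * dist p q) hε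
  exact ⟨p, hp, h⟩

theorem ic_bd {q : X} (hq : q ∈ Q) : |ic Q l a q| ≤ C :=
  abs_le.2 ⟨le_ic ⟨q, hq⟩ fun p hp => le_add_of_le_of_nonneg (abs_le.1 (hl p hp)).1 (by positivity),
    (ic_le hl ha hq q).trans (by simpa using (abs_le.1 (hl q hq)).2)⟩

theorem ic_mono (hQ : Q.Nonempty) {b : ℝ} (hb : a ≤ b) (q : X) : ic Q l a q ≤ ic Q l b q :=
  le_ic hQ fun p hp => (ic_le hl ha hp q).trans (by gcongr)

theorem ic_lip {U : Set X} (hU : U ⊆ Q) : LipschitzOnWith a.toNNReal (ic Q l a) U := by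
  refine LipschitzOnWith.of_le_add_mul' a fun q hq q' _ => ?_
  rw [← sub_le_iff_le_add]
  refine le_ic ⟨q, hU hq⟩ fun p hp => ?_
  have := mul_le_mul_of_nonneg_left (dist_triangle_right p q q') ha
  linarith [ic_le hl ha hp q]

theorem ic_min (hQ : IsCompact Q) {q : X} (hq : q ∈ Q) : ∃ p ∈ Q,
    a * dist p q ≤ 2 * (ic Q l a q - ic Q l (a / 2) q) ∧
    ∀ ε : ℝ, 0 < ε → ∃ x ∈ ball p ε, l x + a * dist p q < ic Q l a q + ε := by
  choose x hx h using fun j : ℕ => ic_ex (l := l) (a := a) ⟨q, hq⟩ q (Nat.one_div_pos_of_nat (n := j))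
  obtain ⟨p, hp, φ, hφ, ht⟩ := hQ.tendsto_subseq hx
  have h1 : Tendsto (fun j => 1 / ((φ j : ℝ) + 1)) atTop (𝓝 0) :=
    tendsto_one_div_add_atTop_nhds_zero_nat.comp hφ.tendsto_atTop
  have h2 := (ht.dist (tendsto_const_nhds (x := q))).const_mul a
  refine ⟨p, hp, ?_, fun ε hε => ?_⟩
  · have h3 := (h1.const_add (ic Q l a q - ic Q l (a / 2) q)).const_mul 2
    rw [add_zero] at h3
    refine le_of_tendsto_of_tendsto' h2 h3 fun j => ?_
    have := ic_le hl (a := a / 2) (by positivity) (hx (φ j)) q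
    simp only [Function.comp]
    linarith [h (φ j)]
  · have h3 := h1.sub (h2.sub_const (a * dist p q))
    rw [sub_self, sub_zero] at h3
    obtain ⟨j, j1, j2⟩ := ((ht.eventually (ball_mem_nhds p hε)).and
      (h3.eventually (gt_mem_nhds hε))).exists
    simp only [Function.comp] at j2
    exact ⟨x (φ j), j1, by linarith [h (φ j)]⟩

omit ha in
theorem ic_lim {q : X} (hq : Q ∈ 𝓝 q) :
    Tendsto (fun a => ic Q l a q) atTop (𝓝 (liminf l (𝓝 q))) := by
  have h0 := mem_of_mem_nhds hq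
  have b1 : IsBoundedUnder (· ≥ ·) (𝓝 q) l :=
    ⟨-C, eventually_map.2 (mem_of_superset hq fun p hp => (abs_le.1 (hl p hp)).1)⟩
  have b2 : IsCoboundedUnder (· ≥ ·) (𝓝 q) l :=
    IsBoundedUnder.isCoboundedUnder_ge
      ⟨C, eventually_map.2 (mem_of_superset hq fun p hp => (abs_le.1 (hl p hp)).2)⟩
  refine tendsto_order.2 ⟨fun b hb => ?_, fun b hb => ?_⟩
  · obtain ⟨c, c1, c2⟩ := exists_between hb
    obtain ⟨ρ, r0, hρ⟩ := Metric.eventually_nhds_iff.1 (eventually_lt_of_lt_liminf c2 b1)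
    filter_upwards [eventually_ge_atTop 0, eventually_ge_atTop ((c + C) / ρ)] with a a0 a1
    refine c1.trans_le (le_ic ⟨q, h0⟩ fun p hp => ?_)
    rcases lt_or_ge (dist p q) ρ with h | h
    · exact le_add_of_le_of_nonneg (hρ h).le (by positivity)
    · rw [div_le_iff₀ r0] at a1
      linarith [(abs_le.1 (hl p hp)).1, mul_le_mul_of_nonneg_left h a0]
  · obtain ⟨c, c1, c2⟩ := exists_between hb
    filter_upwards [eventually_ge_atTop 0] with a a0
    have h1 : Tendsto (fun p => a * dist p q) (𝓝 q) (𝓝 0) := by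
      simpa using (show Continuous fun p => a * dist p q by fun_prop).tendsto q
    obtain ⟨p, p1, p2, p3⟩ := ((frequently_lt_of_liminf_lt b2 c1).and_eventually
      ((h1.eventually (gt_mem_nhds (sub_pos.2 c2))).and hq)).exists
    linarith [ic_le hl a0 p3 q]

end ic

/-- the square of the euclidean norm -/
def en (w : P n) : ℝ := w.1 ^ 2 + ∑ j, ‖w.2 j‖ ^ 2

theorem sq_sm : ContDiff ℝ ∞ (en (n := n)) :=
  (contDiff_fst.pow 2).add (ContDiff.sum fun j _ =>
    ContDiff.norm_sq ℂ ((contDiff_apply ℝ ℂ j).comp contDiff_snd))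

theorem sq_ge (w : P n) : ‖w‖ ^ 4 ≤ en w ^ 2 := by
  have h0 : 0 ≤ ∑ j, ‖w.2 j‖ ^ 2 := by positivity
  have h1 : ‖w‖ ≤ √(en w) := norm_prod_le_iff.2 ⟨Real.abs_le_sqrt (le_add_of_nonneg_right h0),
    (pi_norm_le_iff_of_nonneg (Real.sqrt_nonneg _)).2 fun j => Real.le_sqrt_of_sq_le
      (le_add_of_nonneg_of_le (sq_nonneg _) (Finset.single_le_sum
        (f := fun j => ‖w.2 j‖ ^ 2) (fun _ _ => sq_nonneg _) (Finset.mem_univ j)))⟩
  calc _ ≤ √(en w) ^ 4 := by gcongr
    _ = _ := by rw [show 4 = 2 * 2 by rfl, pow_mul, Real.sq_sqrt (by unfold en; positivity)]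

theorem cHess_shift (f : Cm n → ℝ) (c z : Cm n) :
    cHess (fun w => f (w - c)) z = cHess f (z - c) := by
  ext j k
  have e : (dzb k fun y => ((f (y - c) : ℝ) : ℂ))
      = fun y => dzb k (fun y => ((f y : ℝ) : ℂ)) (y - c) := by
    funext y
    simp only [dzb, fderiv_comp_sub (f := fun y => ((f y : ℝ) : ℂ))]
  simp only [cHess, Matrix.of_apply, e, dz, fderiv_comp_sub (f := dzb k fun y => ((f y : ℝ) : ℂ))]

theorem shift {φ : P n → ℝ} (hφ : ContDiff ℝ ∞ φ) (p q : P n) (k : ℝ) :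
    dT (fun x => φ (x - (p - q)) - k - en (x - p) ^ 2) p = dT φ q ∧
      cH (fun x => φ (x - (p - q)) - k - en (x - p) ^ 2) p = cH φ q := by
  constructor
  · have h1 : HasDerivAt (fun s => φ (s, q.2)) (dT φ q) (p.1 - (p.1 - q.1)) := by
      rw [sub_sub_cancel]
      exact ((hφ.differentiable (by simp)).comp (by fun_prop : Differentiable ℝ
        fun s : ℝ => (s, q.2)) q.1).hasDerivAt
    have h2 := ((h1.comp_sub_const p.1 (p.1 - q.1)).sub_const k).sub
      ((((hasDerivAt_id p.1).sub_const p.1).pow 2).pow 2)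
    rw [dT]
    refine (HasDerivAt.congr_deriv (h2.congr_of_eventuallyEq (Eventually.of_forall fun s => ?_))
      (by simp)).deriv
    simp [en, Prod.sub_def]
  · have s1 : ContDiff ℝ 2 fun w : Cm n => φ ((p.1, w) - (p - q)) :=
      (hφ.of_le (by norm_cast)).comp (by fun_prop)
    have s2 : ContDiff ℝ 2 fun w : Cm n => en ((p.1, w) - p) :=
      (sq_sm.of_le (by norm_cast)).comp (by fun_prop)
    have z : en ((p.1, p.2) - p) = 0 := by simp [en]
    have h0 : HasFDerivAt (fun w : Cm n => en ((p.1, w) - p)) (0 : Cm n →L[ℝ] ℝ) p.2 := by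
      have := (s2.differentiable (by simp) p.2).hasFDerivAt
      rwa [IsLocalMin.fderiv_eq_zero (Eventually.of_forall fun w => by
        simp only [z]; unfold en; positivity)] at this
    have h3 : cHess (fun w : Cm n => en ((p.1, w) - p) ^ 2) p.2 = 0 := by
      ext j k
      rw [cHess_comp (ψ := fun s => s ^ 2) (ψ₁ := fun s => 2 * s) (ψ₂ := 2)
        (Eventually.of_forall fun s => by simpa using hasDerivAt_pow 2 s)
        (by simpa using (hasDerivAt_id _).const_mul (2 : ℝ)) s2.contDiffAt, z, dz,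
        (show fderiv ℝ (fun y => ((en ((p.1, y) - p) : ℝ) : ℂ)) p.2 = _ from
          (Complex.ofRealCLM.hasFDerivAt.comp p.2 h0).fderiv)]
      simp
    rw [cH, cH, cHess_sub (s1.sub contDiff_const).contDiffAt (s2.pow 2).contDiffAt,
      cHess_sub s1.contDiffAt contDiffAt_const, cHess_const, h3, sub_zero, sub_zero,
      ← sub_sub_cancel p.2 q.2, ← cHess_shift]
    congr 1
    funext w
    simp [Prod.sub_def]

end Vd1

open Vd1

theorem vd1_row : VD1 := by
  intro n U₀ K g u l C₀ hU hK hKU hg hp hu hl₀ h1₀ hv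
  obtain ⟨C, c0, c1⟩ : ∃ C : ℝ, 0 ≤ C ∧ C₀ ≤ C := ⟨|C₀|, abs_nonneg _, le_abs_self _⟩
  obtain ⟨r₀, r0, hr⟩ := hK.exists_cthickening_subset_open hU hKU
  obtain ⟨r, rfl⟩ : ∃ r, r₀ = 3 * r := ⟨r₀ / 3, by ring⟩
  have r1 : 0 < r := by linarith
  have hQ : IsCompact (cthickening (3 * r) K) := hK.cthickening
  have hB : ∀ q ∈ thickening r K, ∀ p, dist p q ≤ 2 * r → p ∈ cthickening (3 * r) K := by
    intro q hq p h
    obtain ⟨x, hx, hd⟩ := mem_thickening_iff.1 hq
    exact mem_cthickening_of_dist_le p x _ _ hx (by linarith [dist_triangle p q x])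
  have hU' := isOpen_thickening (δ := r) (E := K)
  have hKU' := self_subset_thickening r1 K
  generalize cthickening (3 * r) K = Q at *
  generalize thickening r K = U at *
  have hUQ : U ⊆ Q := fun q hq => hB q hq q (by simp [r1.le])
  have hl : ∀ p ∈ Q, |l p| ≤ C := fun p h => (hl₀ p (hr h)).trans c1
  have hη : ∀ k : ℕ, (1 / ((k : ℝ) + 1) / 2) ∈ Ioo (0 : ℝ) 1 := fun k =>
    ⟨by positivity, by
      have : 1 / ((k : ℝ) + 1) ≤ 1 := div_le_self zero_le_one (by simp)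
      linarith⟩
  have : CompactSpace Q := isCompact_iff_compactSpace.1 hQ
  have hG : Continuous fun x : Q => (g x)⁻¹ := continuous_iff_continuousAt.2 fun x =>
    ContinuousAt.comp (f := fun x : Q => g x) (continuousAt_matrix_inv _ (by
      rw [Ring.inverse_eq_inv']
      exact continuousAt_inv₀ ((Matrix.isUnit_iff_isUnit_det _).1 (hp x (hr x.2)).isUnit).ne_zero))
      (continuous_pi fun j => continuous_pi fun k => ((hg j k).mono hr).domRestrict).continuousAt
  choose ρ p0 hρ using fun k : ℕ => uc hG (fun x => (hp x (hr x.2)).inv) (hu.mono hr).domRestrict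
    (hη k).1
  obtain ⟨a, a0, a1, a2, a3⟩ : ∃ a : ℕ → ℝ, (∀ k, 0 < a k) ∧ Tendsto a atTop atTop ∧
      (∀ k, 4 * C + 1 ≤ a k * r) ∧ ∀ k, 4 * C + 1 ≤ a k * ρ k := by
    refine ⟨fun k => k + (4 * C + 1) / r + (4 * C + 1) / ρ k, fun k => by have := p0 k; positivity,
      tendsto_atTop_mono (fun k => ?_) tendsto_natCast_atTop_atTop, fun k => ?_, fun k => ?_⟩ <;>
      have := p0 k
    · rw [add_assoc]; exact le_add_of_nonneg_right (by positivity)
    · rw [← div_le_iff₀ r1]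
      exact le_add_of_le_of_nonneg (le_add_of_nonneg_left (by positivity)) (by positivity)
    · rw [← div_le_iff₀ this]; exact le_add_of_nonneg_left (by positivity)
  have a4 : ∀ k, 0 ≤ a k / 2 := fun k => (half_pos (a0 k)).le
  have bd : ∀ k, ∀ q ∈ U, 2 * (ic Q l (a k) q - ic Q l (a k / 2) q) ≤ 4 * C := fun k q hq => by
    linarith [(abs_le.1 (ic_bd hl (a0 k).le (hUQ hq))).2, (abs_le.1 (ic_bd hl (a4 k) (hUQ hq))).1]
  refine ⟨U, fun k => ic Q l (a k), fun k q => 2 * (ic Q l (a k) q - ic Q l (a k / 2) q),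
    fun k => 1 / ((k : ℝ) + 1) / 2, 4 * C, hU', hKU', hUQ.trans hr,
    fun k => ⟨_, ic_lip hl (a0 k).le hUQ⟩, fun k => continuousOn_const.mul
      ((ic_lip hl (a0 k).le hUQ).continuousOn.sub (ic_lip hl (a4 k) hUQ).continuousOn),
    fun k q hq => ⟨(ic_bd hl (a0 k).le (hUQ hq)).trans (by linarith), ?_, bd k q hq⟩,
    fun q hq => ?_, hη, by simpa using tendsto_one_div_add_atTop_nhds_zero_nat.div_const (2 : ℝ),
    fun k => ⟨r, r1, fun q hq h hh hq' => le_of_forall_pos_le_add fun ε hε => ?_⟩,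
    fun k q hq φ ⟨f1, f2, f3⟩ B b1 b2 => ?_⟩
  · linarith [ic_mono hl (a4 k) ⟨q, hUQ hq⟩ (half_le_self (a0 k).le) q]
  · have h := ic_lim hl (mem_of_superset (hU'.mem_nhds hq) hUQ)
    exact ⟨h.comp a1, by
      simpa using ((h.comp a1).sub (h.comp (a1.atTop_div_const two_pos))).const_mul 2⟩
  · obtain ⟨p, hp1, hp2⟩ := ic_ex (l := l) (a := a k) ⟨q, hUQ hq⟩ q (lt_min hε one_pos)
    have d1 : dist p q ≤ r := le_of_mul_le_mul_left (by
      linarith [(abs_le.1 (ic_bd hl (a0 k).le (hUQ hq))).2, (abs_le.1 (hl p hp1)).1, a2 k,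
        min_le_right ε 1]) (a0 k)
    have d2 : dist (p.1 + h, p.2) (q.1 + h, q.2) = dist p q := by simp [Prod.dist_eq]
    have d3 : (p.1 + h, p.2) ∈ Q := hB _ hq' _ (by linarith)
    have d4 := ic_le hl (a0 k).le d3 (q.1 + h, q.2)
    have d5 := h1₀ p (hr hp1) h hh.1 (hr d3)
    have d6 : C₀ * h ≤ 4 * C * h := mul_le_mul_of_nonneg_right (by linarith) hh.1
    rw [d2] at d4
    linarith [min_le_left ε 1]
  · obtain ⟨p, hp1, hp2, hp3⟩ := ic_min hl (a0 k).le hQ (hUQ hq)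
    have d0 := hp2.trans (bd k q hq)
    have d1 : dist p q ≤ r := le_of_mul_le_mul_left (by linarith [a2 k]) (a0 k)
    have d2 : dist p q < ρ k := lt_of_mul_lt_mul_left (by linarith [a3 k]) (a0 k).le
    obtain ⟨s, s0, hs⟩ := Metric.eventually_nhds_iff.1 f2
    obtain ⟨e1, e2⟩ := shift f1 p q (a k * dist p q)
    have sm : ContDiff ℝ ∞ fun x => φ (x - (p - q)) - a k * dist p q - en (x - p) ^ 2 :=
      ((f1.comp (by fun_prop)).sub contDiff_const).sub ((sq_sm.comp (by fun_prop)).pow 2)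
    have z : φ (p - (p - q)) - a k * dist p q - en (p - p) ^ 2
        = ic Q l (a k) q - a k * dist p q := by simp [en, f3]
    obtain ⟨θ, hθ⟩ : ∃ θ, θ = (1 - 1 / ((k : ℝ) + 1) / 2) * Real.exp (a k * dist p q
      - 2 * (ic Q l (a k) q - ic Q l (a k / 2) q) + (u p - u q)) := ⟨_, rfl⟩
    have t1 : 0 < 1 - 1 / ((k : ℝ) + 1) / 2 := sub_pos.2 (hη k).2
    have t0 : 0 ≤ θ := by rw [hθ]; positivity
    have key := hv p (hr hp1) _ (min s r) sm (lt_min s0 r1) (fun x hx => ?_) (fun ε hε => ?_)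
      ((θ : ℂ) • B) (b1.smul (Complex.zero_le_real.2 t0)) ?_
    · rw [e1, e2, z, Matrix.smul_mul, Matrix.trace_smul, smul_eq_mul, Complex.re_ofReal_mul,
        ← mul_assoc, hθ, mul_left_comm, ← Real.exp_add] at key
      refine le_of_eq_of_le ?_ key
      congr 3
      ring
    · have x1 : dist x p < s := (mem_ball.1 hx).trans_le (min_le_left _ _)
      have x2 : dist x p < r := (mem_ball.1 hx).trans_le (min_le_right _ _)
      have x3 := hs (y := x - (p - q)) (by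
        rwa [dist_eq_norm, show x - (p - q) - q = x - p by abel, ← dist_eq_norm])
      have x4 := ic_le hl (a0 k).le (hB q hq x (by linarith [dist_triangle x p q])) (x - (p - q))
      rw [dist_eq_norm x, sub_sub_cancel, ← dist_eq_norm] at x4
      have x5 := sq_ge (x - p)
      rw [dist_eq_norm x]
      linarith
    · obtain ⟨t, t2, ht⟩ := Metric.continuousAt_iff.1 (sm.continuous.continuousAt (x := p)) _
        (half_pos hε)
      obtain ⟨x, x1, x2⟩ := hp3 _ (lt_min t2 (half_pos hε))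
      have x3 := ht ((mem_ball.1 x1).trans_le (min_le_left _ _))
      rw [Real.dist_eq, z] at x3
      exact ⟨x, ball_subset_ball ((min_le_right _ _).trans (half_le_self hε.le)) x1,
        by linarith [(abs_lt.1 x3).1, min_le_right t (ε / 2)]⟩
    · have := (hρ k ⟨p, hp1⟩ ⟨q, hUQ hq⟩ d2 θ t0 (by
        rw [hθ]
        exact mul_le_mul_of_nonneg_left (Real.exp_le_exp.2 (by
          simp only [domRestrict_apply]; linarith)) t1.le)).add (b2.smul (Complex.zero_le_real.2 t0))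
      rwa [smul_sub, sub_add_sub_cancel] at this

end Vale.Agent.P253W.V
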