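import Vale.Agent.P272.K.H.Heat
import Mathlib.Analysis.Calculus.FDeriv.Partial
import Mathlib.Analysis.Calculus.FDeriv.Extend
import Mathlib.Analysis.Calculus.BumpFunction.FiniteDimension

/-!
# P253W, block V, row VD2: the heat semigroup and viscosity supersolutions
-/

set_option maxSynthPendingDepth 3
set_option linter.unusedSectionVars false

open MeasureTheory Set Filter Topology Metric Vale.Agent.P272.K.H
open scoped RealInnerProductSpace ContDiff

noncomputable section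

namespace Vale.Agent.P253W.V.Vd2

/-- a function which is smooth near `q` agrees near `q` with a smooth function -/
theorem extend {X : Type*} [NormedAddCommGroup X] [NormedSpace ℝ X] [FiniteDimensional ℝ X]
    {O : Set X} {φ : X → ℝ} {q : X} (hO : IsOpen O) (hq : q ∈ O) (h : ContDiffOn ℝ ∞ φ O) :
    ∃ ψ : X → ℝ, ContDiff ℝ ∞ ψ ∧ ψ =ᶠ[𝓝 q] φ := by
  obtain ⟨r, hr, hs⟩ := Metric.isOpen_iff.1 hO q hq
  let β : ContDiffBump q := ⟨r / 4, r / 2, by positivity, by linarith⟩
  refine ⟨fun p => β p * φ p, contDiff_iff_contDiffAt.2 fun p => ?_, ?_⟩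
  · by_cases h1 : p ∈ tsupport β
    · rw [β.tsupport_eq] at h1
      exact β.contDiff.contDiffAt.mul (h.contDiffAt (hO.mem_nhds
        (hs (closedBall_subset_ball (by show r / 2 < r; linarith) h1))))
    · refine (contDiffAt_const (c := (0 : ℝ))).congr_of_eventuallyEq ?_
      filter_upwards [notMem_tsupport_iff_eventuallyEq.1 h1] with y hy
      rw [hy]; simp
  · filter_upwards [β.eventuallyEq_one] with p hp
    rw [hp]; simp

/-- the sum of the second derivatives in the directions `b i` -/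
def Lb {X ι : Type*} [NormedAddCommGroup X] [NormedSpace ℝ X] [Fintype ι] (b : ι → X)
    (f : X → ℝ) (x : X) : ℝ := ∑ i, fderiv ℝ (fderiv ℝ f) x (b i) (b i)

section
variable {X ι : Type*} [NormedAddCommGroup X] [NormedSpace ℝ X] [Fintype ι] {b : ι → X}
  {f g : X → ℝ} {x : X}

theorem Lb_congr (h : f =ᶠ[𝓝 x] g) : Lb b f x = Lb b g x := by
  unfold Lb; rw [h.fderiv.fderiv_eq]

theorem Lb_sub (hf : ContDiffAt ℝ 2 f x) (hg : ContDiffAt ℝ 2 g x) :
    Lb b (fun y => f y - g y) x = Lb b f x - Lb b g x := by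
  have h1 : fderiv ℝ (fun y => f y - g y) =ᶠ[𝓝 x] fun y => fderiv ℝ f y - fderiv ℝ g y := by
    filter_upwards [hf.eventually (by simp), hg.eventually (by simp)] with y h1 h2
    exact fderiv_fun_sub (h1.differentiableAt (by simp)) (h2.differentiableAt (by simp))
  unfold Lb
  rw [h1.fderiv_eq, fderiv_fun_sub
    ((hf.fderiv_right (m := 1) (by norm_num)).differentiableAt (by simp))
    ((hg.fderiv_right (m := 1) (by norm_num)).differentiableAt (by simp)), ← Finset.sum_sub_distrib]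
  rfl

theorem Lb_add_const (c : ℝ) : Lb b (fun y => f y + c) x = Lb b f x := by
  unfold Lb
  have : fderiv ℝ (fun y => f y + c) = fderiv ℝ f := funext fun y => fderiv_add_const c
  rw [this]

theorem fd2 (hf : ContDiffAt ℝ 2 f x) (v w : X) :
    fderiv ℝ (fderiv ℝ f) x v w = fderiv ℝ (fun y => fderiv ℝ f y w) x v := by
  rw [fderiv_clm_apply ((hf.fderiv_right (m := 1) (by norm_num)).differentiableAt (by simp))
    (differentiableAt_const w)]
  simp

end

variable {E : Type} [NormedAddCommGroup E] [InnerProductSpace ℝ E] [FiniteDimensional ℝ E]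
  [MeasurableSpace E] [BorelSpace E] {f : E → ℝ} {M : ℝ}

theorem cont_avg {F : Type} [NormedAddCommGroup F] [NormedSpace ℝ F] {k : E → F} (hk : Kern k)
    (hf : Continuous f) (hM : ∀ x, |f x| ≤ M) :
    Continuous fun q : ℝ × E => avg k q.1 f q.2 := by
  unfold avg
  refine continuous_of_dominated (bound := fun z => M * ‖k z‖)
    (fun q => (integrable_avg hk hf hM q.1 q.2).aestronglyMeasurable)
    (fun q => Eventually.of_forall fun z => ?_) (hk.integrable.norm.const_mul M)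
    (Eventually.of_forall fun z => by fun_prop)
  rw [norm_smul, Real.norm_eq_abs]
  exact mul_le_mul_of_nonneg_right (hM _) (norm_nonneg _)

theorem sm_avg (hf : Continuous f) (hM : ∀ x, |f x| ≤ M) (m : ℕ) :
    ∀ (F : Type) [NormedAddCommGroup F] [NormedSpace ℝ F] [CompleteSpace F] (p : E → F),
      p.HasTemperateGrowth →
      ContDiffOn ℝ m (fun q : ℝ × E => avg (Gk p) q.1 f q.2) (Ioi 0 ×ˢ univ) := by
  induction m with
  | zero =>
    intro F _ _ _ p hp
    exact contDiffOn_zero.2 (cont_avg (kern_Gk hp) hf hM).continuousOn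
  | succ m ih =>
    intro F _ _ _ p hp
    have hO : IsOpen (Ioi (0 : ℝ) ×ˢ (univ : Set E)) := isOpen_Ioi.prod isOpen_univ
    set p' : E → F := fun z => -((Module.finrank ℝ E : ℝ) • p z) - pstep p z z with hp'
    have tp : p'.HasTemperateGrowth := by
      refine Function.HasTemperateGrowth.sub
        ((Function.HasTemperateGrowth.const (Module.finrank ℝ E : ℝ)).smul hp).neg ?_
      exact (ContinuousLinearMap.id ℝ (E →L[ℝ] F)).bilinear_hasTemperateGrowth (tg_pstep hp)
        Function.HasTemperateGrowth.id'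
    have e : ∀ z, Gk p' z = -((Module.finrank ℝ E : ℝ) • Gk p z) - Gk (pstep p) z z := by
      intro z
      simp only [Gk, hp', smul_sub, smul_neg, smul_apply]
      rw [smul_comm]
    set f₁ : ℝ → E → ℝ →L[ℝ] F := fun s x =>
      ContinuousLinearMap.smulRightL ℝ ℝ F 1 (s⁻¹ • avg (Gk p') s f x)
    set f₂ : ℝ → E → E →L[ℝ] F := fun s x => s⁻¹ • avg (Gk (pstep p)) s f x
    have hi : ContDiffOn ℝ m (fun q : ℝ × E => q.1⁻¹) (Ioi 0 ×ˢ univ) :=
      contDiffOn_fst.inv fun q hq => ne_of_gt hq.1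
    have c1 : ContDiffOn ℝ m (fun q : ℝ × E => f₁ q.1 q.2) (Ioi 0 ×ˢ univ) :=
      (ContinuousLinearMap.smulRightL ℝ ℝ F 1).contDiff.comp_contDiffOn (hi.smul (ih F p' tp))
    have c2 : ContDiffOn ℝ m (fun q : ℝ × E => f₂ q.1 q.2) (Ioi 0 ×ˢ univ) :=
      hi.smul (ih _ _ (tg_pstep hp))
    have hd : ∀ u ∈ Ioi (0 : ℝ) ×ˢ (univ : Set E), HasFDerivAt
        (fun q : ℝ × E => avg (Gk p) q.1 f q.2) ((f₁ u.1 u.2).coprod (f₂ u.1 u.2)) u := by
      intro u hu
      refine (hasStrictFDerivAt_uncurry_coprod (f := fun s x => avg (Gk p) s f x) (f₁ := f₁)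
        (f₂ := f₂) ?_ ?_ (c1.continuousOn.continuousAt (hO.mem_nhds hu))
        (c2.continuousOn.continuousAt (hO.mem_nhds hu))).hasFDerivAt
      · filter_upwards [hO.mem_nhds hu] with v hv
        exact (hasDerivAt_avg_s (kern_Gk hp) (kern_Gk tp) (hasFDerivAt_Gk hp) e hf hM hv.1
          v.2).hasFDerivAt
      · filter_upwards [hO.mem_nhds hu] with v hv
        exact hasFDerivAt_avg (kern_Gk hp) (kern_Gk (tg_pstep hp)) (hasFDerivAt_Gk hp) hf hM
          hv.1 v.2
    rw [Nat.cast_succ, contDiffOn_succ_iff_fderiv_of_isOpen hO]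
    refine ⟨fun u hu => (hd u hu).differentiableAt.differentiableWithinAt, by simp, ?_⟩
    refine ContDiffOn.congr ?_ fun u hu => (hd u hu).fderiv
    exact (ContinuousLinearMap.coprodEquivL ℝ (E := ℝ) (F := E) (G := F)).contDiff.comp_contDiffOn
      (c1.prodMk c2)

/-- the heat semigroup -/
def ht (f : E → ℝ) (q : ℝ × E) : ℝ := avg (Gk q0) √q.1 f q.2

theorem ht_cont (hf : Continuous f) (hM : ∀ x, |f x| ≤ M) : Continuous (ht f) :=
  (cont_avg (kern_Gk tg0) hf hM).comp (by fun_prop : Continuous fun q : ℝ × E => (√q.1, q.2))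

theorem ht_sm (hf : Continuous f) (hM : ∀ x, |f x| ≤ M) :
    ContDiffOn ℝ ∞ (ht f) (Ioi 0 ×ˢ univ) :=
  (contDiffOn_infty.2 fun m => sm_avg hf hM m ℝ q0 tg0).comp
    ((contDiffOn_fst.sqrt fun _ hq => ne_of_gt hq.1).prodMk contDiffOn_snd)
    fun _ hq => ⟨Real.sqrt_pos.2 hq.1, trivial⟩

theorem ht_zero (x : E) : ht f (0, x) = f x := by
  simp only [ht, avg, Real.sqrt_zero, zero_smul, sub_zero, smul_eq_mul]
  rw [integral_const_mul, integral_k0, mul_one]

theorem Gk0 (z : E) : Gk q0 z = G z := by simp [Gk, q0]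

theorem ht_le (hM : ∀ x, |f x| ≤ M) (q : ℝ × E) : ht f q ≤ M := by
  have h := norm_avg_le (kern_Gk (E := E) tg0) hM √q.1 q.2
  have h2 : ∫ z : E, ‖Gk q0 z‖ = 1 := by
    rw [← integral_k0 (E := E)]
    exact integral_congr_ae (Eventually.of_forall fun z => by
      simp only [Gk0]; exact Real.norm_of_nonneg (G_pos z).le)
  rw [h2, mul_one] at h
  exact (le_abs_self _).trans h

variable {ι : Type} [Fintype ι] (b : OrthonormalBasis ι ℝ E)

theorem ht_eq (hf : Continuous f) (hM : ∀ x, |f x| ≤ M) {s : ℝ} (hs : 0 < s) (x : E) :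
    HasDerivAt (fun s => ht f (s, x)) (Lb b (fun y => ht f (s, y)) x) s := by
  have hσ := Real.sqrt_pos.2 hs
  have h1 : fderiv ℝ (fun y => ht f (s, y)) = fun y => (√s)⁻¹ • avg (Gk q1) √s f y :=
    funext fun y => (hasFDerivAt_avg (kern_Gk tg0) (kern_Gk tg1) (hasFDerivAt_Gk tg0) hf hM hσ
      y).fderiv
  have h2 := ((hasFDerivAt_avg (kern_Gk tg1) (kern_Gk tg2) (hasFDerivAt_Gk tg1) hf hM hσ
    x).const_smul (√s)⁻¹).fderiv
  have h3 : trL b (avg (Gk q2) √s f x) = 1 / 2 * avg kap √s f x := by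
    unfold avg
    rw [← (trL b).integral_comp_comm (integrable_avg (kern_Gk tg2) hf hM _ _),
      ← integral_const_mul]
    refine integral_congr_ae (Eventually.of_forall fun z => ?_)
    simp only [map_smul, trL_k2, smul_eq_mul]
    ring
  have h4 := (hasDerivAt_avg_s (kern_Gk tg0) kern_kap (hasFDerivAt_Gk tg0) kap_eq hf hM hσ x).comp
    s (Real.hasDerivAt_sqrt hs.ne')
  refine h4.congr_deriv ?_
  rw [Lb, h1, ← trL_apply]
  erw [h2]
  rw [map_smul, map_smul, h3]
  simp only [smul_eq_mul]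
  field_simp

theorem Lb_exp (c μ : ℝ) (x : E) : Lb b (fun y => c * Real.exp (μ * ‖y‖ ^ 2)) x =
    (2 * Fintype.card ι * μ + 4 * μ ^ 2 * ‖x‖ ^ 2) * (c * Real.exp (μ * ‖x‖ ^ 2)) := by
  have h1 : ∀ y : E, HasFDerivAt (fun y : E => c * Real.exp (μ * ‖y‖ ^ 2))
      ((c * Real.exp (μ * ‖y‖ ^ 2)) • (2 * μ) • innerSL ℝ y) y := fun y => by
    refine ((((hasStrictFDerivAt_norm_sq y).hasFDerivAt.const_mul μ).exp).const_mul c).congr_fderiv
      ?_
    ext v; simp; ring
  have h2 := (h1 x).smul (((innerSL ℝ : E →L[ℝ] E →L[ℝ] ℝ).hasFDerivAt (x := x)).const_smul (2 * μ))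
  rw [Lb, funext fun y => (h1 y).fderiv]
  erw [h2.fderiv]
  have h3 : ∀ i, ⟪b i, b i⟫ = 1 := fun i => by
    rw [real_inner_self_eq_norm_sq, b.norm_eq_one]; norm_num
  have h4 := b.sum_sq_inner_left x
  rw [add_mul, ← h4, Finset.mul_sum _ _ (4 * μ ^ 2), Finset.sum_mul, h4,
    show 2 * (Fintype.card ι : ℝ) * μ * (c * Real.exp (μ * ‖x‖ ^ 2)) =
      ∑ _i : ι, 2 * μ * (c * Real.exp (μ * ‖x‖ ^ 2)) by simp; ring, ← Finset.sum_add_distrib]
  refine Finset.sum_congr rfl fun i _ => ?_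
  show c * Real.exp (μ * ‖x‖ ^ 2) * (2 * μ * ⟪b i, b i⟫) +
    c * Real.exp (μ * ‖x‖ ^ 2) * (2 * μ * ⟪x, b i⟫) * (2 * μ * ⟪x, b i⟫) = _
  rw [h3]; ring

/-- viscosity supersolutions of the heat equation -/
def Vis (l : ℝ × E → ℝ) (O : Set (ℝ × E)) : Prop :=
  ∀ q ∈ O, ∀ φ : ℝ × E → ℝ, ContDiff ℝ ∞ φ → (∀ᶠ p in 𝓝 q, φ p ≤ l p) → φ q = l q →
    Lb b (fun y => φ (q.1, y)) q.2 ≤ deriv (fun s => φ (s, q.2)) q.1

/-- the error -/
def err (N : ℕ) (M r s : ℝ) : ℝ := 2 * M * Real.exp (-(r ^ 2 / √s) + (2 * N * √s + 4 * r ^ 2))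

/-- the mean value inequality -/
theorem mv {l : ℝ × E → ℝ} {r s : ℝ} (hl : Continuous l) (hM : ∀ q, |l q| ≤ M)
    (hv : Vis b l (Ioo 0 r ×ˢ ball 0 r)) (hs : 0 < s) (hsr : 2 * s ≤ r) :
    ht (fun y => l (0, y)) (s, 0) ≤ l (s, 0) + err (Fintype.card ι) M r s := by
  have hM0 : 0 ≤ M := (abs_nonneg _).trans (hM 0)
  have hσ := Real.sqrt_pos.2 hs
  set f : E → ℝ := fun y => l (0, y)
  have hf : Continuous f := by fun_prop
  have hfM : ∀ y, |f y| ≤ M := fun y => hM _
  set μ := (√s)⁻¹ with hμ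
  have hμ0 : 0 < μ := inv_pos.2 hσ
  set lam := 2 * Fintype.card ι * μ + 4 * μ ^ 2 * r ^ 2 with hlam
  have hl0 : 0 ≤ lam := by positivity
  set c : ℝ → ℝ := fun t => 2 * M * Real.exp (lam * t - μ * r ^ 2) with hc
  refine le_of_forall_pos_le_add fun η hη => ?_
  set K := (2 * M + 1) / (η * s) with hK
  have hK0 : 0 < K := by positivity
  set w : ℝ × E → ℝ := fun q => ht f q - c q.1 * Real.exp (μ * ‖q.2‖ ^ 2) -
    η * Real.exp (K * (q.1 - s)) with hw
  have hwc : Continuous w := ((ht_cont hf hfM).sub (by fun_prop)).sub (by fun_prop)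
  have hr : 0 < r := by linarith
  have hQ : IsCompact (Icc 0 (2 * s) ×ˢ closedBall (0 : E) r) :=
    isCompact_Icc.prod (isCompact_closedBall _ _)
  have h0 : ((s, 0) : ℝ × E) ∈ Icc 0 (2 * s) ×ˢ closedBall (0 : E) r :=
    ⟨⟨hs.le, by show s ≤ 2 * s; linarith⟩, mem_closedBall_self hr.le⟩
  obtain ⟨q, hq, hmin⟩ := hQ.exists_isMinOn ⟨_, h0⟩ (hl.sub hwc).continuousOn
  have hβ : 0 ≤ c q.1 * Real.exp (μ * ‖q.2‖ ^ 2) := by positivity
  have hP : 0 < η * Real.exp (K * (q.1 - s)) := by positivity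
  have key : 0 ≤ l q - w q := by
    by_contra hneg
    have hle := ht_le hfM q
    have hge := (abs_le.1 (hM q)).1
    have a1 : q.1 ≠ 0 := fun h => by
      have : ht f q = l q := by rw [show q = (0, q.2) from Prod.ext h rfl, ht_zero]
      simp only [hw] at hneg; linarith
    have a2 : q.1 ≠ 2 * s := fun h => by
      have h1 : K * (q.1 - s) + 1 ≤ Real.exp (K * (q.1 - s)) := Real.add_one_le_exp _
      have h2 : η * (K * (q.1 - s)) = 2 * M + 1 := by rw [h, hK]; field_simp; ring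
      simp only [hw] at hneg; nlinarith
    have a3 : ‖q.2‖ ≠ r := fun h => by
      have h1 : c q.1 * Real.exp (μ * ‖q.2‖ ^ 2) = 2 * M * Real.exp (lam * q.1) := by
        rw [hc, h, mul_assoc, ← Real.exp_add]; congr 2; ring
      have h2 : 1 ≤ Real.exp (lam * q.1) := Real.one_le_exp (mul_nonneg hl0 hq.1.1)
      simp only [hw] at hneg; nlinarith
    have b1 : 0 < q.1 := lt_of_le_of_ne hq.1.1 a1.symm
    have b2 : q.1 < 2 * s := lt_of_le_of_ne hq.1.2 a2
    have b3 : ‖q.2‖ < r := lt_of_le_of_ne (mem_closedBall_zero_iff.1 hq.2) a3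
    have hO : IsOpen (Ioi (0 : ℝ) ×ˢ (univ : Set E)) := isOpen_Ioi.prod isOpen_univ
    have hn : ContDiff ℝ ∞ fun q : ℝ × E => ‖q.2‖ ^ 2 := (contDiff_norm_sq ℝ).comp contDiff_snd
    have hws : ContDiffOn ℝ ∞ (fun p => w p + (l q - w q)) (Ioi 0 ×ˢ univ) :=
      (((ht_sm hf hfM).sub (ContDiff.contDiffOn (by simp only [hc]; fun_prop))).sub
        (ContDiff.contDiffOn (by fun_prop))).add contDiffOn_const
    obtain ⟨φ, hφ, he⟩ := extend hO (⟨b1, trivial⟩ : q ∈ Ioi 0 ×ˢ univ) hws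
    have hnb : Icc 0 (2 * s) ×ˢ closedBall (0 : E) r ∈ 𝓝 q := prod_mem_nhds (Icc_mem_nhds b1 b2)
      (mem_of_superset (isOpen_ball.mem_nhds (mem_ball_zero_iff.2 b3)) ball_subset_closedBall)
    have h1 := hv q ⟨⟨b1, by linarith⟩, mem_ball_zero_iff.2 b3⟩ φ hφ (by
      filter_upwards [he, hnb] with p h1 h2
      have : l q - w q ≤ l p - w p := hmin h2
      linarith) (by rw [he.eq_of_nhds]; ring)
    have e1 : (fun y => φ (q.1, y)) =ᶠ[𝓝 q.2] fun y => (ht f (q.1, y) -
        c q.1 * Real.exp (μ * ‖y‖ ^ 2)) + (l q - w q - η * Real.exp (K * (q.1 - s))) := by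
      filter_upwards [(Continuous.prodMk_right q.1).continuousAt.eventually he] with y hy
      rw [hy]; ring
    have e2 : (fun t => φ (t, q.2)) =ᶠ[𝓝 q.1] fun t => w (t, q.2) + (l q - w q) :=
      (Continuous.prodMk_left q.2).continuousAt.eventually he
    have d1 : HasDerivAt c (lam * c q.1) q.1 := by
      refine ((((hasDerivAt_id q.1).const_mul lam).sub_const _).exp.const_mul _).congr_deriv ?_
      simp only [hc, id]; ring
    have d2 := ((((ht_eq b hf hfM b1 q.2).sub (d1.mul_const (Real.exp (μ * ‖q.2‖ ^ 2)))).sub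
      ((((hasDerivAt_id q.1).sub_const s).const_mul K).exp.const_mul η)).add_const
        (l q - w q)).deriv
    have s1 : ContDiffAt ℝ 2 (fun y => ht f (q.1, y)) q.2 :=
      (((ht_sm hf hfM).contDiffAt (x := (q.1, q.2)) (hO.mem_nhds ⟨b1, trivial⟩)).comp q.2
        (f := fun y => (q.1, y)) (by fun_prop)).of_le (by norm_cast)
    rw [Lb_congr e1, e2.deriv_eq, Lb_add_const, Lb_sub s1
      ((contDiff_const.mul (contDiff_const.mul (contDiff_norm_sq ℝ)).exp).contDiffAt), Lb_exp] at h1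
    erw [d2] at h1
    have h5 : ‖q.2‖ ^ 2 ≤ r ^ 2 := by gcongr
    have h6 : (2 * Fintype.card ι * μ + 4 * μ ^ 2 * ‖q.2‖ ^ 2) *
        (c q.1 * Real.exp (μ * ‖q.2‖ ^ 2)) ≤ lam * (c q.1 * Real.exp (μ * ‖q.2‖ ^ 2)) := by
      rw [hlam]; gcongr
    simp only [id] at h1
    nlinarith [mul_pos hP hK0]
  have h1 : l q - w q ≤ l (s, 0) - w (s, 0) := hmin h0
  have h2 : c s = err (Fintype.card ι) M r s := by
    have h3 : √s * √s = s := Real.mul_self_sqrt hs.le
    have h4 : lam * s - μ * r ^ 2 = -(r ^ 2 / √s) + (2 * Fintype.card ι * √s + 4 * r ^ 2) := by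
      rw [hlam, hμ]
      nth_rewrite 3 [← h3]
      field_simp
      ring
    simp only [hc, err, h4]
  simp only [hw, norm_zero, sub_self, mul_zero, Real.exp_zero, mul_one, h2] at h1
  simp only [hw] at key
  norm_num at h1
  linarith

theorem fderiv_avg {g : E → ℝ} (hg : ContDiff ℝ 1 g) (hc : HasCompactSupport g) (σ : ℝ) (x v : E) :
    fderiv ℝ (avg (Gk q0) σ g) x v = avg (Gk q0) σ (fun y => fderiv ℝ g y v) x := by
  have hk := kern_Gk (E := E) tg0
  have c1 := hg.continuous_fderiv (by simp)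
  obtain ⟨A, hA⟩ := hc.exists_bound_of_continuous hg.continuous
  obtain ⟨B, hB⟩ := (hc.fderiv ℝ).exists_bound_of_continuous c1
  have c2 := hk.cont
  have hb : ∀ y z : E, ‖Gk q0 z • fderiv ℝ g (y - σ • z)‖ ≤ ‖Gk q0 z‖ * B := fun y z => by
    rw [norm_smul]; exact mul_le_mul_of_nonneg_left (hB _) (norm_nonneg _)
  have h := hasFDerivAt_integral_of_dominated_of_fderiv_le (μ := volume) (x₀ := x) (s := univ)
    (F := fun y z => g (y - σ • z) • Gk q0 z) (F' := fun y z => Gk q0 z • fderiv ℝ g (y - σ • z))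
    (bound := fun z => ‖Gk q0 z‖ * B) univ_mem
    (Eventually.of_forall fun y => (integrable_avg hk hg.continuous hA σ y).aestronglyMeasurable)
    (integrable_avg hk hg.continuous hA σ x) (aesm (by fun_prop))
    (Eventually.of_forall fun z y _ => hb y z) (hk.integrable.norm.mul_const B)
    (Eventually.of_forall fun z y _ => by
      have h1 := ((hg.differentiable (by simp)) (y - σ • z)).hasFDerivAt.comp y
        ((hasFDerivAt_id y).sub_const (σ • z))
      refine (h1.mul_const (Gk q0 z)).congr_fderiv ?_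
      simp)
  erw [h.fderiv]
  rw [ContinuousLinearMap.integral_apply ((hk.integrable.norm.mul_const B).mono'
    (aesm (by fun_prop)) (Eventually.of_forall (hb x)))]
  exact integral_congr_ae (Eventually.of_forall fun z => mul_comm _ _)

theorem Lb_ht {g : E → ℝ} (hg : ContDiff ℝ ∞ g) (hc : HasCompactSupport g) {s : ℝ} (hs : 0 < s)
    (x : E) : Lb b (fun y => ht g (s, y)) x =
      ∑ i, ht (fun y => fderiv ℝ (fun y => fderiv ℝ g y (b i)) y (b i)) (s, x) := by
  obtain ⟨A, hA⟩ := hc.exists_bound_of_continuous hg.continuous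
  have s1 : ContDiffAt ℝ 2 (fun y => ht g (s, y)) x :=
    (((ht_sm hg.continuous hA).contDiffAt (x := (s, x))
      ((isOpen_Ioi.prod isOpen_univ).mem_nhds ⟨hs, trivial⟩)).comp x
      (f := fun y => (s, y)) (by fun_prop)).of_le (by norm_cast)
  refine Finset.sum_congr rfl fun i _ => ?_
  rw [fd2 s1]
  have : (fun y => fderiv ℝ (fun y => ht g (s, y)) y (b i)) =
      avg (Gk q0) √s (fun y => fderiv ℝ g y (b i)) :=
    funext fun y => fderiv_avg (hg.of_le (by norm_cast)) hc (√s) y (b i)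
  rw [this]
  exact fderiv_avg ((hg.fderiv_right (m := 1) (by norm_cast)).clm_apply contDiff_const)
    (hc.fderiv_apply ℝ _) _ _ _

/-- the generator -/
theorem gen {g : E → ℝ} (hg : ContDiff ℝ ∞ g) (hc : HasCompactSupport g) :
    HasDerivWithinAt (fun s => ht g (s, 0)) (Lb b g 0) (Ici 0) 0 := by
  obtain ⟨A, hA⟩ := hc.exists_bound_of_continuous hg.continuous
  refine hasDerivWithinAt_Ici_of_tendsto_deriv (s := Ioi 0)
    (fun s hs => (ht_eq b hg.continuous hA hs 0).differentiableAt.differentiableWithinAt)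
    ((ht_cont hg.continuous hA).comp (Continuous.prodMk_left 0)).continuousWithinAt
    self_mem_nhdsWithin ?_
  have h1 : Continuous fun s : ℝ =>
      ∑ i, ht (fun y => fderiv ℝ (fun y => fderiv ℝ g y (b i)) y (b i)) (s, 0) := by
    refine continuous_finsetSum _ fun i _ => ?_
    have c1 : Continuous fun y => fderiv ℝ (fun y => fderiv ℝ g y (b i)) y (b i) :=
      (((hg.fderiv_right (m := 1) (by norm_cast)).clm_apply contDiff_const).continuous_fderiv
        (by simp)).clm_apply continuous_const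
    obtain ⟨B, hB⟩ := ((hc.fderiv_apply ℝ (b i)).fderiv_apply ℝ (b i)).exists_bound_of_continuous c1
    exact (ht_cont c1 hB).comp (Continuous.prodMk_left 0)
  have h2 := (h1.tendsto 0).mono_left (nhdsWithin_le_nhds (s := Ioi 0))
  simp only [ht_zero, ← fd2 (hg.contDiffAt.of_le (by norm_cast : (2 : WithTop ℕ∞) ≤ ∞))] at h2
  refine Tendsto.congr' ?_ h2
  filter_upwards [self_mem_nhdsWithin] with s hs
  rw [(ht_eq b hg.continuous hA hs 0).deriv, Lb_ht b hg hc hs]
  simp only [← fd2 (hg.contDiffAt.of_le (by norm_cast : (2 : WithTop ℕ∞) ≤ ∞))]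

theorem err_lim (N : ℕ) {M r : ℝ} (hM : 0 ≤ M) (hr : 0 < r) :
    Tendsto (fun s => err N M r s / s) (𝓝[>] 0) (𝓝 0) := by
  have h1 : Tendsto (fun s : ℝ => 2 * M * (24 / r ^ 8 * s * Real.exp (2 * N * √s + 4 * r ^ 2)))
      (𝓝[>] 0) (𝓝 0) := by
    have : Continuous fun s : ℝ => 2 * M * (24 / r ^ 8 * s * Real.exp (2 * N * √s + 4 * r ^ 2)) := by
      fun_prop
    simpa using (this.tendsto 0).mono_left (nhdsWithin_le_nhds (s := Ioi 0))
  refine squeeze_zero' ?_ ?_ h1
  · filter_upwards [self_mem_nhdsWithin] with s hs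
    have : 0 < s := hs
    unfold err; positivity
  · filter_upwards [self_mem_nhdsWithin] with s hs
    have hs : 0 < s := hs
    have hσ := Real.sqrt_pos.2 hs
    have h3 : √s ^ 4 = s ^ 2 := by
      rw [show √s ^ 4 = (√s ^ 2) ^ 2 by ring, Real.sq_sqrt hs.le]
    have h2 := Real.pow_div_factorial_le_exp (r ^ 2 / √s) (by positivity) 4
    rw [div_pow, h3] at h2
    have h4 : Real.exp (-(r ^ 2 / √s)) ≤ 24 / r ^ 8 * s * s := by
      rw [Real.exp_neg]
      refine (inv_anti₀ (by positivity) h2).trans (le_of_eq ?_)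
      simp only [Nat.factorial]
      field_simp
      norm_num
    rw [err, Real.exp_add, div_le_iff₀ hs]
    calc _ ≤ 2 * M * (24 / r ^ 8 * s * s * Real.exp (2 * N * √s + 4 * r ^ 2)) := by gcongr
      _ = _ := by ring

/-- from the mean value inequality to the differential inequality -/
theorem lim {g : E → ℝ} (hg : ContDiff ℝ ∞ g) (hc : HasCompactSupport g) {a : ℝ → ℝ}
    {a' M r c : ℝ} (ha : HasDerivAt a a' 0) (h0 : a 0 = g 0) (hM : 0 ≤ M) (hr : 0 < r)
    (h : ∀ s, 0 < s → 2 * s ≤ r → ht g (s, 0) ≤ a s + c * err (Fintype.card ι) M r s) :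
    Lb b g 0 ≤ a' := by
  have h1 := hasDerivWithinAt_iff_tendsto_slope' (self_notMem_Ioi (a := (0 : ℝ))) |>.1
    ((gen b hg hc).mono Ioi_subset_Ici_self)
  have h2 := hasDerivWithinAt_iff_tendsto_slope' (self_notMem_Ioi (a := (0 : ℝ))) |>.1
    ha.hasDerivWithinAt
  have h3 := h2.add ((err_lim (Fintype.card ι) hM hr).const_mul c)
  rw [mul_zero, add_zero] at h3
  refine le_of_tendsto_of_tendsto h1 h3 ?_
  filter_upwards [Ioc_mem_nhdsGT (half_pos hr)] with s hs
  have h4 := h s hs.1 (by linarith [hs.2])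
  rw [slope_def_field, slope_def_field, ht_zero, h0, sub_zero, ← mul_div_assoc, ← add_div]
  exact div_le_div_of_nonneg_right (by linarith) hs.1.le

end Vale.Agent.P253W.V.Vd2
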