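import Vale.Agent.P253W.V.Defs
import Vale.Agent.P253W.V.Vd2a
import Vale.Agent.P253Z.B1b.Lin
import Vale.Agent.P272.K.C2.PosLin

/-!
# P253W, block V, row VD2
-/

set_option linter.unusedSectionVars false

open scoped ContDiff Topology ComplexConjugate ComplexOrder Matrix Convolution
open MeasureTheory Set Metric Filter Vale.Agent.P272.K.H
open Vale.Agent.P272.K (Cm dz dzb cHess)

noncomputable section

namespace Vale.Agent.P253W.V

namespace Vd2

theorem frame {n : ℕ} {A : Mx n} (hA : A.PosDef) :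
    ∃ w : Module.Basis (Fin 2 × Fin n) ℝ (Cm n), ∀ (ψ : Cm n → ℝ) (z : Cm n),
      ContDiffAt ℝ 2 ψ z → (A * cHess ψ z).trace.re = Lb w ψ z := by
  obtain ⟨C, hC⟩ := P272.K.C2.exists_factor hA.posSemidef
  have h0 : ((1 / 2 : ℂ) • Cᵀ).det ≠ 0 := by
    have h1 := hA.det_pos.ne'
    rw [hC, Matrix.det_mul] at h1
    rw [Matrix.det_smul, Matrix.det_transpose]
    exact mul_ne_zero (by simp) (right_ne_zero_of_mul h1)
  let e := Matrix.toLinearEquiv' _ (Matrix.invertibleOfIsUnitDet _ (isUnit_iff_ne_zero.2 h0))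
  have he : ∀ m j, (Pi.basisFun ℂ (Fin n)).map e m j = 1 / 2 * C m j := fun m j => by
    show (((1 / 2 : ℂ) • Cᵀ) *ᵥ (Pi.basisFun ℂ (Fin n) m)) j = _
    simp
  refine ⟨Complex.basisOneI.smulTower ((Pi.basisFun ℂ (Fin n)).map e), fun ψ z h => ?_⟩
  rw [Lb, Fintype.sum_prod_type_right]
  simp only [Module.Basis.smulTower_apply, Fin.sum_univ_two, Complex.coe_basisOneI,
    Matrix.cons_val_zero, Matrix.cons_val_one, one_smul, P253Z.MC.levi h, he]
  rw [← Finset.mul_sum, ← Complex.re_sum, hC]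
  have : (Cᴴ * C * cHess ψ z).trace = (4 : ℝ) * ∑ m, ∑ j, ∑ k,
      cHess ψ z j k * (1 / 2 * C m j * conj (1 / 2 * C m k)) := by
    simp only [Matrix.trace, Matrix.diag_apply, Matrix.mul_apply, Finset.sum_mul, Finset.mul_sum,
      Matrix.conjTranspose_apply]
    rw [Finset.sum_comm]
    refine (Finset.sum_congr rfl fun j _ => Finset.sum_comm).trans (Finset.sum_comm.trans ?_)
    refine Finset.sum_congr rfl fun m _ => Finset.sum_congr rfl fun j _ =>
      Finset.sum_congr rfl fun k _ => ?_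
    simp only [map_mul, map_div₀, map_one, map_ofNat, RCLike.star_def]
    push_cast
    ring
  rw [this, Complex.re_ofReal_mul]

section
variable {X Y ι : Type*} [NormedAddCommGroup X] [NormedSpace ℝ X] [NormedAddCommGroup Y]
  [NormedSpace ℝ Y] [Fintype ι]

theorem fd_aff {ψ : Y → ℝ} (h : Differentiable ℝ ψ) (y₀ : Y) (T : X →L[ℝ] Y) (x v : X) :
    fderiv ℝ (fun x => ψ (y₀ + T x)) x v = fderiv ℝ ψ (y₀ + T x) (T v) := by
  have := ((h (y₀ + T x)).hasFDerivAt.comp x (T.hasFDerivAt.const_add y₀)).fderiv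
  erw [this]; rfl

theorem dir {ψ : Y → ℝ} (h : ContDiff ℝ ∞ ψ) (v : Y) : ContDiff ℝ ∞ fun y => fderiv ℝ ψ y v :=
  (h.fderiv_right (m := ∞) (by norm_cast)).clm_apply contDiff_const

theorem c2 {ψ : Y → ℝ} (h : ContDiff ℝ ∞ ψ) (y : Y) : ContDiffAt ℝ 2 ψ y :=
  h.contDiffAt.of_le (by norm_cast)

theorem Lb_aff {ψ : Y → ℝ} (h : ContDiff ℝ ∞ ψ) (y₀ : Y) (T : X →L[ℝ] Y) (b : ι → X) (x : X) :
    Lb b (fun x => ψ (y₀ + T x)) x = Lb (fun i => T (b i)) ψ (y₀ + T x) := by
  refine Finset.sum_congr rfl fun i _ => ?_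
  rw [fd2 (c2 (ψ := fun x => ψ (y₀ + T x)) (h.comp (by fun_prop)) x), fd2 (c2 h _)]
  simp only [fd_aff (h.differentiable (by simp))]
  exact fd_aff ((dir h _).differentiable (by simp)) _ _ _ _

variable [FiniteDimensional ℝ Y] [MeasurableSpace Y] [BorelSpace Y] (μ : Measure Y)
  [μ.IsAddHaarMeasure] {l ψ : Y → ℝ}

/-- averages of translates -/
def cv (l ψ : Y → ℝ) (p : Y) : ℝ := ∫ q, l q * ψ (q - p) ∂μ

theorem cv_eq : cv μ l ψ = l ⋆[ContinuousLinearMap.lsmul ℝ ℝ, μ] fun x => ψ (-x) := by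
  funext p; simp [cv, convolution_def]

theorem cv_sm (hl : Continuous l) (h : ContDiff ℝ ∞ ψ) (hc : HasCompactSupport ψ) :
    ContDiff ℝ ∞ (cv μ l ψ) := by
  rw [cv_eq]
  exact (hc.comp_homeomorph (Homeomorph.neg Y)).contDiff_convolution_right _ hl.locallyIntegrable
    (h.comp contDiff_neg)

theorem cv_fd (hl : Continuous l) (h : ContDiff ℝ ∞ ψ) (hc : HasCompactSupport ψ) (p v : Y) :
    fderiv ℝ (cv μ l ψ) p v = cv μ l (fun y => fderiv ℝ ψ y (-v)) p := by
  have h1 : HasCompactSupport fun x => ψ (-x) := hc.comp_homeomorph (Homeomorph.neg Y)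
  have h2 : ContDiff ℝ 1 fun x => ψ (-x) := (h.comp contDiff_neg).of_le (by norm_cast)
  rw [cv_eq, (h1.hasFDerivAt_convolution_right _ hl.locallyIntegrable h2 p).fderiv,
    convolution_precompR_apply _ hl.locallyIntegrable (h1.fderiv ℝ)
      (h2.continuous_fderiv (by simp)), cv_eq]
  congr 2
  funext y
  simpa using fd_aff (h.differentiable (by simp)) 0 (-ContinuousLinearMap.id ℝ Y) y v

theorem cv_Lb (hl : Continuous l) (h : ContDiff ℝ ∞ ψ) (hc : HasCompactSupport ψ) (b : ι → Y) :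
    Integrable (fun q => l q * Lb b ψ q) μ ∧ Lb b (cv μ l ψ) 0 = ∫ q, l q * Lb b ψ q ∂μ := by
  have e : (fun q => l q * Lb b ψ q) = fun q =>
      ∑ i, l q * fderiv ℝ (fun y => fderiv ℝ ψ y (-b i)) q (-b i) := by
    funext q
    rw [Lb, Finset.mul_sum]
    exact Finset.sum_congr rfl fun i _ => by rw [← fd2 (c2 h q)]; simp
  have hi : ∀ i, Integrable (fun q => l q * fderiv ℝ (fun y => fderiv ℝ ψ y (-b i)) q (-b i)) μ :=
    fun i => (hl.mul (dir (dir h _) _).continuous).integrable_of_hasCompactSupport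
      ((hc.fderiv_apply ℝ _).fderiv_apply ℝ _).mul_left
  rw [e, integral_finsetSum _ fun i _ => hi i]
  refine ⟨integrable_finsetSum _ fun i _ => hi i, Finset.sum_congr rfl fun i _ => ?_⟩
  rw [fd2 (c2 (cv_sm μ hl h hc) 0), funext fun y => cv_fd μ hl h hc y (b i),
    cv_fd μ hl (dir h _) (hc.fderiv_apply ℝ _)]
  simp [cv]

end

section
variable {Y ι : Type} [NormedAddCommGroup Y] [NormedSpace ℝ Y] [Fintype ι]

theorem dT_eq {ψ : ℝ × Y → ℝ} (h : ContDiff ℝ ∞ ψ) (q : ℝ × Y) :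
    HasDerivAt (fun s => ψ (s, q.2)) (fderiv ℝ ψ q (1, 0)) q.1 :=
  ((h.differentiable (by simp)) (q.1, q.2)).hasFDerivAt.comp_hasDerivAt q.1
    ((hasDerivAt_id q.1).prodMk (hasDerivAt_const q.1 q.2))

theorem Lb_slice {ψ : ℝ × Y → ℝ} (h : ContDiff ℝ ∞ ψ) (w : ι → Y) (q : ℝ × Y) :
    Lb w (fun y => ψ (q.1, y)) q.2 = Lb (fun i => ((0 : ℝ), w i)) ψ q := by
  simpa using Lb_aff h (q.1, 0) (ContinuousLinearMap.inr ℝ ℝ Y) w q.2

/-- the viscosity property at a point -/
def Vp (w : ι → Y) (l : ℝ × Y → ℝ) (x : ℝ × Y) : Prop :=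
  ∀ ψ : ℝ × Y → ℝ, ContDiff ℝ ∞ ψ → (∀ᶠ p in 𝓝 x, ψ p ≤ l p) → ψ x = l x →
    Lb (fun i => ((0 : ℝ), w i)) ψ x ≤ fderiv ℝ ψ x (1, 0)

variable {E : Type} [NormedAddCommGroup E] [InnerProductSpace ℝ E] [FiniteDimensional ℝ E]
  [MeasurableSpace E] [BorelSpace E] (b : OrthonormalBasis ι ℝ E) (T : E ≃L[ℝ] Y)

theorem vis_tr {m : ℝ × Y → ℝ} {q : ℝ × Y} {O : Set (ℝ × E)}
    (h : ∀ p ∈ O, Vp (fun i => T (b i)) m (q + (p.1, T p.2))) :
    Vis b (fun p => m (q + (p.1, T p.2))) O := by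
  intro p hp φ hφ h1 h2
  let S : (ℝ × E) ≃L[ℝ] ℝ × Y := (ContinuousLinearEquiv.refl ℝ ℝ).prodCongr T
  have hS : ∀ p, S p = (p.1, T p.2) := fun _ => rfl
  obtain ⟨ψ, hψ⟩ : ∃ ψ : ℝ × Y → ℝ, ψ = fun x => φ (S.symm (x - q)) := ⟨_, rfl⟩
  have hψs : ContDiff ℝ ∞ ψ := hψ ▸ hφ.comp (by fun_prop)
  have e : φ = fun p => ψ (q + (S : ℝ × E →L[ℝ] ℝ × Y) p) := by funext p; simp [hψ]
  have h5 := h p hp ψ hψs ?_ ?_
  · rw [Lb_slice hφ, (dT_eq hφ p).deriv, e, Lb_aff hψs, fd_aff (hψs.differentiable (by simp))]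
    simpa [hS] using h5
  · have h6 : Tendsto (fun x => S.symm (x - q)) (𝓝 (q + S p)) (𝓝 p) :=
      Continuous.tendsto' (by fun_prop) _ _ (by simp)
    filter_upwards [h6.eventually h1] with x a1
    rw [← hS, S.apply_symm_apply, add_sub_cancel] at a1
    rwa [hψ]
  · exact (congrFun e p).symm.trans h2

variable [FiniteDimensional ℝ Y] [MeasurableSpace (ℝ × Y)] [BorelSpace (ℝ × Y)]
  (μ : Measure (ℝ × Y)) [μ.IsAddHaarMeasure] {m χ : ℝ × Y → ℝ}

theorem cv_shift (p : ℝ × Y) : cv μ m χ p = ∫ q, χ q * m (q + p) ∂μ := by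
  rw [cv, ← integral_add_right_eq_self _ p]
  simp [mul_comm]

theorem step (mc : Continuous m) {M r s : ℝ} (hM : ∀ q, |m q| ≤ M) (χc : Continuous χ)
    (h0 : ∀ q, 0 ≤ χ q) (hc : HasCompactSupport χ)
    (vis : ∀ q ∈ tsupport χ, Vis b (fun p => m (q + (p.1, T p.2))) (Ioo 0 r ×ˢ ball 0 r))
    (hs1 : 0 < s) (hs2 : 2 * s ≤ r) : ht (fun y => cv μ m χ (0, T y)) (s, 0) ≤
      cv μ m χ (s, 0) + (∫ q, χ q ∂μ) * err (Fintype.card ι) M r s := by
  have hk := kern_Gk (E := E) tg0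
  have kc := hk.cont
  have ci : Integrable χ μ := χc.integrable_of_hasCompactSupport hc
  have i1 : Integrable (Function.uncurry fun (z : E) (q : ℝ × Y) =>
      χ q * (m (q + (0, T (0 - √s • z))) • Gk q0 z)) (volume.prod μ) := by
    refine ((hk.integrable.norm.const_mul M).mul_prod ci.norm).mono'
      (Continuous.aestronglyMeasurable (by fun_prop)) (Eventually.of_forall fun x => ?_)
    simp only [Function.uncurry, norm_mul, norm_smul]
    rw [mul_comm]
    gcongr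
    exact hM _
  have e1 : ht (fun y => cv μ m χ (0, T y)) (s, 0) =
      ∫ q, χ q * ht (fun y => m (q + (0, T y))) (s, 0) ∂μ := by
    simp only [ht, avg, ← integral_const_mul]
    rw [← integral_integral_swap i1]
    refine integral_congr_ae (Eventually.of_forall fun z => ?_)
    simp only [cv_shift, smul_eq_mul, ← integral_mul_const, mul_assoc]
  have i2 : Integrable (fun q => χ q * m (q + (s, 0))) μ :=
    (χc.mul (by fun_prop)).integrable_of_hasCompactSupport hc.mul_right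
  rw [e1, cv_shift, ← integral_mul_const, ← integral_add i2 (ci.mul_const _)]
  refine integral_mono ?_ (i2.add (ci.mul_const _)) fun q => ?_
  · simpa only [ht, avg, ← integral_const_mul, Function.uncurry] using i1.integral_prod_right
  · by_cases hq : q ∈ tsupport χ
    · have := mv b (l := fun p => m (q + (p.1, T p.2))) (by fun_prop) (fun p => hM _) (vis q hq)
        hs1 hs2
      simp only [map_zero] at this ⊢
      rw [← mul_add]
      exact mul_le_mul_of_nonneg_left this (h0 q)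
    · simp [image_eq_zero_of_notMem_tsupport hq]

theorem main (mc : Continuous m) (ms : HasCompactSupport m) (hχ : ContDiff ℝ ∞ χ)
    (h0 : ∀ q, 0 ≤ χ q) (hc : HasCompactSupport χ) {δ : ℝ} (hδ : 0 < δ)
    (hv : ∀ x ∈ thickening δ (tsupport χ), Vp (fun i => T (b i)) m x) :
    ∫ q, m q * (fderiv ℝ χ q (1, 0) + Lb (fun i => ((0 : ℝ), T (b i))) χ q) ∂μ ≤ 0 := by
  obtain ⟨M, hM⟩ := ms.exists_bound_of_continuous mc
  obtain ⟨r, hr, hrS⟩ := Metric.continuousAt_iff.1
    (by fun_prop : ContinuousAt (fun p : ℝ × E => (p.1, T p.2)) 0) _ hδ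
  have Γs := cv_sm μ mc hχ hc
  have Γc : HasCompactSupport (cv μ m χ) := by
    rw [cv_eq]; exact ms.convolution _ (hc.comp_homeomorph (Homeomorph.neg _))
  have key := lim b (g := fun y => cv μ m χ (0, T y)) (Γs.comp (by fun_prop))
    (Γc.comp_isClosedEmbedding (g := fun y => (0, T y))
      ((Isometry.isClosedEmbedding (f := fun y : Y => ((0 : ℝ), y))
        (Isometry.of_dist_eq fun _ _ => by simp)).comp T.toHomeomorph.isClosedEmbedding))
    (dT_eq Γs 0) (by simp) ((norm_nonneg _).trans (hM 0)) hr (c := ∫ q, χ q ∂μ) fun s hs1 hs2 =>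
      step b T μ mc hM hχ.continuous h0 hc (fun q hq => vis_tr b T fun p hp => hv _ (by
        refine mem_thickening_iff.2 ⟨q, hq, ?_⟩
        have := @hrS p (by
          rw [Prod.dist_eq, max_lt_iff]
          exact ⟨by simpa [abs_of_pos hp.1.1] using hp.1.2, hp.2⟩)
        simpa [Prod.mk_zero_zero] using this)) hs1 hs2
  obtain ⟨i1, e1⟩ := cv_Lb μ mc hχ hc fun i => ((0 : ℝ), T (b i))
  have i2 : Integrable (fun q => m q * fderiv ℝ χ q (1, 0)) μ :=
    (mc.mul (dir hχ _).continuous).integrable_of_hasCompactSupport ms.mul_right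
  have e2 := Lb_aff Γs 0 ((ContinuousLinearMap.inr ℝ ℝ Y).comp (T : E →L[ℝ] Y)) b 0
  simp only [zero_add, ContinuousLinearMap.comp_apply, ContinuousLinearMap.inr_apply,
    ContinuousLinearEquiv.coe_coe, map_zero] at e2
  rw [e2, cv_fd μ mc hχ hc, e1] at key
  simp only [cv, sub_zero, map_neg, mul_neg, integral_neg] at key
  simp only [mul_add]
  rw [integral_add i2 i1]
  linarith

end

end Vd2

open Vd2

theorem vd2_row : VD2 := by
  intro n U l A hU hl hA hv χ ⟨hχ, h0, hc, hs⟩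
  obtain ⟨w, hw⟩ := frame hA
  obtain ⟨T, hT⟩ : ∃ T : EuclideanSpace ℝ (Fin 2 × Fin n) ≃L[ℝ] Cm n,
      ∀ i, T (EuclideanSpace.basisFun _ ℝ i) = w i :=
    ⟨((EuclideanSpace.basisFun _ ℝ).toBasis.equiv w (Equiv.refl _)).toContinuousLinearEquiv,
      fun i => (EuclideanSpace.basisFun _ ℝ).toBasis.equiv_apply i w (Equiv.refl _)⟩
  have hL : ∀ ψ : P n → ℝ, ContDiff ℝ ∞ ψ → ∀ q, (A * cH ψ q).trace.re =
      Lb (fun i => ((0 : ℝ), w i)) ψ q ∧ dT ψ q = fderiv ℝ ψ q (1, 0) := fun ψ h q =>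
    ⟨(hw _ _ (c2 (h.comp (by fun_prop)) _)).trans (Lb_slice h w q), (dT_eq h q).deriv⟩
  obtain ⟨δ, hδ, hδU⟩ := hc.isCompact.exists_cthickening_subset_open hU hs
  obtain ⟨κ, k1, k0, kc, -⟩ := exists_continuous_one_zero_of_isCompact
    (hc.isCompact.cthickening (r := δ / 2))
    (isOpen_thickening (δ := δ) (E := tsupport χ)).isClosed_compl
    (disjoint_compl_right_iff_subset.2 (cthickening_subset_thickening' hδ (half_lt_self hδ) _))
  have mc : Continuous fun q => κ q * l q := continuous_of_tsupport fun q hq => by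
    have h1 : tsupport κ ⊆ cthickening δ (tsupport χ) := closure_minimal
      (fun p hp => thickening_subset_cthickening _ _ (not_not.1 fun h => hp (k0 h)))
      isClosed_cthickening
    exact κ.continuous.continuousAt.mul (hl.continuousAt (hU.mem_nhds
      (hδU (h1 (tsupport_mul_subset_left hq)))))
  have me : ∀ q ∈ cthickening (δ / 2) (tsupport χ), κ q * l q = l q := fun q hq => by
    simp [k1 hq]
  have : (volume : Measure (P n)).IsAddHaarMeasure := Measure.prod.instIsAddHaarMeasure _ _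
  have key := main (EuclideanSpace.basisFun _ ℝ) T volume mc kc.mul_right hχ h0 hc (half_pos hδ)
    fun x hx ψ hψ h1 h2 => by
      have h4 := thickening_subset_cthickening _ _ hx
      have h5 := hv x (hδU (cthickening_mono (half_le_self hδ.le) _ h4)) ψ ⟨hψ, by
        filter_upwards [h1, isOpen_thickening.mem_nhds hx] with y a1 a2
        rwa [← me y (thickening_subset_cthickening _ _ a2)], h2.trans (me x h4)⟩
      simpa only [hT, (hL ψ hψ x).1, (hL ψ hψ x).2] using h5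
  refine le_of_eq_of_le (integral_congr_ae (Eventually.of_forall fun q => ?_)) key
  simp only [hT, (hL χ hχ q).1, (hL χ hχ q).2]
  by_cases hq : q ∈ tsupport χ
  · rw [me q (self_subset_cthickening _ hq)]
  · have h1 := notMem_tsupport_iff_eventuallyEq.1 hq
    rw [Lb_congr h1, h1.fderiv_eq]
    simp [Lb]

end Vale.Agent.P253W.V
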