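import Vale.Agent.P253W.V.Vd4A

/-!
# P253W, block V, row VD4: partition of unity
-/

open scoped Manifold ContDiff Bundle ENNReal Topology ComplexConjugate ComplexOrder Matrix
open Bundle IsManifold MeasureTheory Set Metric Filter Vale.Agent.P253.Mfd Vale.Agent.P253Z
open Vale.Agent.P272.K (Cm dz dzb cHess jacM Chart)
open Vale.Agent.P272.K.C2 (cHess_congr cHess_const cHess_add)

noncomputable section

namespace Vale.Agent.P253W.V

namespace Vd4

open Alg

variable {n : ℕ} {M : Type} [MetricSpace M] [ChartedSpace (Cm n) M] {e : Chart n M}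
  {χ : ℝ → M → ℝ} {a b S : ℝ} {K : Set M}

/-- the test function in the chart -/
def tf (e : Chart n M) (χ : ℝ → M → ℝ) : P n → ℝ := (univ ×ˢ e.target).indicator (ch e χ)

omit [ChartedSpace (Cm n) M] in
theorem tf_eq {q : P n} (hq : q.2 ∈ e.target) : tf e χ =ᶠ[𝓝 q] ch e χ := by
  filter_upwards [(isOpen_univ.prod e.open_target).mem_nhds (x := q) ⟨trivial, hq⟩] with p hp
  exact indicator_of_mem hp _

omit [ChartedSpace (Cm n) M] in
theorem cpt (hK : IsCompact K) (hs : K ⊆ e.source) : IsCompact (Icc a b ×ˢ (e '' K)) :=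
  isCompact_Icc.prod (hK.image_of_continuousOn (e.continuousOn.mono hs))

omit [ChartedSpace (Cm n) M] in
theorem sub (ha : 0 < a) (hb : b < S) (hs : K ⊆ e.source) :
    Icc a b ×ˢ (e '' K) ⊆ Ioo 0 S ×ˢ e.target :=
  prod_mono (Icc_subset_Ioo ha hb) (image_subset_iff.2 fun _ hx => e.map_source (hs hx))

omit [ChartedSpace (Cm n) M] in
theorem tf_supp (hK : IsCompact K) (hs : K ⊆ e.source)
    (h : ∀ t x, χ t x ≠ 0 → t ∈ Icc a b ∧ x ∈ K) : tsupport (tf e χ) ⊆ Icc a b ×ˢ (e '' K) := by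
  refine closure_minimal (fun q hq => ?_) (cpt hK hs).isClosed
  have h1 := mem_of_indicator_ne_zero hq
  rw [Function.mem_support, tf, indicator_of_mem h1] at hq
  exact ⟨(h _ _ hq).1, _, (h _ _ hq).2, e.right_inv h1.2⟩

theorem tf_sm (he : Hc e) (hχ : SmT n univ χ) (hK : IsCompact K) (hs : K ⊆ e.source)
    (h : ∀ t x, χ t x ≠ 0 → t ∈ Icc a b ∧ x ∈ K) : ContDiff ℝ ∞ (tf e χ) := by
  refine contDiff_iff_contDiffAt.2 fun q => ?_
  by_cases hq : q ∈ tsupport (tf e χ)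
  · obtain ⟨-, x, hx, h1⟩ := tf_supp hK hs h hq
    have h2 : q.2 ∈ e.target := h1 ▸ e.map_source (hs hx)
    exact (FG.Calc.at_of isOpen_univ e.open_target (hχ e he) ⟨trivial, h2⟩).congr_of_eventuallyEq
      (tf_eq h2)
  · exact contDiffAt_const.congr_of_eventuallyEq (notMem_tsupport_iff_eventuallyEq.1 hq)

theorem dc_congr {φ ψ : P n → ℝ} {q : P n} (h : φ =ᶠ[𝓝 q] ψ) :
    dT φ q = dT ψ q ∧ cH φ q = cH ψ q :=
  ⟨EventuallyEq.deriv_eq ((continuousAt_id.prodMk continuousAt_const :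
      ContinuousAt (fun s => (s, q.2)) q.1).eventually h),
    cHess_congr ((continuousAt_const.prodMk continuousAt_id :
      ContinuousAt (fun w => (q.1, w)) q.2).eventually h)⟩

/-- the integrand in the chart -/
def jj (g : P n → Mx n) (w φ : P n → ℝ) (q : P n) : ℝ :=
  (dT φ q * (Real.exp (w q) - 1) + w q * trg (g q) (cH φ q)) * (g q).det.re

theorem jj_zero {g : P n → Mx n} {w φ : P n → ℝ} {q : P n} (h : q ∉ tsupport φ) :
    jj g w φ q = 0 := by
  obtain ⟨h1, h2⟩ := dc_congr (notMem_tsupport_iff_eventuallyEq.1 h)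
  rw [jj, h1, h2, show cH (0 : P n → ℝ) q = 0 from cHess_const 0, trg_zero]
  simp [dT]

theorem jj_int {g : P n → Mx n} {w φ : P n → ℝ} {C : Set (P n)} {c : ℝ} (hC : IsCompact C)
    (hφ : ContDiff ℝ ∞ φ) (hs : tsupport φ ⊆ C)
    (hg : ∀ j k, ContDiffOn ℝ ∞ (fun q => g q j k) C) (h0 : ∀ q ∈ C, (g q).det ≠ 0)
    (hw : AEMeasurable w (volume.restrict C)) (hb : ∀ q ∈ C, 0 ≤ w q ∧ w q ≤ c) :
    Integrable (jj g w φ) := by
  refine (integrableOn_iff_integrable_of_support_subset (s := C) fun q hq =>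
    by_contra fun h => hq (jj_zero fun h' => h (hs h'))).1 ?_
  have hu : ContDiffOn ℝ ∞ φ (univ ×ˢ univ) := hφ.contDiffOn
  have h1 : ContinuousOn (dT φ) C :=
    ((FG.Calc.DT_sm isOpen_univ isOpen_univ hu).continuousOn.mono fun _ _ =>
      ⟨trivial, trivial⟩).congr fun q _ =>
        (FG.Calc.hasDT (hφ.differentiable (by simp) (q.1, q.2))).deriv
  have h2 := (sm_trg (B := cH φ) hg h0 fun j k => (FG.Calc.hess uniqueDiffOn_univ isOpen_univ hu
    j k).mono fun _ _ => ⟨trivial, trivial⟩).continuousOn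
  have h3 := (sm_re (sm_det hg)).continuousOn
  have i1 := Integrable.mul_bdd ((h1.mul h3).integrableOn_compact hC) (c := Real.exp c)
    ((Real.measurable_exp.comp_aemeasurable hw).sub_const 1).aestronglyMeasurable
    (ae_restrict_of_forall_mem hC.measurableSet fun q hq => by
      have := Real.one_le_exp (hb q hq).1
      rw [Function.comp, Real.norm_of_nonneg (by linarith)]
      linarith [Real.exp_le_exp.2 (hb q hq).2])
  have i2 := Integrable.mul_bdd ((h2.mul h3).integrableOn_compact hC) (c := c)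
    hw.aestronglyMeasurable (ae_restrict_of_forall_mem hC.measurableSet fun q hq => by
      rw [Real.norm_of_nonneg (hb q hq).1]
      exact (hb q hq).2)
  refine (i1.add i2).congr (Eventually.of_forall fun q => ?_)
  simp only [jj, Pi.add_apply, Pi.mul_apply, Function.comp]
  ring

variable [RiemannianBundle (fun x : M => TangentSpace 𝓘(ℝ, Cm n) x)] {F : Flow n M}
  {v l : ℝ → M → ℝ}

theorem co_pos (A : B1a n M) (hI : F.Is) (he : Hc e) {z : Cm n} (hz : z ∈ e.target) :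
    0 < ‖co 1 F.Ω e z‖ ^ 2 :=
  pow_pos (norm_pos_iff.2 (mul_ne_zero (zpow_ne_zero _ (A.jac_ne _ _ he (A.chart _) _
    (e.map_target hz) (mem_chart_source _ _))) (hI.ne _))) 2

theorem jj_eq (A : B1a n M) (hI : F.Is) (hB : F.Bas1) (he : Hc e) (hχ : SmT n univ χ)
    {w : P n → ℝ} {q : P n} (ht : 0 ≤ q.1) (hz : q.2 ∈ e.target) (hw : w q = v q.1 (e.symm q.2)) :
    jj (fun q => F.g q.1 e q.2) w (tf e χ) q = ig F v χ (q.1, e.symm q.2) * vd e q.2 := by
  obtain ⟨h1, h2⟩ := dc_congr (tf_eq (χ := χ) hz)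
  have h3 := hB.lap_eq q.1 ht (χ q.1) e he q.2 hz
    ((FG.Calc.slice e.open_target (hχ e he) trivial hz).of_le FG.Calc.two_le)
  have h4 := co_pos A hI he hz
  have h5 := det_pos (hI.pos q.1 ht e he _ hz)
  have h6 := det_pos (hI.pos 0 le_rfl e he _ hz)
  have h7 : Real.exp (F.u 0 (e.symm q.2) - F.u q.1 (e.symm q.2)) * vd e q.2 =
      (F.g q.1 e q.2).det.re := by
    rw [hB.u_eq _ ht e he _ hz, hB.u_eq _ le_rfl e he _ hz, Real.exp_sub,
      Real.exp_log (div_pos h4 h5), Real.exp_log (div_pos h4 h6), vd, ← hB.g_zero,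
      div_div_div_comm, div_self h4.ne', one_div, inv_div, div_mul_cancel₀ _ h6.ne']
  rw [jj, ig, h1, h2, hw, mul_assoc, h7, h3]
  rfl

theorem u_cont (hB : F.Bas1) (he : Hc e) : ContinuousOn (ch e F.u) (Ioo 0 S ×ˢ e.target) :=
  (hB.u_sm e he).continuousOn.mono (prod_mono (fun _ h => h.1.le) le_rfl)

theorem u_cont' (hB : F.Bas1) (he : Hc e) {t : ℝ} (ht : 0 ≤ t) (I : Set ℝ) :
    ContinuousOn (fun q : P n => F.u t (e.symm q.2)) (I ×ˢ e.target) :=
  (hB.u_sm e he).continuousOn.comp (f := fun q : P n => (t, q.2)) (by fun_prop)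
    fun _ h => ⟨ht, h.2⟩

variable [MeasurableSpace M] [BorelSpace M] {μ : Measure M} [SFinite μ]

theorem loc_int (hv : IsVol n μ) (A : B1a n M) (B : B1b n M) (hI : F.Is) (hB : F.Bas1) (he : Hc e)
    (hχ : SmT n univ χ) (ha : 0 < a) (hb : b < S) (hK : IsCompact K) (hs : K ⊆ e.source)
    (h : ∀ t x, χ t x ≠ 0 → t ∈ Icc a b ∧ x ∈ K) (hm : Measurable (Function.uncurry v))
    (hb' : ∀ t ∈ Ioo 0 S, ∀ x, 0 ≤ v t x ∧ v t x ≤ F.u t x - F.u 0 x) {w : P n → ℝ}
    (hw : ∀ q ∈ Ioo 0 S ×ˢ e.target, w q = v q.1 (e.symm q.2)) :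
    Integrable (ig F v χ) (volume.prod μ) ∧
      ∫ q, ig F v χ q ∂(volume.prod μ) = ∫ q, jj (fun q => F.g q.1 e q.2) w (tf e χ) q := by
  have hC := cpt (a := a) (b := b) hK hs
  have hW := sub ha hb hs
  have hT := tf_supp hK hs h
  have z0 : ∀ q : ℝ × M, q ∉ Icc a b ×ˢ K → ig F v χ q = 0 := fun q hq =>
    ig_zero (isClosed_Icc.prod hK.isClosed) h hq
  refine cv hv B he (fun q hq => z0 q fun c => hq (hs c.2))
    (fun q hq => jj_zero fun c => hq (hW (hT c)).2) (fun q hq => ?_) ?_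
  · by_cases ht : q.1 ∈ Ioo 0 S
    · exact jj_eq A hI hB he hχ ht.1.le hq (hw q ⟨ht, hq⟩)
    · rw [jj_zero fun c => ht (hW (hT c)).1, z0 _ fun c => ht (Icc_subset_Ioo ha hb c.1), zero_mul]
  · obtain ⟨c, hc⟩ := hC.bddAbove_image
      (((u_cont hB he).sub (u_cont' hB he le_rfl _)).mono hW)
    refine jj_int (c := c) hC (tf_sm he hχ hK hs h) hT
      (fun j k => (hB.g_sm e he j k).mono fun q hq => ⟨(hW hq).1.1.le, (hW hq).2⟩)
      (fun q hq => (hI.pos _ (hW hq).1.1.le e he _ (hW hq).2).det_pos.ne') ?_ fun q hq => ?_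
    · have c1 : ContinuousOn (fun q : P n => (q.1, e.symm q.2)) (Icc a b ×ˢ (e '' K)) :=
        continuousOn_fst.prodMk (e.continuousOn_symm.comp continuousOn_snd fun q hq => (hW hq).2)
      exact (hm.comp_aemeasurable (c1.aemeasurable hC.measurableSet)).congr
        (ae_restrict_of_forall_mem hC.measurableSet fun q hq => (hw q (hW hq)).symm)
    · rw [hw q (hW hq)]
      exact ⟨(hb' _ (hW hq).1 _).1, (hb' _ (hW hq).1 _).2.trans (hc (mem_image_of_mem _ hq))⟩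

/-- the local inequality -/
def Loc : Prop := ∀ (n : ℕ) (U : Set (P n)) (g : P n → Mx n) (a : Cm n → ℝ) (u L : P n → ℝ)
  (l δ : ℕ → P n → ℝ) (η : ℕ → ℝ) (C : ℝ), KF U g → ContDiffOn ℝ ∞ (fun q : P n => a q.2) U →
  (∀ q ∈ U, 0 < a q.2) → (∀ q ∈ U, u q = Real.log (a q.2 / (g q).det.re)) →
  (∀ q ∈ U, dT u q = trg (g q) (cH u q)) → Reg U g u L l δ η C → ∀ χ, Test U χ →
  0 ≤ ∫ q, jj g (fun q => u q - L q) χ q

omit [MeasurableSpace M] [BorelSpace M] in
theorem bnd (hI : F.Is) (hB : F.Bas1) (hl : F.Env S l) (hu : ∀ t ∈ Ioo 0 S, ∀ x, l t x ≤ F.u t x)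
    (he : Hc e) {D : Set (P n)} (hD : IsCompact D) (d2 : D ⊆ Ioo 0 S ×ˢ e.target) :
    ∃ c : ℝ, (∀ q ∈ D, |ch e l q| ≤ c) ∧ ∀ q ∈ D, ∀ h, 0 ≤ h → (q.1 + h, q.2) ∈ D →
      ch e l (q.1 + h, q.2) ≤ ch e l q + c * h := by
  have lg : ∀ q ∈ Ioo 0 S ×ˢ e.target, 0 < Real.log (S / q.1) := fun q hq =>
    Real.log_pos ((one_lt_div hq.1.1).2 hq.1.2)
  have c0 : ∀ r : ℝ, ContinuousOn (fun q : P n => r / q.1) (Ioo 0 S ×ˢ e.target) := fun r =>
    continuousOn_const.div continuousOn_fst fun q hq => hq.1.1.ne'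
  have c1 := ((u_cont hB he).abs.add (u_cont' hB he le_rfl _).abs).add
    ((continuousOn_const (c := (n : ℝ))).mul (((c0 1).div ((c0 S).log fun q hq =>
      (div_pos (hq.1.1.trans hq.1.2) hq.1.1).ne') fun q hq => (lg q hq).ne').mul
      ((u_cont' hB he (le_max_right S 0) _).sub (u_cont' hB he le_rfl _))))
  obtain ⟨c, hc⟩ := hD.bddAbove_image (c1.mono d2)
  have key : ∀ q ∈ D, |ch e l q| ≤ c ∧ 0 ≤ F.u S (e.symm q.2) - F.u 0 (e.symm q.2) ∧
      n * (1 / q.1 / Real.log (S / q.1) * (F.u S (e.symm q.2) - F.u 0 (e.symm q.2))) ≤ c := by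
    intro q hq
    have hq' := d2 hq
    have hS := (hq'.1.1.trans hq'.1.2).le
    have k1 := hc (mem_image_of_mem _ hq)
    simp only [max_eq_left hS, Pi.add_apply, Pi.mul_apply, Pi.sub_apply, Pi.div_apply] at k1
    have k2 := sub_nonneg.2 (hI.mono (e.symm q.2) self_mem_Ici hS hS)
    have k3 := mul_nonneg (Nat.cast_nonneg n)
      (mul_nonneg (div_pos (one_div_pos.2 hq'.1.1) (lg q hq')).le k2)
    have k4 := hl.lo _ hq'.1 (e.symm q.2)
    have k5 := hu _ hq'.1 (e.symm q.2)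
    have k6 := abs_nonneg (ch e F.u q)
    have k7 := abs_nonneg (F.u 0 (e.symm q.2))
    refine ⟨abs_le.2 ⟨?_, ?_⟩, k2, by linarith⟩
    · exact le_trans (by linarith [neg_abs_le (F.u 0 (e.symm q.2))]) k4
    · exact k5.trans (le_trans (le_abs_self (ch e F.u q)) (by linarith))
  refine ⟨c, fun q hq => (key q hq).1, fun q hq h h0 hq' => ?_⟩
  rcases h0.eq_or_lt with rfl | h0
  · simp
  have ht := (d2 hq).1.1
  obtain ⟨-, k2, k3⟩ := key q hq
  refine (hl.lip (e.symm q.2) q.1 (q.1 + h) ht (by linarith) (d2 hq').1.2).trans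
    (add_le_add_right (le_trans ?_ (mul_le_mul_of_nonneg_right k3 h0.le)) _)
  have k4 : Real.log ((q.1 + h) / q.1) ≤ 1 / q.1 * h :=
    (Real.log_le_sub_one_of_pos (by positivity)).trans_eq (by field_simp; ring)
  have k5 := lg q (d2 hq)
  calc _ ≤ n * (1 / q.1 * h / Real.log (S / q.1) *
        (F.u S (e.symm q.2) - F.u 0 (e.symm q.2))) := by gcongr
    _ = _ := by ring

omit [MeasurableSpace M] [BorelSpace M] in
theorem loc_pos (h1 : VD1) (h2 : Loc) (A : B1a n M) (hI : F.Is) (hB : F.Bas1) (hB' : F.Bas2)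
    (hl : F.Env S l) (hu : ∀ t ∈ Ioo 0 S, ∀ x, l t x ≤ F.u t x) (he : Hc e) {C : Set (P n)}
    (hC : IsCompact C) (hW : C ⊆ Ioo 0 S ×ˢ e.target) {φ : P n → ℝ} (hφ : ContDiff ℝ ∞ φ)
    (h0 : ∀ q, 0 ≤ φ q) (hT : tsupport φ ⊆ C) :
    0 ≤ ∫ q, jj (fun q => F.g q.1 e q.2) (fun q => ch e F.u q - liminf (ch e l) (𝓝 q)) φ q := by
  obtain ⟨D, hD, d1, d2⟩ := exists_compact_between hC (isOpen_Ioo.prod e.open_target) hW
  have d3 : interior D ⊆ Ioo 0 S ×ˢ e.target := interior_subset.trans d2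
  obtain ⟨c, k1, k2⟩ := bnd hI hB hl hu he hD d2
  obtain ⟨U, l', δ, η, C', hU, u1, u2, hR⟩ := h1 n (interior D) C (fun q => F.g q.1 e q.2)
    (ch e F.u) (ch e l) c isOpen_interior hC d1
    (fun j k => (hB.g_sm e he j k).continuousOn.mono fun q hq => ⟨(d3 hq).1.1.le, (d3 hq).2⟩)
    (fun q hq => hI.pos _ (d3 hq).1.1.le e he _ (d3 hq).2) ((u_cont hB he).mono d3)
    (fun q hq => k1 q (interior_subset hq))
    (fun q hq h h0 hq' => k2 q (interior_subset hq) h h0 (interior_subset hq'))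
    fun q hq φ δ => hl.visc e he q.1 q.2 (d3 hq).1 (d3 hq).2 φ δ
  have u3 := u2.trans d3
  have s1 : ContDiffOn ℝ ∞ (fun q : P n => co 1 F.Ω e q.2) U := fun q hq =>
    ((((hI.sec e he q.2 (u3 hq).2).contDiffAt (n := ∞)).restrict_scalars ℝ).comp q
      contDiffAt_snd).contDiffWithinAt
  refine h2 n U _ (fun z => ‖co 1 F.Ω e z‖ ^ 2) _ _ l' δ η C' ⟨hU,
    fun j k => (hB.g_sm e he j k).mono fun q hq => ⟨(u3 hq).1.1.le, (u3 hq).2⟩,
    fun q hq => hI.pos _ (u3 hq).1.1.le e he _ (u3 hq).2,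
    fun q hq => hB.g_cl _ (u3 hq).1.1.le e he _ (u3 hq).2⟩ (s1.norm_sq ℂ)
    (fun q hq => co_pos A hI he (u3 hq).2) (fun q hq => hB.u_eq _ (u3 hq).1.1.le e he _ (u3 hq).2)
    (fun q hq => ?_) hR φ ⟨hφ, h0, hC.of_isClosed_subset (isClosed_tsupport _) hT, hT.trans u1⟩
  have s2 := (hB'.u_t q.1 (u3 hq).1.1 (e.symm q.2)).deriv
  have s3 := hB.lap_eq q.1 (u3 hq).1.1.le (F.u q.1) e he q.2 (u3 hq).2
    ((hB.sm_at _ hB.u_sm _ (u3 hq).1.1.le e he _ (u3 hq).2).of_le FG.Calc.two_le)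
  rw [Flow.R, s3] at s2
  simpa only [dT, cH, ch, hs] using s2

end Vd4

open Vd4 in
theorem vd4_row : VD4 := by
  intro n M _ _ _ _ _ _ _ _ _ _ _ _ μ F c hI h1 h2 hB hB' hu S l hl
  have : ProperSpace M := properSpace_riemannian (Cm n) M
  have A : B1a n M := b1a
  have B : B1b n M := b1b c.kahler A
  have : IsFiniteMeasureOnCompacts μ := ⟨fun K hK => B3Aux.fin c.vol A B K hK⟩
  have hO : IsOpen (Ioo 0 S ×ˢ (univ : Set M)) := isOpen_Ioo.prod isOpen_univ
  have cu := hB.sm_cont _ hB.u_sm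
  have c0 : Continuous fun q : ℝ × M => F.u 0 q.2 := continuousOn_univ.1
    (cu.comp (f := fun q : ℝ × M => ((0 : ℝ), q.2)) (by fun_prop) fun _ _ => ⟨self_mem_Ici, trivial⟩)
  have lo : ∀ q ∈ Ioo 0 S ×ˢ (univ : Set M), ∀ᶠ p in 𝓝 q, F.u 0 p.2 ≤ Function.uncurry l p :=
    fun q hq => by filter_upwards [hO.mem_nhds hq] with p hp using hl.lo _ hp.1 _
  have ca : ∀ q ∈ Ioo 0 S ×ˢ (univ : Set M), ContinuousAt (Function.uncurry F.u) q := fun q hq =>
    (cu.mono (prod_mono (fun _ h => h.1.le) le_rfl)).continuousAt (hO.mem_nhds hq)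
  obtain ⟨v, hm, hv⟩ : ∃ v : ℝ → M → ℝ, Measurable (Function.uncurry v) ∧ ∀ t ∈ Ioo 0 S, ∀ x,
      v t x = F.u t x - liminf (Function.uncurry l) (𝓝 (t, x)) :=
    ⟨Function.curry _, (meas_ind hO fun q hq => (ca q hq).lowerSemicontinuousAt).sub
      (meas_ind hO fun q hq => lsc c0.continuousAt (lo q hq)), fun t ht x => by
        have hq : (t, x) ∈ Ioo 0 S ×ˢ (univ : Set M) := ⟨ht, trivial⟩
        simp only [Function.curry, Pi.sub_apply, indicator_of_mem hq, Function.uncurry]⟩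
  have hb : ∀ t ∈ Ioo 0 S, ∀ x, F.u t x - l t x ≤ v t x ∧ v t x ≤ F.u t x - F.u 0 x :=
    fun t ht x => by
      rw [hv t ht x]
      exact ⟨sub_le_sub_left (lim_le c0.continuousAt (lo (t, x) ⟨ht, trivial⟩)) _,
        sub_le_sub_left (le_lim c0.continuousAt (lo (t, x) ⟨ht, trivial⟩)) _⟩
  refine ⟨v, hm, hb, fun χ a b K hχ h0 ha hb' hK hs => ?_⟩
  obtain ⟨T, hT⟩ := hK.elim_finite_subcover (fun x : M => (pc n x).source)
    (fun x => (pc n x).open_source) fun x _ => mem_iUnion.2 ⟨x, mem_chart_source _ x⟩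
  obtain ⟨ρ, hρ⟩ := SmoothPartitionOfUnity.exists_isSubordinate 𝓘(ℝ, Cm n) hK.isClosed
    (fun i : T => (pc n i.1).source) (fun i => (pc n i.1).open_source)
    (by simpa only [iUnion_subtype] using hT)
  have r1 : ∀ i, Sm n (ρ i) := fun i => A.sm_loc _ fun x => ⟨_, A.chart x, mem_chart_source _ x, by
    simpa [contMDiffWithinAt_univ, contMDiffAt_iff_contDiffAt, Function.comp_def] using
      contMDiffAt_iff_source.1 ((ρ i).contMDiff x)⟩
  have r2 : ∀ i, SmT n univ fun t x => χ t x * ρ i x := fun i e he => (hχ e he).mul fun q hq =>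
    ((r1 i e he q.2 hq.2).comp q contDiffAt_snd).contDiffWithinAt
  have r3 : χ = fun t x => ∑ i, χ t x * ρ i x := by
    funext t x
    by_cases h : χ t x = 0
    · simp [h]
    · rw [← Finset.mul_sum, ← finsum_eq_sum_of_fintype, ρ.sum_eq_one (hs t x h).2, mul_one]
  have r4 : ∀ i : T, Integrable (ig F v fun t x => χ t x * ρ i x) (volume.prod μ) ∧
      0 ≤ ∫ q, ig F v (fun t x => χ t x * ρ i x) q ∂(volume.prod μ) := fun i => by
    have he := A.chart i.1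
    have k1 : IsCompact (K ∩ tsupport (ρ i)) := hK.inter_right (isClosed_tsupport _)
    have k2 : K ∩ tsupport (ρ i) ⊆ (pc n i.1).source := inter_subset_right.trans (hρ i)
    have k3 : ∀ t x, χ t x * ρ i x ≠ 0 → t ∈ Icc a b ∧ x ∈ K ∩ tsupport (ρ i) := fun t x h =>
      ⟨(hs t x (left_ne_zero_of_mul h)).1, (hs t x (left_ne_zero_of_mul h)).2,
        subset_tsupport _ (right_ne_zero_of_mul h)⟩
    obtain ⟨k4, k5⟩ := loc_int c.vol A B hI hB he (r2 i) ha hb' k1 k2 k3 hm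
      (fun t ht x => ⟨by linarith [(hb t ht x).1, hu S l hl t ht x], (hb t ht x).2⟩)
      (w := fun q => ch (pc n i.1) F.u q - liminf (ch (pc n i.1) l) (𝓝 q))
      fun q hq => by rw [hv _ hq.1, lim_ch l hq.2]; rfl
    exact ⟨k4, k5 ▸ loc_pos h1 h2 A hI hB hB' hl (hu S l hl) he (cpt k1 k2) (sub ha hb' k2)
      (tf_sm he (r2 i) k1 k2 k3) (fun q => indicator_nonneg (fun _ _ =>
        mul_nonneg (h0 _ _) (ρ.nonneg i _)) q) (tf_supp k1 k2 k3)⟩
  change 0 ≤ ∫ q, ig F v χ q ∂(volume.prod μ)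
  rw [r3]
  simp only [ig_sum A r2]
  rw [integral_finsetSum _ fun i _ => (r4 i).1]
  exact Finset.sum_nonneg fun i _ => (r4 i).2

end Vale.Agent.P253W.V
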