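import Vale.Agent.P253W.V.Are
import Vale.Agent.P253W.V.Arf
import Vale.Agent.P253W.V.Asm2
import Vale.Agent.P253W.V.Bas1
import Vale.Agent.P253W.V.Bas2
import Vale.Agent.P253W.V.Bd
import Vale.Agent.P253W.V.Cmp
import Vale.Agent.P253W.V.Dch
import Vale.Agent.P253W.V.Dh1
import Vale.Agent.P253W.V.Dh2
import Vale.Agent.P253W.V.Far
import Vale.Agent.P253W.V.Fin
import Vale.Agent.P253W.V.G0
import Vale.Agent.P253W.V.Geo
import Vale.Agent.P253W.V.Grn
import Vale.Agent.P253W.V.Har
import Vale.Agent.P253W.V.Hq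
import Vale.Agent.P253W.V.Ibp
import Vale.Agent.P253W.V.Lel
import Vale.Agent.P253W.V.Lfc
import Vale.Agent.P253W.V.Lfp
import Vale.Agent.P253W.V.Lib
import Vale.Agent.P253W.V.Lip
import Vale.Agent.P253W.V.Lv
import Vale.Agent.P253W.V.Mk1
import Vale.Agent.P253W.V.Mk2
import Vale.Agent.P253W.V.Mol
import Vale.Agent.P253W.V.Pa
import Vale.Agent.P253W.V.S3g
import Vale.Agent.P253W.V.S3p
import Vale.Agent.P253W.V.Stab
import Vale.Agent.P253W.V.Tlr
import Vale.Agent.P253W.V.Trig
import Vale.Agent.P253W.V.Uli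
import Vale.Agent.P253W.V.Vd1
import Vale.Agent.P253W.V.Vd2
import Vale.Agent.P253W.V.Vd3
import Vale.Agent.P253W.V.Vd4

/-!
# P253W, block V: all rows
-/

namespace Vale.Agent.P253W.V

theorem rows : Rows2 where
  bas1 := bas1_row
  bas2 := bas2_row
  hq := hq_row
  trig := trig_row
  dch := dch_row
  g0 := g0_row
  lip := lip_row
  fin := fin_row
  vd1 := vd1_row
  vd2 := vd2_row
  ibp := ibp_row
  vd3 := vd3_of mol_row vd2_row ibp_row
  vd4 := vd4_row
  lv := lv_row
  lfp := lfp_row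
  lfc := lfc_row
  dh1 := dh1_row
  dh2 := dh2_row
  s3p := s3p_row
  s3g := s3g_row
  mk1 := mk1_row
  mk2 := mk2_row
  lib := lib_row
  cmp := cmp_row
  geo := geo_row
  stab := stab_row
  far := far_row
  har := har_row
  grn := grn_row
  pa := pa_row
  lel := lel_row
  arf := arf_row
  uli := uli_row
  are := are_row
  tlr := tlr_row
  bd := bd_row

end Vale.Agent.P253W.V
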