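import Vale.Agent.P253W.V.Defs2
import Vale.Agent.P253Z.B1a.Sec

/-!
# P253W, block V, row ARE: discs whose boundaries converge have bounded area
-/

open scoped Manifold ContDiff Bundle ENNReal NNReal Topology ComplexConjugate ComplexOrder Matrix
open Bundle IsManifold MeasureTheory Set Metric Filter Vale.Agent.P253.Mfd Vale.Agent.P253Z
open Vale.Agent.P272.K (Cm dz dzb cHess jacM Chart)
open Vale.Agent.P253.R2.H451 (levi2)

noncomputable section

namespace Vale.Agent.P253W.V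

namespace Are

/-- the open annulus -/
def oa (a b : ℝ) : Set ℂ := {τ | a < ‖τ‖ ∧ ‖τ‖ < b}

theorem oa_open (a b : ℝ) : IsOpen (oa a b) :=
  (isOpen_lt continuous_const continuous_norm).inter (isOpen_lt continuous_norm continuous_const)

theorem oa_sub (a b : ℝ) : oa a b ⊆ ann a b := fun _ h => ⟨h.1.le, h.2.le⟩

theorem ann_compact (a b : ℝ) : IsCompact (ann a b) :=
  (isCompact_closedBall (0 : ℂ) b).of_isClosed_subset
    ((isClosed_le continuous_const continuous_norm).inter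
      (isClosed_le continuous_norm continuous_const)) fun _ h => mem_closedBall_zero_iff.2 h.2

theorem oa_conn {a b : ℝ} (ha : 0 < a) : IsPreconnected (oa a b) := by
  have h : oa a b = (fun p : ℝ × ℝ => circleMap 0 p.1 p.2) '' (Ioo a b ×ˢ univ) := by
    ext τ
    constructor
    · intro hτ
      exact ⟨(‖τ‖, τ.arg), ⟨hτ, trivial⟩, by simp [circleMap]⟩
    · rintro ⟨p, hp, rfl⟩
      simpa [oa, abs_of_pos (ha.trans hp.1.1)] using hp.1
  rw [h]
  refine (isPreconnected_Ioo.prod isPreconnected_univ).image _ (Continuous.continuousOn ?_)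
  unfold circleMap
  fun_prop

/-- an annulus without zeros -/
theorem ann_free {h : ℂ → ℂ} {r r' : ℝ} (hr : 0 < r) (hrr : r < r')
    (hd : DifferentiableOn ℂ h (oa r r')) {τ₀ : ℂ} (h0 : τ₀ ∈ oa r r') (h1 : h τ₀ ≠ 0) :
    ∃ a b, r < a ∧ a < b ∧ b < r' ∧ ∀ τ ∈ ann a b, h τ ≠ 0 := by
  obtain ⟨r₁, h2, h3⟩ := exists_between hrr
  obtain ⟨r₂, h4, h5⟩ := exists_between h3
  have h6 := ((hd.analyticOnNhd (oa_open r r')).eqOn_zero_or_eventually_ne_zero_of_preconnected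
    (oa_conn hr)).resolve_left fun h => h1 (h h0)
  have h7 : (ann r₁ r₂ \ {τ | h τ ≠ 0}).Finite :=
    (ann_compact r₁ r₂).finite_sdiff_of_mem_codiscreteWithin (codiscreteWithin_mono
      (fun τ hτ => ⟨h2.trans_le hτ.1, hτ.2.trans_lt h5⟩ : ann r₁ r₂ ⊆ oa r r') h6)
  have h8 := h7.image fun τ => ‖τ‖
  obtain ⟨ρ, hρ⟩ := ((Ioo_infinite h4).sdiff h8).nonempty
  obtain ⟨a, b, hab, hs⟩ := mem_nhds_iff_exists_Ioo_subset.1
    ((isOpen_Ioo.sdiff h8.isClosed).mem_nhds hρ)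
  obtain ⟨a', h9, h10⟩ := exists_between hab.1
  obtain ⟨b', h11, h12⟩ := exists_between hab.2
  have h13 : ∀ x, a' ≤ x → x ≤ b' → x ∈ Ioo r₁ r₂ \ _ := fun x hx hx' =>
    hs ⟨h9.trans_le hx, hx'.trans_lt h12⟩
  refine ⟨a', b', h2.trans (h13 a' le_rfl (h10.trans h11).le).1.1, h10.trans h11,
    (h13 b' (h10.trans h11).le le_rfl).1.2.trans h5, fun τ hτ hz => ?_⟩
  obtain ⟨h14, h15⟩ := h13 _ hτ.1 hτ.2
  exact h15 ⟨τ, ⟨⟨h14.1.le, h14.2.le⟩, fun h => h hz⟩, rfl⟩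

theorem comp_unif {X Y α : Type*} [UniformSpace X] [UniformSpace Y] {f : ℕ → α → X} {g : α → X}
    {s : Set α} {a : X → Y} (h : TendstoUniformlyOn f g atTop s) (hK : IsCompact (g '' s))
    (ha : Continuous a) :
    TendstoUniformlyOn (fun k τ => a (f k τ)) (fun τ => a (g τ)) atTop s := fun _ hu => by
  filter_upwards [h _ (hK.uniformContinuousAt_of_continuousAt a (fun _ _ => ha.continuousAt) hu)]
    with k hk τ hτ using hk τ hτ (mem_image_of_mem g hτ)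

/-- the Cauchy estimate in two variables -/
theorem cauchy {E : Type*} [NormedAddCommGroup E] [NormedSpace ℂ E] {w : ℂ × ℂ → E}
    {O : Set (ℂ × ℂ)} {q V : ℂ × ℂ} {η B : ℝ} (hO : IsOpen O) (hw : DifferentiableOn ℂ w O)
    (hη : 0 < η) (hq : closedBall q η ⊆ O) (hB : ∀ p ∈ O, ‖w p‖ ≤ B) (hV : ‖V‖ ≤ 1) :
    ‖fderiv ℂ w q V‖ ≤ B / η := by
  have h1 : ∀ c ∈ closedBall (0 : ℂ) η, q + c • V ∈ O := fun c hc => hq (by
    rw [mem_closedBall_iff_norm, add_sub_cancel_left, norm_smul]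
    exact (mul_le_of_le_one_right (norm_nonneg _) hV).trans (mem_closedBall_zero_iff.1 hc))
  have h2 : ∀ c : ℂ, HasDerivAt (fun c : ℂ => q + c • V) V c := fun c => by
    simpa using ((hasDerivAt_id c).smul_const V).const_add q
  have h3 : HasDerivAt (fun c : ℂ => w (q + c • V)) (fderiv ℂ w q V) 0 :=
    HasFDerivAt.comp_hasDerivAt_of_eq (0 : ℂ)
      (hw.differentiableAt (hO.mem_nhds (hq (mem_closedBall_self hη.le)))).hasFDerivAt (h2 0)
      (by simp)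
  rw [← h3.deriv]
  refine Complex.norm_deriv_le_of_forall_mem_sphere_norm_le hη
    (DifferentiableOn.diffContOnCl ?_) fun c hc => hB _ (h1 c (sphere_subset_closedBall hc))
  rw [closure_ball _ hη.ne']
  exact hw.comp (fun c _ => (h2 c).differentiableAt.differentiableWithinAt) h1

variable {n : ℕ} {M : Type} [MetricSpace M] [ChartedSpace (Cm n) M]

theorem hol_comp [IsManifold 𝓘(ℂ, Cm n) 1 M] {a : M → ℂ} (ha : IsSec n 0 a) {f : ℂ → M}
    {U : Set ℂ} (hf : H1 n f U) : DifferentiableOn ℂ (fun τ => a (f τ)) U :=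
  mdifferentiableOn_iff_differentiableOn.1 (((B1aP.sec_zero a).1 ha).comp_mdifferentiableOn hf)

/-- the family of discs in the coordinates `z` -/
theorem family {K : Set M} {ι : M → Cm n → M} {g : ℂ → M} {w : ℂ × ℂ → Cm n} {O : Set (ℂ × ℂ)}
    {q : ℂ × ℂ} {e : Chart n M} (hO : IsOpen O) (hq : q ∈ O) (hw : DifferentiableOn ℂ w O)
    (hg : ContinuousAt g q.2) (hK : ∀ p ∈ O, g p.2 ∈ K) (he : Hc e) (ht : w q ∈ e.target)
    (hι : ∀ᶠ p in 𝓝[K ×ˢ univ] (g q.2, w q), ι p.1 p.2 = e.symm p.2) :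
    MDifferentiableAt 𝓘(ℂ, ℂ × ℂ) 𝓘(ℂ, Cm n) (fun p => ι (g p.2) (w p)) q ∧
      ι (g q.2) (w q) ∈ e.source ∧ e (ι (g q.2) (w q)) = w q ∧
      fderiv ℂ (fun p => e (ι (g p.2) (w p))) q = fderiv ℂ w q := by
  have h1 := hw.differentiableAt (hO.mem_nhds hq)
  have h2 : Tendsto (fun p : ℂ × ℂ => (g p.2, w p)) (𝓝 q) (𝓝[K ×ˢ univ] (g q.2, w q)) :=
    tendsto_nhdsWithin_iff.2 ⟨(hg.comp continuousAt_snd).prodMk h1.continuousAt, by
      filter_upwards [hO.mem_nhds hq] with p hp using ⟨hK p hp, trivial⟩⟩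
  have h3 : (fun p => ι (g p.2) (w p)) =ᶠ[𝓝 q] fun p => e.symm (w p) := h2.eventually hι
  have h4 : ι (g q.2) (w q) = e.symm (w q) := h3.eq_of_nhds
  refine ⟨MDifferentiableAt.congr_of_eventuallyEq (MDifferentiableAt.comp q
    ((contMDiffAt_symm_of_mem_maximalAtlas he ht).mdifferentiableAt one_ne_zero)
    (mdifferentiableAt_iff_differentiableAt.2 h1)) h3, h4 ▸ e.map_target ht,
    h4 ▸ e.right_inv ht, EventuallyEq.fderiv_eq ?_⟩
  filter_upwards [h3, h1.continuousAt.eventually (e.open_target.mem_nhds ht)] with p h5 h6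
  rw [h5, e.right_inv h6]

variable [RiemannianBundle fun x : M => TangentSpace 𝓘(ℝ, Cm n) x] {F : Flow n M}

theorem nv_nonneg [IsManifold 𝓘(ℂ, Cm n) 1 M] (h : F.Is) (x : M) (v : Cm n) : 0 ≤ F.nv 0 x v := by
  have := (h.pos 0 le_rfl (pc n x) (chart_mem_maximalAtlas x) _
    (mem_chart_target _ x)).posSemidef.dotProduct_mulVec_nonneg (star v)
  rw [star_star] at this
  exact (Complex.nonneg_iff.1 this).1

theorem ar_le [IsManifold 𝓘(ℂ, Cm n) 1 M] (h : F.Is) {f : ℂ → M} {χ : ℂ → ℝ} {U : Set ℂ} {r : ℝ}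
    (hχ : Tf U χ) (h1 : ∀ τ ∈ ball (0 : ℂ) r, χ τ = 1)
    (hc : ContinuousOn (fun τ => F.nv 0 (f τ) (d1 n f τ)) U) :
    F.ar f r ≤ ENNReal.ofReal (∫ τ, χ τ * F.nv 0 (f τ) (d1 n f τ)) := by
  have hi : Integrable fun τ => χ τ * F.nv 0 (f τ) (d1 n f τ) :=
    (integrableOn_iff_integrable_of_support_subset
      ((Function.support_mul_subset_left _ _).trans (subset_tsupport χ))).1
      ((hχ.1.continuous.continuousOn.mul (hc.mono hχ.2.2.2)).integrableOn_compact hχ.2.2.1)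
  rw [ofReal_integral_eq_lintegral_ofReal hi
    (Eventually.of_forall fun τ => mul_nonneg (hχ.2.1 τ) (nv_nonneg h _ _))]
  refine le_trans (le_of_eq (setLIntegral_congr_fun measurableSet_ball fun τ hτ => ?_))
    (setLIntegral_le_lintegral _ _)
  simp only [h1 τ hτ, one_mul]

end Are

open Are in
theorem are_row : ARE := by
  intro n M _ _ _ _ _ _ _ _ _ _ _ _ μ F c hF hG hP hA hU A T p f g r r' R hr hrr hR hf hg
  have sub : ann r r' ⊆ ball 0 R := fun τ hτ => mem_ball_zero_iff.2 (hτ.2.trans_lt hR)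
  have gc : ContinuousOn g (ann r r') :=
    hg.continuousOn (Frequently.of_forall fun k => (hf k).continuousOn.mono sub)
  have gK := (ann_compact r r').image_of_continuousOn gc
  have h0 : (((r + r') / 2 : ℝ) : ℂ) ∈ oa r r' := by
    rw [oa, mem_ofPred_eq, Complex.norm_real, Real.norm_of_nonneg (by linarith)]
    constructor <;> linarith
  obtain ⟨z, hz, hJ⟩ := T.eta (g ((r + r') / 2 : ℝ))
  have zs : ∀ i, IsSec n 0 (z i) := fun i => ((T.mem _).1 (hz i)).1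
  have Js : IsSec n 0 (F.jc z) := ((T.mem _).1 (T.jac z hz)).1
  obtain ⟨a₀, b₀, ha₀, hab, hb₀, hne⟩ := ann_free (h := fun τ => F.jc z (g τ)) hr hrr
    (((comp_unif hg gK ((B1aP.sec_zero _).1 Js).continuous).mono
      (oa_sub r r')).tendstoLocallyUniformlyOn.differentiableOn (Eventually.of_forall fun k =>
        (hol_comp Js (hf k)).mono ((oa_sub r r').trans sub)) (oa_open r r')) h0 hJ
  have sub₀ : ann a₀ b₀ ⊆ ann r r' := fun τ hτ => ⟨ha₀.le.trans hτ.1, hτ.2.trans hb₀.le⟩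
  have sub₁ : ann a₀ b₀ ⊆ oa r r' := fun τ hτ => ⟨ha₀.trans_le hτ.1, hτ.2.trans_lt hb₀⟩
  obtain ⟨δ, ε, C, ι, hδ, hε, hι⟩ := hU n M μ F c hF z (g '' ann a₀ b₀) zs
    (((ann_compact _ _).image_of_continuousOn (gc.mono sub₀))) (by
      rintro _ ⟨τ, hτ, rfl⟩
      exact hne τ hτ)
  obtain ⟨η, hη, hη1, hη2⟩ : ∃ η : ℝ, 0 < η ∧ η < 1 ∧ a₀ + 2 * η < b₀ - 2 * η :=
    ⟨min (1 / 2) ((b₀ - a₀) / 5), lt_min (by norm_num) (by linarith),
      (min_le_left _ _).trans_lt (by norm_num), by linarith [min_le_right (1 / 2) ((b₀ - a₀) / 5)]⟩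
  obtain ⟨χ, hχ, hχ1, hχ2, hχ3⟩ := hG.2 (a₀ + 2 * η) (b₀ - 2 * η) (by linarith) hη2
  have hχ' : Tf (ball 0 R) χ := ⟨hχ.1, hχ.2.1, hχ.2.2.1,
    hχ.2.2.2.trans (ball_subset_ball (by linarith))⟩
  obtain ⟨D, -, hD⟩ := hP χ _ hχ.1 (ann_compact _ _) hχ2
  obtain ⟨A1, A2⟩ := hA n M μ F c hF hG p.b1 p.b2 p.s3a
  have Zc : Continuous fun x i => z i x :=
    continuous_pi fun i => ((B1aP.sec_zero _).1 (zs i)).continuous
  obtain ⟨B, hB⟩ := (gK.image Zc).isBounded.exists_norm_le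
  obtain ⟨l, hl⟩ := eventually_atTop.1 ((Metric.tendstoUniformlyOn_iff.1 hg δ hδ).and
    (Metric.tendstoUniformlyOn_iff.1 (comp_unif hg gK Zc) (ε / 5) (by linarith)))
  have key : ∀ k, l ≤ k → 4 * ∫ τ, χ τ * F.nv 0 (f k τ) (d1 n (f k) τ) ≤
      D * √(4 * (|C| * ((B + ε) / η) ^ 2) * (4 * (|C| * ((B + ε) / η) ^ 2))) +
        4 * ∫ τ, χ τ * F.nv 0 (f l τ) (d1 n (f l) τ) := by
    intro k hk
    refine (A2 _ (f k) χ 0 isOpen_ball (hf k) hχ' le_rfl).2.2 _ fun s hs => ?_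
    obtain ⟨i1, i2⟩ := (A2 _ (f l) χ 0 isOpen_ball (hf l) hχ' le_rfl).2.1 s hs
    obtain ⟨i3, -⟩ := (A2 _ (f k) χ 0 isOpen_ball (hf k) hχ' le_rfl).2.1 s hs
    obtain ⟨w, hw⟩ : ∃ w : ℂ × ℂ → Cm n, w = fun q => (fun i => z i (f l q.2)) +
      q.1 • ((fun i => z i (f k q.2)) - fun i => z i (f l q.2)) := ⟨_, rfl⟩
    have hO : IsOpen (ball (0 : ℂ) 2 ×ˢ oa a₀ b₀) := isOpen_ball.prod (oa_open _ _)
    have zd : ∀ j, DifferentiableOn ℂ (fun q : ℂ × ℂ => fun i => z i (f j q.2))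
        (ball (0 : ℂ) 2 ×ˢ oa a₀ b₀) := fun j => differentiableOn_pi.2 fun i =>
      (hol_comp (zs i) (hf j)).comp differentiableOn_snd fun q hq => sub (sub₀ (oa_sub _ _ hq.2))
    have wd : DifferentiableOn ℂ w (ball (0 : ℂ) 2 ×ˢ oa a₀ b₀) :=
      hw ▸ (zd l).add (differentiableOn_fst.smul ((zd k).sub (zd l)))
    have wb : ∀ q ∈ ball (0 : ℂ) 2 ×ˢ oa a₀ b₀, w q ∈ ball (fun i => z i (g q.2)) ε := by
      intro q hq
      have h1 := (hl l le_rfl).2 _ (sub₀ (oa_sub _ _ hq.2))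
      have h2 := (hl k hk).2 _ (sub₀ (oa_sub _ _ hq.2))
      have h3 := dist_triangle_left (fun i => z i (f k q.2)) (fun i => z i (f l q.2))
        fun i => z i (g q.2)
      have h4 := mem_ball_zero_iff.1 hq.1
      have h5 := dist_triangle (w q) (fun i => z i (f l q.2)) fun i => z i (g q.2)
      have h6 : dist (w q) (fun i => z i (f l q.2)) =
          ‖q.1‖ * dist (fun i => z i (f k q.2)) fun i => z i (f l q.2) := by
        rw [hw, dist_self_add_left, norm_smul, dist_eq_norm]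
      have h7 := mul_le_mul h4.le h3 dist_nonneg zero_le_two
      rw [dist_comm] at h1
      rw [mem_ball]
      rw [dist_comm (fun i => z i (g q.2)) fun i => z i (f l q.2)] at h7
      linarith
    have wn : ∀ q ∈ ball (0 : ℂ) 2 ×ˢ oa a₀ b₀, ‖w q‖ ≤ B + ε := fun q hq =>
      (norm_le_norm_add_norm_sub' _ (fun i => z i (g q.2))).trans (add_le_add
        (hB _ ⟨_, ⟨_, sub₀ (oa_sub _ _ hq.2), rfl⟩, rfl⟩) (mem_ball_iff_norm.1 (wb q hq)).le)
    have fam : ∀ q ∈ ball (0 : ℂ) 2 ×ˢ oa a₀ b₀, ∃ e : Chart n M, Hc e ∧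
        (∀ v, qf (hm e (w q)) v ≤ C * ‖v‖ ^ 2) ∧
        MDifferentiableAt 𝓘(ℂ, ℂ × ℂ) 𝓘(ℂ, Cm n) (fun p => ι (g p.2) (w p)) q ∧
        ι (g q.2) (w q) ∈ e.source ∧ e (ι (g q.2) (w q)) = w q ∧
        fderiv ℂ (fun p => e (ι (g p.2) (w p))) q = fderiv ℂ w q := by
      intro q hq
      obtain ⟨e, he, h1, h2, h3⟩ := (hι _ ⟨_, oa_sub _ _ hq.2, rfl⟩).2 _ (wb q hq)
      exact ⟨e, he, h2, family hO hq wd (gc.continuousAt (mem_of_superset ((oa_open r r').mem_nhds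
        (sub₁ (oa_sub _ _ hq.2))) (oa_sub _ _)))
        (fun p hp => mem_image_of_mem g (oa_sub _ _ hp.2)) he h1 h3⟩
    obtain ⟨N1, N2⟩ := A1 _ (fun p => ι (g p.2) (w p)) s 0 hO
      (fun q hq => (fam q hq).choose_spec.2.2.1.mdifferentiableWithinAt) le_rfl hs
    have hs' : ∀ τ ∈ ann (a₀ + 2 * η) (b₀ - 2 * η), τ ∈ ann a₀ b₀ := fun τ hτ =>
      ⟨by linarith [hτ.1], by linarith [hτ.2]⟩
    have h1 := hD _ _ (4 * (|C| * ((B + ε) / η) ^ 2)) (4 * (|C| * ((B + ε) / η) ^ 2)) hO N1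
      fun σ hσ τ hτ => by
        have hq : closedBall ((σ : ℂ), τ) η ⊆ ball (0 : ℂ) 2 ×ˢ oa a₀ b₀ := by
          intro q hq
          rw [mem_closedBall, Prod.dist_eq, max_le_iff, dist_eq_norm, dist_eq_norm] at hq
          have h1 := abs_le.1 ((abs_norm_sub_norm_le _ _).trans hq.1)
          have h2 := abs_le.1 ((abs_norm_sub_norm_le _ _).trans hq.2)
          rw [Complex.norm_real, Real.norm_of_nonneg hσ.1] at h1
          exact ⟨mem_ball_zero_iff.2 (by linarith [h1.2, hσ.2]), by linarith [h2.1, hτ.1],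
            by linarith [h2.2, hτ.2]⟩
        have hq' := hq (mem_closedBall_self hη.le)
        obtain ⟨e, he, e1, -, e2, e3, e4⟩ := fam _ hq'
        have up : ∀ V : ℂ × ℂ, ‖V‖ ≤ 1 → levi2 (fun q => F.ψ s (ι (g q.2) (w q)) -
            F.ψ 0 (ι (g q.2) (w q))) (σ, τ) V ≤ 4 * (|C| * ((B + ε) / η) ^ 2) := fun V hV => by
          refine (N2 _ hq' V e he e2).2.trans (mul_le_mul_of_nonneg_left ?_ (by norm_num))
          rw [e3, e4, p.b1.g_zero]
          exact (e1 _).trans (mul_le_mul (le_abs_self _) (pow_le_pow_left₀ (norm_nonneg _)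
            (cauchy hO wd hη hq wn hV) 2) (sq_nonneg _) (abs_nonneg _))
        exact ⟨hq', fun V => (N2 _ hq' V e he e2).1, up _ (by simp), up _ (by simp)⟩
    have h2 : ∫ τ, ((F.ψ s (ι (g τ) (w (1, τ))) - F.ψ 0 (ι (g τ) (w (1, τ)))) -
        (F.ψ s (ι (g τ) (w (0, τ))) - F.ψ 0 (ι (g τ) (w (0, τ))))) * Lp χ τ =
        (∫ τ, (F.ψ s (f k τ) - F.ψ 0 (f k τ)) * Lp χ τ) -
          ∫ τ, (F.ψ s (f l τ) - F.ψ 0 (f l τ)) * Lp χ τ := by
      rw [← integral_sub i3 i1]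
      refine integral_congr_ae (Eventually.of_forall fun τ => ?_)
      by_cases hτ : τ ∈ ann (a₀ + 2 * η) (b₀ - 2 * η)
      · have h3 : ∀ j, l ≤ j → ι (g τ) (fun i => z i (f j τ)) = f j τ := fun j hj =>
          (hι _ ⟨_, hs' τ hτ, rfl⟩).1 _ (mem_ball'.2 ((hl j hj).1 τ (sub₀ (hs' τ hτ))))
        simp only [hw, one_smul, zero_smul, add_zero, add_sub_cancel, h3 k hk, h3 l le_rfl]
        ring
      · simp only [hχ3 τ hτ, mul_zero, sub_self]
    rw [h2] at h1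
    linarith
  obtain ⟨C', hC'⟩ := IsBoundedUnder.bddAbove_range
    (f := fun k => 4 * ∫ τ, χ τ * F.nv 0 (f k τ) (d1 n (f k) τ)) ⟨_, eventually_atTop.2 ⟨l, key⟩⟩
  refine ⟨C' / 4, fun k => (ar_le hF hχ' (fun τ hτ => hχ1 τ (ball_subset_closedBall
    (ball_subset_ball (by linarith) hτ))) (A2 _ (f k) χ 0 isOpen_ball (hf k) hχ' le_rfl).1).trans
    (ENNReal.ofReal_le_ofReal ?_)⟩
  have := hC' ⟨k, rfl⟩
  linarith

end Vale.Agent.P253W.V
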