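import Vale.Agent.P253W.V.Defs
import Vale.Agent.P253Z.B1b
import Vale.Agent.P253Z.B1a

/-!
# P253W, block V: assembly
-/

open scoped Manifold ContDiff Bundle ENNReal NNReal Topology ComplexConjugate ComplexOrder Matrix
open Bundle IsManifold MeasureTheory Set Metric Filter Vale.Agent.P253.Mfd Vale.Agent.P253Z
open Vale.Agent.P272.K (Cm dz dzb cHess jacM Chart)
open Vale.Agent.P272.K.C2

noncomputable section

namespace Vale.Agent.P253W.V

/-- all rows -/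
structure Rows : Prop where
  bas1 : BAS1
  bas2 : BAS2
  hq : HQ
  trig : TRIG
  dch : DCH
  g0 : G0
  lip : LIP
  fin : FIN
  vd1 : VD1
  vd2 : VD2
  ibp : IBP
  vd3 : ∀ (n : ℕ) (U : Set (P n)) (g : P n → Mx n) (a : Cm n → ℝ) (u L : P n → ℝ)
    (l δ : ℕ → P n → ℝ) (η : ℕ → ℝ) (C : ℝ), KF U g → ContDiffOn ℝ ∞ (fun q : P n => a q.2) U →
    (∀ q ∈ U, 0 < a q.2) → (∀ q ∈ U, u q = Real.log (a q.2 / (g q).det.re)) →
    (∀ q ∈ U, dT u q = trg (g q) (cH u q)) → Reg U g u L l δ η C → ∀ χ, Test U χ →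
    0 ≤ ∫ q, (dT χ q * (Real.exp (u q - L q) - 1) + (u q - L q) * trg (g q) (cH χ q)) *
      (g q).det.re
  vd4 : VD4
  lv : LV
  lfp : LFP
  lfc : LFC
  dh1 : DH1
  dh2 : DH2
  s3p : S3P
  s3g : S3G
  mk1 : MK1
  mk2 : MK2
  lib : LIB
  cmp : CMP
  geo : GEO
  stab : STAB
  far : FAR
  har : HAR

theorem RM_congr {n : ℕ} {W W' : Cm n → Mx n} {z : Cm n} (h : W =ᶠ[𝓝 z] W') (k l : Fin n) :
    RM k l W z = RM k l W' z := by
  rw [RM, RM, D2, D2, DM_congr (DMb_eventuallyEq h), DM_congr h, DMb_congr h, h.eq_of_nhds]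

theorem bk_congr {n : ℕ} {W W' : Cm n → Mx n} {z : Cm n} (h : W =ᶠ[𝓝 z] W') (X a : Cm n) :
    bk W z X a = bk W' z X a := by
  simp only [bk, Kxx, RM_congr h]

theorem Rows.dh (R : Rows) (n : ℕ) : DH n := R.dh2 R.hq R.lfc (R.dh1 R.lfc) n

variable {n : ℕ} {M : Type} [MetricSpace M] [ChartedSpace (Cm n) M] [IsManifold 𝓘(ℂ, Cm n) 1 M]
  [IsManifold 𝓘(ℝ, Cm n) ∞ M] [RiemannianBundle fun x : M => TangentSpace 𝓘(ℝ, Cm n) x]
  [IsContMDiffRiemannianBundle 𝓘(ℝ, Cm n) ∞ (Cm n) fun x : M => TangentSpace 𝓘(ℝ, Cm n) x]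
  [IsRiemannianManifold 𝓘(ℝ, Cm n) M] [CompleteSpace M] [ConnectedSpace M] [NoncompactSpace M]
  [MeasurableSpace M] [BorelSpace M] {μ : Measure M} {F : Flow n M}

namespace Rows

variable (R : Rows) (c : Ctx n μ) (h : F.Is)

include R c h

theorem b1 : F.Bas1 := R.bas1 n M μ F c h

theorem b2 : F.Bas2 := R.bas2 n M μ F c h (R.b1 c h)

theorem g0' : F.G0 := R.g0 n M μ F c h R.hq (R.b1 c h) (R.b2 c h)

theorem lip' : F.LIP := R.lip n M μ F c h R.trig (R.b1 c h) (R.b2 c h) (R.g0' c h)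

theorem vd : F.VD μ := R.vd4 n M μ F c h R.vd1 R.vd3 (R.b1 c h) (R.b2 c h)
  (R.fin n M μ F c h R.dch (R.b1 c h) (R.b2 c h)).1

theorem lyh (hE : F.ENV) (hL : F.L1 μ) : F.LYH := by
  obtain ⟨h1, h2⟩ := R.fin n M μ F c h R.dch (R.b1 c h) (R.b2 c h)
  refine h2 fun S hS => ?_
  obtain ⟨l, hl⟩ := hE S hS
  obtain ⟨v, hm, hv, hd⟩ := R.vd c h S l hl
  refine ⟨l, hl, ?_⟩
  filter_upwards [hL S v hm (fun t ht x =>
    ⟨by linarith [(hv t ht x).1, h1 S l hl t ht x], (hv t ht x).2⟩) hd] with q hq hq1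
  linarith [(hv q.1 hq1 q.2).1, hq hq1]

theorem s3a (hw : F.LOW) (hy : F.LYH) : F.S3a := by
  have h1 := R.b1 c h
  have h2 := R.b2 c h
  have lf := R.lv n M μ F c h R.hq h1 h2 hy
  obtain ⟨p1, p2, p3, p4, p5, p6⟩ := R.s3p n M μ F c h R.lfc h1 h2 lf
  obtain ⟨q1, q2, q3, q4, q5, q6⟩ := R.s3g n M μ F c h R.lfc h1 h2 hw lf
  exact ⟨lf, R.lfp n M μ F c h h1 h2 lf, p1, p2, p3, p4, p5, q1, q2, q3, q4, p6, q5, q6⟩

theorem fam : Nonempty (Fam F) := by
  have h1 := R.b1 c h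
  have : ∀ t : ℝ, ∃ g : Rm n M, ∀ e : Chart n M, Hc e → ∀ z ∈ e.target, ∀ v w : Cm n,
      chartMetric (M := Wm g) e z v w = (v ⬝ᵥ (F.g (max t 0) e z *ᵥ star w)).re := fun t =>
    R.mk1 n M (F.g (max t 0)) (fun e he z hz => ⟨h.pos _ (le_max_right _ _) e he z hz,
      h1.g_at _ (le_max_right _ _) e he z hz⟩) (h1.g_ch _ (le_max_right _ _))
  choose G hG using this
  have key : ∀ t, IsKahler (Cm n) (Wm (G t)) ∧ ∀ e : Chart n M, Hc e → ∀ z ∈ e.target,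
      hm (M := Wm (G t)) e z = F.g (max t 0) e z := fun t =>
    (R.mk2 n (Wm (G t))).1 (F.g (max t 0)) fun e he z hz =>
      ⟨h.pos _ (le_max_right _ _) e he z hz, h1.g_at _ (le_max_right _ _) e he z hz,
        h1.g_cl _ (le_max_right _ _) e he z hz, hG t e he z hz⟩
  exact ⟨⟨G, fun t ht e he z hz => by rw [(key t).2 e he z hz, max_eq_left ht],
    fun t _ => (key t).1⟩⟩

theorem s3b (hs : F.S3a) (A : Fam F) : A.S3b μ := by
  have h1 := R.b1 c h
  have h2 := R.b2 c h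
  obtain ⟨hvol, hz, hc⟩ := R.cmp n M μ F c h h1 A
  have anti : ∀ s t, 0 ≤ s → s ≤ t → ∀ x y, A.d t x y ≤ A.d s x y := fun s t h0 hst =>
    hc s t h0 (h0.trans hst) fun e he z hz => (hs.g_anti s t h0 hst e he z hz).1
  have far := R.far n M μ F c h R.geo R.stab h1 h2 hs A hz anti
  have bk : ∀ t, 0 ≤ t → ∀ e : Chart n (Wm (A.G t)), Hc e → ∀ z ∈ e.target, ∀ X a,
      0 ≤ bk (hm (M := Wm (A.G t)) e) z X a := by
    intro t ht e he z hz X a
    rw [bk_congr (W' := F.g t e) (by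
      filter_upwards [e.open_target.mem_nhds hz] with y hy using A.hm_eq t ht e he y hy)]
    exact (hs.bk t ht e he z hz X a).1
  have nn : ∀ t, 0 ≤ t → ∀ x : Wm (A.G t), NonnegBisectionalAt (Cm n) x := fun t ht =>
    ((R.mk2 n (Wm (A.G t))).2 (A.kahler t ht)).2 (bk t ht)
  have cpl : ∀ t, 0 ≤ t → CompleteSpace (Wm (A.G t)) := by
    intro t ht
    have : ProperSpace M := properSpace_riemannian (Cm n) M
    obtain ⟨ρ, hρ⟩ := far t
    have : ProperSpace (Wm (A.G t)) := by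
      refine ProperSpace.of_isCompact_closedBall_of_le 0 fun x r _ => ?_
      have hK : IsCompact (closedBall F.o (max ρ (2 * (r + A.d t x F.o)))) :=
        isCompact_closedBall _ _
      refine IsCompact.of_isClosed_subset (X := Wm (A.G t)) hK isClosed_closedBall fun y hy => ?_
      by_contra hy'
      have h3 : max ρ (2 * (r + A.d t x F.o)) < F.r y := not_le.1 hy'
      have h4 := hρ t ⟨ht, le_rfl⟩ y ((le_max_left _ _).trans h3.le)
      have h5 : A.d t y F.o ≤ A.d t y x + A.d t x F.o := dist_triangle (α := Wm (A.G t)) _ _ _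
      have h6 : A.d t y x ≤ r := hy
      linarith [le_max_right ρ (2 * (r + A.d t x F.o))]
    infer_instance
  exact ⟨nn, cpl, fun t ht => by
    have := cpl t ht
    exact R.lib n (Wm (A.G t)) (F.vol μ t) c.npos (A.kahler t ht) (nn t ht) (bk t ht) (hvol t ht),
    hz, anti, far, R.har n M μ F c h R.geo h1 h2 hs A cpl⟩

end Rows

end Vale.Agent.P253W.V
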