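import Vale.Agent.P253W.Slice
import Vale.Agent.P210.R2.H53.SpecR

/-!
# P253W, block V: statements of the rows (sections 2.3, 2.9, 2.10, 3.1, 3.2, 3.6)
-/

open scoped Manifold ContDiff Bundle ENNReal NNReal Topology ComplexConjugate ComplexOrder Matrix
open Bundle IsManifold MeasureTheory Set Metric Filter Vale.Agent.P253.Mfd Vale.Agent.P253Z
open Vale.Agent.P272.K (Cm dz dzb cHess jacM Chart)
open Vale.Agent.P272.K.C2 (DM RM MC)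
open Vale.Agent.P253.R2.H451 (ContPsh levi2)
open Vale.Agent.P210.R2.H53 (MinGeo)

noncomputable section

namespace Vale.Agent.P253W.V

/-- for all complex manifolds with a Riemannian metric -/
def ForM (P : ∀ (n : ℕ) (M : Type) [MetricSpace M] [ChartedSpace (Cm n) M]
    [IsManifold 𝓘(ℝ, Cm n) ∞ M] [RiemannianBundle fun x : M => TangentSpace 𝓘(ℝ, Cm n) x],
    Prop) : Prop :=
  ∀ (n : ℕ) (M : Type) [MetricSpace M] [ChartedSpace (Cm n) M] [IsManifold 𝓘(ℂ, Cm n) 1 M]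
    [IsManifold 𝓘(ℝ, Cm n) ∞ M] [RiemannianBundle fun x : M => TangentSpace 𝓘(ℝ, Cm n) x]
    [IsContMDiffRiemannianBundle 𝓘(ℝ, Cm n) ∞ (Cm n) fun x : M => TangentSpace 𝓘(ℝ, Cm n) x]
    [IsRiemannianManifold 𝓘(ℝ, Cm n) M], P n M

/-- for all flows on manifolds as in the conjecture -/
def ForF (P : ∀ (n : ℕ) (M : Type) [MetricSpace M] [ChartedSpace (Cm n) M]
    [IsManifold 𝓘(ℝ, Cm n) ∞ M] [RiemannianBundle fun x : M => TangentSpace 𝓘(ℝ, Cm n) x]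
    [ConnectedSpace M] [NoncompactSpace M] [MeasurableSpace M], Measure M → Flow n M → Prop) :
    Prop :=
  ∀ (n : ℕ) (M : Type) [MetricSpace M] [ChartedSpace (Cm n) M] [IsManifold 𝓘(ℂ, Cm n) 1 M]
    [IsManifold 𝓘(ℝ, Cm n) ∞ M] [RiemannianBundle fun x : M => TangentSpace 𝓘(ℝ, Cm n) x]
    [IsContMDiffRiemannianBundle 𝓘(ℝ, Cm n) ∞ (Cm n) fun x : M => TangentSpace 𝓘(ℝ, Cm n) x]
    [IsRiemannianManifold 𝓘(ℝ, Cm n) M] [CompleteSpace M] [ConnectedSpace M] [NoncompactSpace M]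
    [MeasurableSpace M] [BorelSpace M] (μ : Measure M) (F : Flow n M), Ctx n μ → F.Is → P n M μ F

/-! ### basic calculus -/

def BAS1 : Prop := ForF fun _ _ _ _ _ _ _ _ _ _ F => F.Bas1

def BAS2 : Prop := ForF fun _ _ _ _ _ _ _ _ _ _ F => F.Bas1 → F.Bas2

/-- **HQ**: first and second derivatives of `|ξ|²_W` -/
def HQ : Prop := ∀ (m n : ℕ) (W : Cm m → Mx n) (z X : Cm m) (ξ β : Cm n), MC 2 W z →
  (∀ᶠ y in 𝓝 z, (W y).PosDef) →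
  ContDiffAt ℝ 2 (fun q : Cm m × Cm n => hq (W q.1) q.2) (z, ξ) ∧
  fderiv ℝ (fun q : Cm m × Cm n => hq (W q.1) q.2) (z, ξ) (X, β) =
    2 * (star ξ ⬝ᵥ ((W z)⁻¹ *ᵥ (β - (∑ k, X k • DM k W z) *ᵥ ((W z)⁻¹ *ᵥ ξ)))).re ∧
  levi2 (fun q : Cm m × Cm n => hq (W q.1) q.2) (z, ξ) (X, β) =
    4 * ((star ((W z)⁻¹ *ᵥ ξ) ⬝ᵥ ((∑ l, ∑ k, (X k * conj (X l)) • RM k l W z) *ᵥ
      ((W z)⁻¹ *ᵥ ξ))).re + hq (W z) (β - (∑ k, X k • DM k W z) *ᵥ ((W z)⁻¹ *ᵥ ξ)))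

/-! ### discs: 2.3 and 2.10 -/

/-- **TRIG**: real parts of polynomials are dense on the circle -/
def TRIG : Prop := ∀ (k : ℂ → ℝ) (δ : ℝ), ContinuousOn k (sphere 0 1) → 0 < δ →
  ∃ p : Polynomial ℂ, (∀ τ ∈ sphere (0 : ℂ) 1, |(p.eval τ).re - k τ| < δ) ∧
    (p.eval 0).re = Real.circleAverage (fun τ => (p.eval τ).re) 0 1

/-- **DCH**: discs in a chart -/
def DCH : Prop := ForF fun n M _ _ _ _ _ _ _ _ F => F.Bas1 → ∀ (S : ℝ) (e : Chart n M), Hc e →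
  ∀ c : ℂ → Cm n × Cm n × ℂ, DiffContOnCl ℂ c (ball 0 1) →
    (∀ τ ∈ closedBall (0 : ℂ) 1, (c τ).1 ∈ e.target ∧ Real.exp (2 * (c τ).2.2.re) ≤ S) →
    (∀ τ ∈ sphere (0 : ℂ) 1, (c τ).2.1 ≠ 0) →
    ∃ D : Disc n M S, (∀ τ, D.f τ = e.symm (c τ).1 ∧ D.ζ τ = (c τ).2.2) ∧
      (∀ τ ∈ closedBall (0 : ℂ) 1, cv e (D.f τ) (D.ξ τ) = (c τ).2.1) ∧
      F.γ D = Real.circleAverage (fun τ => F.G e (c τ)) 0 1

def G0 : Prop := ForF fun _ _ _ _ _ _ _ _ _ _ F => HQ → F.Bas1 → F.Bas2 → F.G0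

def LIP : Prop := ForF fun _ _ _ _ _ _ _ _ _ _ F => TRIG → F.Bas1 → F.Bas2 → F.G0 → F.LIP

/-- **FIN** (2.10) -/
def FIN : Prop := ForF fun _ _ _ _ _ _ _ _ _ μ F => DCH → F.Bas1 → F.Bas2 →
  (∀ S l, F.Env S l → ∀ t ∈ Ioo 0 S, ∀ x, l t x ≤ F.u t x) ∧
  ((∀ S : ℝ, 0 < S → ∃ l, F.Env S l ∧
    ∀ᵐ q : ℝ × _ ∂(volume.prod μ), q.1 ∈ Ioo 0 S → F.u q.1 q.2 ≤ l q.1 q.2) → F.LYH)

/-! ### 2.9: from viscosity to distributions -/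

/-- space-time -/
abbrev P (n : ℕ) : Type := ℝ × Cm n

variable {n : ℕ}

/-- the time derivative -/
def dT (φ : P n → ℝ) (q : P n) : ℝ := deriv (fun s => φ (s, q.2)) q.1

/-- the complex Hessian in space -/
def cH (φ : P n → ℝ) (q : P n) : Mx n := cHess (fun w => φ (q.1, w)) q.2

/-- `φ` is smooth and touches `l` from below at `q` -/
def Tch (l φ : P n → ℝ) (q : P n) : Prop :=
  ContDiff ℝ ∞ φ ∧ (∀ᶠ p in 𝓝 q, φ p ≤ l p) ∧ φ q = l q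

/-- test functions -/
def Test (U : Set (P n)) (χ : P n → ℝ) : Prop :=
  ContDiff ℝ ∞ χ ∧ (∀ q, 0 ≤ χ q) ∧ HasCompactSupport χ ∧ tsupport χ ⊆ U

/-- the regularised supersolutions -/
structure Reg (U : Set (P n)) (g : P n → Mx n) (u L : P n → ℝ) (l δ : ℕ → P n → ℝ) (η : ℕ → ℝ)
    (C : ℝ) : Prop where
  lip : ∀ k, ∃ c : ℝ≥0, LipschitzOnWith c (l k) U
  cδ : ∀ k, ContinuousOn (δ k) U
  bd : ∀ k, ∀ q ∈ U, |l k q| ≤ C ∧ 0 ≤ δ k q ∧ δ k q ≤ C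
  lim : ∀ q ∈ U, Tendsto (fun k => l k q) atTop (𝓝 (L q)) ∧ Tendsto (fun k => δ k q) atTop (𝓝 0)
  η_mem : ∀ k, η k ∈ Ioo (0 : ℝ) 1
  η_lim : Tendsto η atTop (𝓝 0)
  one : ∀ k, ∃ h₀ : ℝ, 0 < h₀ ∧ ∀ q ∈ U, ∀ h ∈ Icc 0 h₀, (q.1 + h, q.2) ∈ U →
    l k (q.1 + h, q.2) ≤ l k q + C * h
  vis : ∀ k, ∀ q ∈ U, ∀ φ, Tch (l k) φ q → ∀ B : Mx n, B.PosSemidef → ((g q)⁻¹ - B).PosSemidef →
    (1 - η k) * Real.exp (l k q - δ k q - u q) * (B * cH φ q).trace.re ≤ dT φ q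

/-- **VD1**: inf-convolution -/
def VD1 : Prop := ∀ (n : ℕ) (U₀ K : Set (P n)) (g : P n → Mx n) (u l : P n → ℝ) (C : ℝ),
  IsOpen U₀ → IsCompact K → K ⊆ U₀ → (∀ j k, ContinuousOn (fun q => g q j k) U₀) →
  (∀ q ∈ U₀, (g q).PosDef) → ContinuousOn u U₀ → (∀ q ∈ U₀, |l q| ≤ C) →
  (∀ q ∈ U₀, ∀ h, 0 ≤ h → (q.1 + h, q.2) ∈ U₀ → l (q.1 + h, q.2) ≤ l q + C * h) →
  (∀ q ∈ U₀, ∀ (φ : P n → ℝ) (δ : ℝ), ContDiff ℝ ∞ φ → 0 < δ →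
    (∀ p ∈ ball q δ, φ p + dist p q ^ 4 ≤ l p) → (∀ ε : ℝ, 0 < ε → ∃ p ∈ ball q ε, l p < φ p + ε) →
    ∀ B : Mx n, B.PosSemidef → ((g q)⁻¹ - B).PosSemidef →
      Real.exp (φ q - u q) * (B * cH φ q).trace.re ≤ dT φ q) →
  ∃ (U : Set (P n)) (l' δ : ℕ → P n → ℝ) (η : ℕ → ℝ) (C' : ℝ), IsOpen U ∧ K ⊆ U ∧ U ⊆ U₀ ∧
    Reg U g u (fun q => liminf l (𝓝 q)) l' δ η C'

/-- **VD2**: constant coefficients -/
def VD2 : Prop := ∀ (n : ℕ) (U : Set (P n)) (l : P n → ℝ) (A : Mx n), IsOpen U →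
  ContinuousOn l U → A.PosDef → (∀ q ∈ U, ∀ φ, Tch l φ q → (A * cH φ q).trace.re ≤ dT φ q) →
  ∀ χ, Test U χ → ∫ q, l q * (dT χ q + (A * cH χ q).trace.re) ≤ 0

/-- a smooth family of Kähler metrics -/
structure KF (U : Set (P n)) (g : P n → Mx n) : Prop where
  op : IsOpen U
  sm : ∀ j k, ContDiffOn ℝ ∞ (fun q => g q j k) U
  pos : ∀ q ∈ U, (g q).PosDef
  cl : ∀ q ∈ U, ∀ j k l, dz l (fun y => g (q.1, y) j k) q.2 = dz j (fun y => g (q.1, y) l k) q.2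

/-- **IBP**: `ω^n Δ` is symmetric -/
def IBP : Prop := ∀ (n : ℕ) (U : Set (P n)) (g : P n → Mx n) (f χ : P n → ℝ), KF U g →
  ContDiffOn ℝ ∞ f U → Test U χ →
  ∫ q, f q * trg (g q) (cH χ q) * (g q).det.re = ∫ q, χ q * trg (g q) (cH f q) * (g q).det.re ∧
  ∫ q, f q * dT χ q = -∫ q, χ q * dT f q

/-- **MOL**: mollification of one regularised supersolution -/
def MOL : Prop := VD2 → IBP → ∀ (n : ℕ) (U : Set (P n)) (g : P n → Mx n) (a : Cm n → ℝ)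
  (u L : P n → ℝ) (l δ : ℕ → P n → ℝ) (η : ℕ → ℝ) (C : ℝ), KF U g →
  ContDiffOn ℝ ∞ (fun q : P n => a q.2) U → (∀ q ∈ U, 0 < a q.2) →
  (∀ q ∈ U, u q = Real.log (a q.2 / (g q).det.re)) → Reg U g u L l δ η C → ∀ χ, Test U χ → ∀ k,
  ∫ q, l k q * trg (g q) (cH χ q) * (g q).det.re ≤ ∫ q, dT χ q * a q.2 * Real.exp (-l k q) +
    C * ∫ q, χ q * a q.2 * ((Real.exp (δ k q) / (1 - η k) - 1) * Real.exp (-l k q))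

/-- **VD3**: the local inequality -/
def VD3 : Prop := MOL → VD2 → IBP → ∀ (n : ℕ) (U : Set (P n)) (g : P n → Mx n) (a : Cm n → ℝ)
  (u L : P n → ℝ) (l δ : ℕ → P n → ℝ) (η : ℕ → ℝ) (C : ℝ), KF U g →
  ContDiffOn ℝ ∞ (fun q : P n => a q.2) U → (∀ q ∈ U, 0 < a q.2) →
  (∀ q ∈ U, u q = Real.log (a q.2 / (g q).det.re)) → (∀ q ∈ U, dT u q = trg (g q) (cH u q)) →
  Reg U g u L l δ η C → ∀ χ, Test U χ →
  0 ≤ ∫ q, (dT χ q * (Real.exp (u q - L q) - 1) + (u q - L q) * trg (g q) (cH χ q)) * (g q).det.re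

/-- **VD4**: partition of unity -/
def VD4 : Prop := ForF fun _ _ _ _ _ _ _ _ _ μ F => VD1 → (∀ (n : ℕ) (U : Set (P n))
  (g : P n → Mx n) (a : Cm n → ℝ) (u L : P n → ℝ) (l δ : ℕ → P n → ℝ) (η : ℕ → ℝ) (C : ℝ),
  KF U g → ContDiffOn ℝ ∞ (fun q : P n => a q.2) U → (∀ q ∈ U, 0 < a q.2) →
  (∀ q ∈ U, u q = Real.log (a q.2 / (g q).det.re)) → (∀ q ∈ U, dT u q = trg (g q) (cH u q)) →
  Reg U g u L l δ η C → ∀ χ, Test U χ →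
  0 ≤ ∫ q, (dT χ q * (Real.exp (u q - L q) - 1) + (u q - L q) * trg (g q) (cH χ q)) *
    (g q).det.re) → F.Bas1 → F.Bas2 →
  (∀ S l, F.Env S l → ∀ t ∈ Ioo 0 S, ∀ x, l t x ≤ F.u t x) → F.VD μ

/-! ### 3.1 and 3.6: the matrix Harnack inequality -/

/-- **LV**: `LYH` in matrix form -/
def LV : Prop := ForF fun n M _ _ _ _ _ _ _ _ F => HQ → F.Bas1 → F.Bas2 → F.LYH →
  ∀ e : Chart n M, Hc e → LF e.target fun t => F.g t e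

/-- **LFP**: pull-back -/
def LFP : Prop := ForF fun n M _ _ _ _ _ _ _ _ F => F.Bas1 → F.Bas2 →
  (∀ e : Chart n M, Hc e → LF e.target fun t => F.g t e) →
  ∀ (U : Set (Cm n)) (Φ : Cm n → M), IsOpen U → MDifferentiableOn 𝓘(ℂ, Cm n) 𝓘(ℂ, Cm n) Φ U →
    (∀ z ∈ U, (jm Φ z).det ≠ 0) → LF U (F.pull Φ) ∧ ∀ t, 0 < t → ∀ z ∈ U,
      rho (F.pull Φ t) z = pb (jm Φ z) (F.ρx t (Φ z)) ∧
      trg (F.pull Φ t z) (rho (F.pull Φ t) z) = F.R t (Φ z)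

/-- `t Ric^#(ξ, ξ)` -/
def lam (W : ℝ → Cm n → Mx n) (z ξ : Cm n) (t : ℝ) : ℝ :=
  t * (star ((W t z)⁻¹ *ᵥ ξ) ⬝ᵥ (rho (W t) z *ᵥ ((W t z)⁻¹ *ᵥ ξ))).re

/-- `t R` -/
def tR (W : ℝ → Cm n → Mx n) (t : ℝ) (z : Cm n) : ℝ := t * trg (W t z) (rho (W t) z)

/-- pointwise consequences of `LF` -/
structure LC (U : Set (Cm n)) (W : ℝ → Cm n → Mx n) : Prop where
  rho_sm : ∀ j k, ContDiffOn ℝ ∞ (fun q : ℝ × Cm n => rho (W q.1) q.2 j k) (Ioi 0 ×ˢ U)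
  bk : ∀ t, 0 < t → ∀ z ∈ U, ∀ X, (Kxx (W t) z X).PosSemidef ∧
    ((qf (W t z) X : ℂ) • rho (W t) z - Kxx (W t) z X).PosSemidef
  ric : ∀ t, 0 < t → ∀ z ∈ U, (rho (W t) z).PosSemidef ∧
    ((trg (W t z) (rho (W t) z) : ℂ) • W t z - rho (W t) z).PosSemidef
  ktt : ∀ t, 0 < t → ∀ z ∈ U, (Ktt W t z).PosSemidef ∧
    ((trg (W t z) (Ktt W t z) : ℂ) • W t z - Ktt W t z).PosSemidef
  tR_t : ∀ t, 0 < t → ∀ z ∈ U, HasDerivAt (fun s => tR W s z) (trg (W t z) (Ktt W t z) / t) t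
  grad : ∀ t, 0 < t → ∀ z ∈ U, ∀ X : Cm n,
    ‖∑ k, X k * dz k (fun y => (tR W t y : ℂ)) z‖ ^ 2 ≤ qf (rho (W t) z) X * trg (W t z) (Ktt W t z)
  mix : ∀ t, 0 < t → ∀ z ∈ U, ∀ X a b : Cm n, ‖star a ⬝ᵥ (Kxt W t z X *ᵥ b)‖ ≤
    2 * (√(star a ⬝ᵥ (Kxx (W t) z X *ᵥ a)).re * √(star b ⬝ᵥ (Ktt W t z *ᵥ b)).re +
      √(star b ⬝ᵥ (Kxx (W t) z X *ᵥ b)).re * √(star a ⬝ᵥ (Ktt W t z *ᵥ a)).re)
  hq_t : ∀ t, 0 < t → ∀ z ∈ U, ∀ ξ, HasDerivAt (fun s => hq (W s z) ξ) (lam W z ξ t / t) t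
  lam_t : ∀ t, 0 < t → ∀ z ∈ U, ∀ ξ, ξ ≠ 0 → ∃ d : ℝ,
    HasDerivAt (fun s => lam W z ξ s / hq (W s z) ξ) d t ∧
    (star ((W t z)⁻¹ *ᵥ ξ) ⬝ᵥ (Ktt W t z *ᵥ ((W t z)⁻¹ *ᵥ ξ))).re / hq (W t z) ξ ≤ t * d
  conn_t : ∀ t : ℝ, 0 < t → ∀ z ∈ U, ∀ (X : Cm n) (j k : Fin n),
    HasDerivAt (fun s => (DX X (W s) z * (W s z)⁻¹) j k)
      (-((t : ℂ)⁻¹ • (Kxt W t z X * (W t z)⁻¹)) j k) t

/-- **LFC** -/
def LFC : Prop := ∀ (n : ℕ) (U : Set (Cm n)) (W : ℝ → Cm n → Mx n), LF U W → LC U W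

/-- the estimate of the change of the connection -/
def DH1s : Prop := ∃ C : ℝ, 1 ≤ C ∧ ∀ (n : ℕ) (U : Set (Cm n)) (W : ℝ → Cm n → Mx n), LF U W →
  ∀ z ∈ U, ∀ (X ξ : Cm n) (t t' K Λ : ℝ), 0 < t → t ≤ t' → 1 ≤ K → t' ≤ t * Real.exp (1 / K) →
    ξ ≠ 0 → qf (W t z) X ≤ 1 → (∀ s ∈ Icc t t', tR W s z ≤ K) →
    lam W z ξ t' ≤ Λ * hq (W t' z) ξ →
    ‖star ((W t' z)⁻¹ *ᵥ ξ) ⬝ᵥ
      ((DX X (W t) z * (W t z)⁻¹ - DX X (W t') z * (W t' z)⁻¹) *ᵥ ξ)‖ ≤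
      C * √(Real.log (t' / t) / t) * Λ * hq (W t' z) ξ

def DH1 : Prop := LFC → DH1s

def DH2 : Prop := HQ → LFC → DH1s → ∀ n, DH n

/-- **S3P**, **S3G**: the fields of `S3a` -/
def S3P : Prop := ForF fun n M _ _ _ _ _ _ _ _ F => LFC → F.Bas1 → F.Bas2 →
  (∀ e : Chart n M, Hc e → LF e.target fun t => F.g t e) →
  (∀ t, 0 ≤ t → ∀ e : Chart n M, Hc e → ∀ z ∈ e.target, ∀ X a,
    0 ≤ bk (F.g t e) z X a ∧ bk (F.g t e) z X a ≤ qf (F.g t e z) X * qf (hs (F.u t) e z) a) ∧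
  (∀ t, 0 ≤ t → ∀ e : Chart n M, Hc e → ∀ z ∈ e.target, (hs (F.u t) e z).PosDef) ∧
  (∀ t, 0 ≤ t → ∀ e : Chart n M, Hc e → ∀ z ∈ e.target,
    ((F.R t (e.symm z) : ℂ) • F.g t e z - hs (F.u t) e z).PosSemidef) ∧
  (∀ s t, 0 ≤ s → s ≤ t → ∀ e : Chart n M, Hc e → ∀ z ∈ e.target,
    (F.g s e z - F.g t e z).PosSemidef ∧
    ((Real.exp (F.u t (e.symm z) - F.u s (e.symm z)) : ℂ) • F.g t e z - F.g s e z).PosSemidef) ∧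
  (∀ t, 0 ≤ t → ∀ x, 0 < F.R t x) ∧
  (∀ K, IsCompact K → ∃ c : ℝ, 0 < c ∧ ∀ t, 1 ≤ t → ∀ x ∈ K, ∀ ξ,
    t ^ c * F.H 0 x ξ ≤ F.H t x ξ)

def S3G : Prop := ForF fun n M _ _ _ _ _ _ _ _ F => LFC → F.Bas1 → F.Bas2 → F.LOW →
  (∀ e : Chart n M, Hc e → LF e.target fun t => F.g t e) →
  (∀ x, MonotoneOn (fun t => t * F.R t x) (Ici 0)) ∧
  (∀ x, ConvexOn ℝ univ fun σ => F.u (Real.exp σ) x) ∧
  (∀ (x : M) (ξ : Cm n), ξ ≠ 0 → ConvexOn ℝ univ fun σ => Real.log (F.H (Real.exp σ) x ξ)) ∧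
  (∀ t, 0 < t → ∀ e : Chart n M, Hc e → ∀ z ∈ e.target, ∀ X : Cm n,
    ‖∑ k, X k * dz k (fun y => ((t * F.R t (e.symm y) : ℝ) : ℂ)) z‖ ^ 2 ≤
      qf (hs (F.u t) e z) X * (t * deriv (fun s => s * F.R s (e.symm z)) t)) ∧
  (∀ x, ∃ C : ℝ, ∀ t, 0 ≤ t → F.u t x ≤ C * (1 + t) ∧ F.R t x ≤ C) ∧
  ∃ b : ℝ, 1 / 2 ≤ b ∧ b < 1 ∧ ∀ S : ℝ, ∃ C : ℝ, ∀ t ∈ Icc 0 S, ∀ x,
    F.u t x ≤ C * (1 + F.r x) ^ (2 * b) ∧ t * F.R t x ≤ C * (1 + F.r x) ^ (2 * b)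

/-! ### 3.2: slices -/

/-- **MK1**: a Riemannian metric with given matrices -/
def MK1 : Prop := ForM fun n M _ _ _ _ => ∀ [ConnectedSpace M] (W : Chart n M → Cm n → Mx n),
  (∀ e : Chart n M, Hc e → ∀ z ∈ e.target, (W e z).PosDef ∧
    ∀ j k, ContDiffAt ℝ ∞ (fun y => W e y j k) z) →
  (∀ e e' : Chart n M, Hc e → Hc e' → ∀ x ∈ e.source, x ∈ e'.source →
    W e (e x) = pb (jacM e e' x) (W e' (e' x))) →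
  ∃ g : Rm n M, ∀ e : Chart n M, Hc e → ∀ z ∈ e.target, ∀ v w : Cm n,
    chartMetric (M := Wm g) e z v w = (v ⬝ᵥ (W e z *ᵥ star w)).re

/-- **MK2**: closed forms are Kähler; the sign of the curvature -/
def MK2 : Prop := ForM fun n M _ _ _ _ => (∀ W : Chart n M → Cm n → Mx n,
  (∀ e : Chart n M, Hc e → ∀ z ∈ e.target, (W e z).PosDef ∧
    (∀ j k, ContDiffAt ℝ ∞ (fun y => W e y j k) z) ∧
    (∀ j k l, dz l (fun y => W e y j k) z = dz j (fun y => W e y l k) z) ∧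
    ∀ v w : Cm n, chartMetric e z v w = (v ⬝ᵥ (W e z *ᵥ star w)).re) →
  IsKahler (Cm n) M ∧ ∀ e : Chart n M, Hc e → ∀ z ∈ e.target, hm e z = W e z) ∧
  (IsKahler (Cm n) M → ((∀ x : M, NonnegBisectionalAt (Cm n) x) ↔
    ∀ e : Chart n M, Hc e → ∀ z ∈ e.target, ∀ X a, 0 ≤ bk (hm e) z X a))

/-- **LIB**: the library for nonnegative curvature -/
def LIB : Prop := ForM fun n M _ _ _ _ => ∀ [CompleteSpace M] [ConnectedSpace M]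
  [NoncompactSpace M] [MeasurableSpace M] [BorelSpace M] (μ : Measure M), 1 ≤ n →
  IsKahler (Cm n) M → (∀ x : M, NonnegBisectionalAt (Cm n) x) →
  (∀ e : Chart n M, Hc e → ∀ z ∈ e.target, ∀ X a, 0 ≤ bk (hm e) z X a) → IsVol n μ → All0 n μ

/-- **CMP**: comparison of the slices -/
def CMP : Prop := ForF fun n M _ _ _ _ _ _ _ μ F => F.Bas1 → ∀ A : Fam F,
  (∀ t, 0 ≤ t → IsVol (M := Wm (A.G t)) n (F.vol μ t)) ∧ (∀ x y, A.d 0 x y = dist x y) ∧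
  ∀ s t, 0 ≤ s → 0 ≤ t → (∀ e : Chart n M, Hc e → ∀ z ∈ e.target,
    (F.g s e z - F.g t e z).PosSemidef) → ∀ x y, A.d t x y ≤ A.d s x y

/-- **GEO**: length of curves, existence and regularity of minimal geodesics -/
def GEO : Prop := ForM fun n M _ _ _ _ => IsKahler (Cm n) M →
  (∀ (c : ℝ → M) (m : ℝ → ℝ) (a b : ℝ), a ≤ b → ContinuousOn c (Icc a b) →
    ContinuousOn m (Icc a b) → (∀ s ∈ Ico a b, ∃ e : Chart n M, Hc e ∧ c s ∈ e.source ∧ ∃ v,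
      HasDerivWithinAt (fun r => e (c r)) v (Ici s) s ∧ √(qf (hm e (e (c s))) v) ≤ m s) →
    dist (c a) (c b) ≤ ∫ s in a..b, m s) ∧
  (∀ (o y : M) (ℓ : ℝ), IsCompact (closedBall o ℓ) → dist o y ≤ ℓ →
    ∃ c : ℝ → M, MinGeo c 0 (dist o y) ∧ c 0 = o ∧ c (dist o y) = y) ∧
  (∀ (c : ℝ → M) (ℓ : ℝ), 0 < ℓ → MinGeo c 0 ℓ → ∃ v : Chart n M → ℝ → Cm n,
    ∀ e : Chart n M, Hc e → ContinuousOn (v e) (Icc 0 ℓ ∩ c ⁻¹' e.source) ∧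
      ∀ s ∈ Icc 0 ℓ, c s ∈ e.source → HasDerivWithinAt (fun r => e (c r)) (v e s) (Icc 0 ℓ) s ∧
        qf (hm e (e (c s))) (v e s) = 1 ∧ ∀ e' : Chart n M, Hc e' → c s ∈ e'.source →
          v e' s = jacM e e' (c s) *ᵥ v e s) ∧
  ∀ (o x : M) (U : Set M), IsOpen U → o ∈ U → x ∉ U →
    ∀ ε : ℝ, 0 < ε → ∃ y ∈ frontier U, dist o y + dist y x ≤ dist o x + ε

/-- **STAB**: the stability inequality -/
def STAB : Prop := ForM fun n M _ _ _ _ => IsKahler (Cm n) M →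
  (∀ e : Chart n M, Hc e → ∀ z ∈ e.target, (ric e z).PosSemidef) →
  ∀ (c : ℝ → M) (ℓ r : ℝ) (f : ℝ → ℝ), 0 < r → 2 * r ≤ ℓ → MinGeo c 0 ℓ →
    ContinuousOn f (Icc 0 ℓ) →
    (∀ s ∈ Ioo 0 ℓ, ∀ e : Chart n M, Hc e → c s ∈ e.source → ∀ v,
      HasDerivAt (fun r => e (c r)) v s → qf (ric e (e (c s))) v = f s) →
    ∫ s in r..(ℓ - r), f s ≤ 2 * n / r

/-- **FAR**: shrinking balls -/
def FAR : Prop := ForF fun _ _ _ _ _ _ _ _ _ _ F => GEO → STAB → F.Bas1 → F.Bas2 → F.S3a →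
  ∀ A : Fam F, (∀ x y, A.d 0 x y = dist x y) →
    (∀ s t, 0 ≤ s → s ≤ t → ∀ x y, A.d t x y ≤ A.d s x y) →
    ∀ S : ℝ, ∃ ρ : ℝ, ∀ t ∈ Icc 0 S, ∀ x, ρ ≤ F.r x → F.r x / 2 ≤ A.d t x F.o

/-- **HAR**: the Harnack inequality -/
def HAR : Prop := ForF fun n _ _ _ _ _ _ _ _ _ F => GEO → F.Bas1 → F.Bas2 → F.S3a →
  ∀ A : Fam F, (∀ t, 0 ≤ t → CompleteSpace (Wm (n := n) (A.G t))) → ∀ s t, 0 < s → s < t → ∀ x y,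
    s * F.R s x ≤ t * F.R t y * Real.exp (A.d s x y ^ 2 / (s * Real.log (t / s)))

end Vale.Agent.P253W.V
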