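import Vale.Agent.P253W.V.Defs

/-!
# P253W, block V, row LIP: analysis on the circle
-/

open scoped Topology Real
open MeasureTheory Set Metric Filter
open Real (circleAverage)

noncomputable section

namespace Vale.Agent.P253W.V.Lip

theorem ci {g : ℂ → ℝ} (h : Continuous g) : CircleIntegrable g 0 1 :=
  h.continuousOn.circleIntegrable zero_le_one

theorem av_cont {X : Type*} [TopologicalSpace X] [FirstCountableTopology X]
    [LocallyCompactSpace X] {F : X → ℂ → ℝ} (h : Continuous (Function.uncurry F)) :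
    Continuous fun x => circleAverage (F x) 0 1 := by
  simp only [Real.circleAverage_def]
  exact (intervalIntegral.continuous_parametric_intervalIntegral_of_continuous'
    (μ := volume) (f := fun x θ => F x (circleMap 0 1 θ)) (h.comp (f := fun p : X × ℝ => (p.1, circleMap 0 1 p.2))
      (by fun_prop)) _ _).const_smul (2 * π)⁻¹

theorem av_swap {F : ℂ → ℂ → ℝ} (h : Continuous (Function.uncurry F)) :
    circleAverage (fun u => circleAverage (F u) 0 1) 0 1 =
      circleAverage (fun τ => circleAverage (fun u => F u τ) 0 1) 0 1 := by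
  simp only [Real.circleAverage_def, intervalIntegral.integral_smul]
  congr 2
  simp only [intervalIntegral.integral_of_le Real.two_pi_pos.le]
  refine integral_integral_swap ?_
  rw [Measure.prod_restrict]
  exact ((h.comp (f := fun p : ℝ × ℝ => (circleMap 0 1 p.1, circleMap 0 1 p.2))
    (by fun_prop)).continuousOn.integrableOn_compact (isCompact_Icc.prod isCompact_Icc)).mono_set
      (prod_mono Ioc_subset_Icc_self Ioc_subset_Icc_self)

theorem av_rot (g : ℂ → ℝ) (O : ℂ) : circleAverage (fun u => g (u * O)) 0 1 =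
    circleAverage (fun u => g (u * (‖O‖ : ℝ))) 0 1 := by
  rw [Real.circleAverage_eq_integral_add (f := fun u => g (u * (‖O‖ : ℝ))) O.arg,
    Real.circleAverage_def]
  congr 2
  funext θ
  congr 1
  conv_lhs => rw [← Complex.norm_mul_exp_arg_mul_I O]
  simp only [circleMap, Complex.ofReal_add, add_mul, Complex.exp_add]
  simp only [zero_add, Complex.ofReal_one, one_mul, zero_mul]
  ring

theorem av_arccos {ψ : ℝ → ℝ} (h : Continuous ψ) :
    circleAverage (fun τ => ψ (Real.arccos τ.re)) 0 1 = π⁻¹ * ∫ θ in 0..π, ψ θ := by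
  have hc : Continuous fun θ => ψ (Real.arccos (Real.cos θ)) :=
    h.comp (Real.continuous_arccos.comp Real.continuous_cos)
  have h1 : ∫ θ in 0..π, ψ (Real.arccos (Real.cos θ)) = ∫ θ in 0..π, ψ θ :=
    intervalIntegral.integral_congr fun θ hθ => by
      rw [uIcc_of_le Real.pi_pos.le] at hθ
      simp only [Real.arccos_cos hθ.1 hθ.2]
  have h2 := intervalIntegral.integral_comp_sub_left (a := π) (b := 2 * π)
    (fun θ => ψ (Real.arccos (Real.cos θ))) (2 * π)
  simp only [Real.cos_two_pi_sub, sub_self, show 2 * π - π = π by ring] at h2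
  simp only [Real.circleAverage_def, circleMap_zero_re, one_mul]
  rw [← intervalIntegral.integral_add_adjacent_intervals (b := π) (hc.intervalIntegrable _ _)
    (hc.intervalIntegrable _ _), h2, h1, smul_eq_mul]
  field_simp
  ring

/-- the ramp -/
def R (w x : ℝ) : ℝ := max 0 (min 1 (x / w))

theorem R_cont (w : ℝ) : Continuous (R w) := by unfold R; fun_prop

theorem R_mem (w x : ℝ) : 0 ≤ R w x ∧ R w x ≤ 1 :=
  ⟨le_max_left _ _, max_le zero_le_one (min_le_left _ _)⟩

theorem R_zero {w x : ℝ} (hw : 0 < w) (h : x ≤ 0) : R w x = 0 :=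
  max_eq_left ((min_le_right _ _).trans (div_nonpos_of_nonpos_of_nonneg h hw.le))

theorem R_one {w x : ℝ} (hw : 0 < w) (h : w ≤ x) : R w x = 1 := by
  rw [R, min_eq_left ((one_le_div hw).2 h), max_eq_right zero_le_one]

/-- the ramp on the circle -/
def ψ (w c : ℝ) (τ : ℂ) : ℝ := R w (Real.arccos τ.re - c)

theorem ψ_cont (w c : ℝ) : Continuous (ψ w c) :=
  (R_cont w).comp ((Real.continuous_arccos.comp Complex.continuous_re).sub continuous_const)

theorem ψ_av (w c : ℝ) : circleAverage (ψ w c) 0 1 = π⁻¹ * ∫ θ in -c..π - c, R w θ := by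
  have := av_arccos (ψ := fun θ => R w (θ - c)) ((R_cont w).comp (by fun_prop))
  rw [intervalIntegral.integral_comp_sub_right, zero_sub] at this
  exact this

theorem ψ_lip (w : ℝ) {c c' : ℝ} (h : c ≤ c') :
    circleAverage (ψ w c) 0 1 ≤ circleAverage (ψ w c') 0 1 + (c' - c) := by
  have i := fun a b => (R_cont w).intervalIntegrable (μ := volume) a b
  have h1 := intervalIntegral.integral_add_adjacent_intervals (i (-c') (-c)) (i (-c) (π - c))
  have h2 := intervalIntegral.integral_add_adjacent_intervals (i (-c') (π - c')) (i (π - c') (π - c))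
  have h3 : 0 ≤ ∫ θ in -c'..-c, R w θ :=
    intervalIntegral.integral_nonneg (by linarith) fun x _ => (R_mem w x).1
  have h4 := intervalIntegral.integral_mono_on (by linarith : π - c' ≤ π - c) (i _ _)
    (intervalIntegrable_const (c := (1 : ℝ))) fun x _ => (R_mem w x).2
  simp only [intervalIntegral.integral_const, smul_eq_mul, mul_one] at h4
  have h5 : π⁻¹ ≤ 1 := inv_le_one_of_one_le₀ (by linarith [Real.pi_gt_three])
  have h6 : 0 < π⁻¹ := inv_pos.2 Real.pi_pos
  rw [ψ_av, ψ_av]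
  nlinarith

theorem ψ_ivt {w y : ℝ} (hw : 0 < w) (h0 : 0 ≤ y) (h1 : y ≤ 1) :
    ∃ c, circleAverage (ψ w c) 0 1 = y := by
  have hc : Continuous fun c => circleAverage (ψ w c) 0 1 := av_cont ((R_cont w).comp
    ((Real.continuous_arccos.comp (Complex.continuous_re.comp continuous_snd)).sub continuous_fst))
  have e0 : circleAverage (ψ w π) 0 1 = 0 := Real.circleAverage_const_on_circle fun τ _ =>
    R_zero hw (by linarith [Real.arccos_le_pi τ.re])
  have e1 : circleAverage (ψ w (-w)) 0 1 = 1 := Real.circleAverage_const_on_circle fun τ _ =>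
    R_one hw (by linarith [Real.arccos_nonneg τ.re])
  exact intermediate_value_univ π (-w) hc ⟨e0.trans_le h0, h1.trans_eq e1.symm⟩

theorem av_mul (c : ℝ) (f : ℂ → ℝ) :
    circleAverage (fun τ => c * f τ) 0 1 = c * circleAverage f 0 1 :=
  Real.circleAverage_fun_smul (a := c)

theorem polys (trig : TRIG) {w c δ κ D d' : ℝ} (w0 : 0 < w) (δ0 : 0 < δ) (k2 : 0 < κ) (de : 0 ≤ D)
    (hc : D * circleAverage (ψ w c) 0 1 = d' + 2 * δ) :
    ∃ O h : ℂ → ℂ, Differentiable ℂ O ∧ Differentiable ℂ h ∧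
      (∀ τ ∈ closedBall (0 : ℂ) 1, ‖O τ‖ ≤ ‖τ‖) ∧ (h 0).re = d' ∧ ∀ τ ∈ sphere (0 : ℂ) 1,
      -(4 * δ) ≤ (h τ).re ∧ (h τ).re ≤ D * ψ w c τ ∧ (c ≤ Real.arccos τ.re → ‖O τ‖ < κ) ∧
      (Real.arccos τ.re ≤ c - w → 1 - 2 * δ ≤ ‖O τ‖) := by
  obtain ⟨p, hp, -⟩ := trig (fun τ => κ⁻¹ * ψ w (c - w) τ + δ) δ
    ((continuous_const.mul (ψ_cont _ _)).add continuous_const).continuousOn δ0
  obtain ⟨q, hq, hq0⟩ := trig (fun τ => D * ψ w c τ - δ) δ
    ((continuous_const.mul (ψ_cont _ _)).sub continuous_const).continuousOn δ0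
  have qc : Continuous fun τ => (q.eval τ).re := Complex.continuous_re.comp q.continuous
  have avk : ∀ s : ℝ, circleAverage (fun τ => D * ψ w c τ - s) 0 1 = d' + 2 * δ - s := by
    intro s
    rw [Real.circleAverage_fun_sub (f₁ := fun τ => D * ψ w c τ)
      (ci (continuous_const.mul (ψ_cont _ _))) (circleIntegrable_const _ _ _),
      Real.circleAverage_const, av_mul, hc]
  have q1 : (q.eval 0).re ≤ d' + 2 * δ := by
    rw [hq0, ← sub_zero (d' + 2 * δ), ← avk]
    exact Real.circleAverage_mono (ci qc) (ci ((continuous_const.mul (ψ_cont _ _)).sub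
      continuous_const)) fun τ hτ => by linarith [(abs_lt.1 (hq τ (by simpa using hτ))).2]
  have q2 : d' ≤ (q.eval 0).re := by
    rw [hq0, ← add_sub_cancel_right d' (2 * δ), ← avk]
    exact Real.circleAverage_mono (ci ((continuous_const.mul (ψ_cont _ _)).sub
      continuous_const)) (ci qc) fun τ hτ => by linarith [(abs_lt.1 (hq τ (by simpa using hτ))).1]
  have hd2 : Differentiable ℂ fun τ => Complex.exp (-p.eval τ) := p.differentiable.neg.cexp
  refine ⟨fun τ => τ * Complex.exp (-p.eval τ), fun τ => q.eval τ + (d' - (q.eval 0).re : ℝ),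
    differentiable_id.mul hd2, q.differentiable.add_const _, fun τ hτ => ?_, by simp,
    fun τ hτ => ?_⟩
  · have := Complex.norm_le_of_forall_mem_frontier_norm_le isBounded_ball hd2.diffContOnCl (C := 1)
      (fun z hz => by
        rw [frontier_ball _ one_ne_zero] at hz
        rw [Complex.norm_exp, Real.exp_le_one_iff, Complex.neg_re, neg_nonpos]
        have h3 := mul_nonneg (inv_pos.2 k2).le (R_mem w (Real.arccos z.re - (c - w))).1
        have := (abs_lt.1 (hp z hz)).1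
        simp only [ψ] at this
        linarith) (z := τ) (by rwa [closure_ball _ one_ne_zero])
    rw [norm_mul]
    exact mul_le_of_le_one_right (norm_nonneg _) this
  · have h1 := abs_lt.1 (hq τ hτ)
    have h2 := abs_lt.1 (hp τ hτ)
    have h3 := mul_nonneg de (R_mem w (Real.arccos τ.re - c)).1
    simp only [Complex.add_re, Complex.ofReal_re, ψ, norm_mul, Complex.norm_exp, Complex.neg_re,
      mem_sphere_zero_iff_norm.1 hτ, one_mul] at h1 h2 ⊢
    refine ⟨by linarith, by linarith, fun h => ?_, fun h => ?_⟩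
    · rw [R_one w0 (by linarith)] at h2
      rw [Real.exp_neg, inv_lt_comm₀ (Real.exp_pos _) k2]
      linarith [Real.add_one_le_exp (p.eval τ).re]
    · rw [R_zero w0 (by linarith)] at h2
      linarith [Real.add_one_le_exp (-(p.eval τ).re)]

/-- the mean over the circle of radius `p.2` -/
def N (J : ℝ → ℂ → ℝ) (p : ℝ × ℝ) : ℝ := circleAverage (fun u => J p.1 (u * p.2)) 0 1

variable {J : ℝ → ℂ → ℝ}

theorem N_cont (hJ : Continuous (Function.uncurry J)) : Continuous (N J) := av_cont (hJ.comp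
  (f := fun p : (ℝ × ℝ) × ℂ => (p.1.1, p.2 * p.1.2)) (by fun_prop))

theorem N_le (hJ : Continuous (Function.uncurry J)) {c r b : ℝ} (hr : 0 ≤ r)
    (h : ∀ w : ℂ, ‖w‖ = r → J c w ≤ b) : N J (c, r) ≤ b :=
  Real.circleAverage_mono_on_of_le_circle
    (ci (hJ.comp (f := fun u : ℂ => (c, u * r)) (by fun_prop))) fun u hu => h _ (by
      rw [norm_mul, mem_sphere_zero_iff_norm.1 hu, Complex.norm_real, Real.norm_of_nonneg hr]; simp)

theorem fub (hJ : Continuous (Function.uncurry J)) {O : ℂ → ℂ} {h m : ℂ → ℝ} (hO : Continuous O)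
    (hh : Continuous h) (hm : Continuous m)
    (key : ∀ τ ∈ sphere (0 : ℂ) 1, N J (h τ, ‖O τ‖) ≤ m τ) : ∃ u : ℂ, ‖u‖ = 1 ∧
      circleAverage (fun τ => J (h τ) (u * O τ)) 0 1 ≤ circleAverage m 0 1 := by
  have Fc : Continuous (Function.uncurry fun u τ : ℂ => J (h τ) (u * O τ)) :=
    hJ.comp (f := fun x : ℂ × ℂ => (h x.2, x.1 * O x.2)) (by fun_prop)
  obtain ⟨u, hu1, hmin⟩ := (isCompact_sphere (0 : ℂ) 1).exists_isMinOn
    (NormedSpace.sphere_nonempty.2 zero_le_one) (av_cont Fc).continuousOn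
  have s1 := Real.circleAverage_mono (circleIntegrable_const _ 0 1) (ci (av_cont Fc))
    fun v hv => hmin (by simpa using hv)
  rw [Real.circleAverage_const, av_swap Fc, show (fun τ => circleAverage
    (fun u => J (h τ) (u * O τ)) 0 1) = fun τ => N J (h τ, ‖O τ‖) from
      funext fun τ => av_rot (J _) _] at s1
  exact ⟨u, mem_sphere_zero_iff_norm.1 hu1, s1.trans (Real.circleAverage_mono
    (ci ((N_cont hJ).comp (f := fun τ => (h τ, ‖O τ‖)) (by fun_prop))) (ci hm)
      fun τ hτ => key τ (by simpa using hτ))⟩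

theorem av_maj {w c g Δ B : ℝ} (w0 : 0 < w) (hΔ : 0 ≤ Δ) (B0 : 0 ≤ B) : circleAverage (fun τ =>
    g + Δ * ψ w (c - w) τ + B * (ψ w (c - w - w) τ - ψ w c τ)) 0 1 ≤
      g + Δ * circleAverage (ψ w c) 0 1 + (Δ + 2 * B) * w := by
  have c1 := fun c => ψ_cont w c
  rw [Real.circleAverage_fun_add (ci (by fun_prop)) (ci (by fun_prop)),
    Real.circleAverage_fun_add (ci (by fun_prop)) (ci (by fun_prop)), Real.circleAverage_const,
    av_mul, av_mul, Real.circleAverage_fun_sub (ci (c1 _)) (ci (c1 _))]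
  have t3 := mul_le_mul_of_nonneg_left (ψ_lip w (by linarith : c - w ≤ c)) hΔ
  have t4 := mul_le_mul_of_nonneg_left
    (sub_le_iff_le_add'.2 (ψ_lip w (by linarith : c - w - w ≤ c))) B0
  linarith

theorem core (trig : TRIG) (hJ : Continuous (Function.uncurry J)) {a : ℂ → ℝ}
    (ha : Continuous a) {d d' g Δ ε : ℝ} (hd' : 0 < d') (hdd : d' < d) (hΔ : 0 ≤ Δ) (hε : 0 < ε)
    (hle : ∀ w ∈ closedBall (0 : ℂ) 1, a w ≤ a 0 + d) (h1 : circleAverage (J 0) 0 1 ≤ g)
    (h2 : ∀ c ≤ d, J c 0 ≤ g + Δ) :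
    ∃ I h : ℂ → ℂ, Differentiable ℂ I ∧ Differentiable ℂ h ∧
      (∀ τ ∈ closedBall (0 : ℂ) 1, ‖I τ‖ ≤ ‖τ‖) ∧ (h 0).re = d' ∧
      (∀ τ ∈ sphere (0 : ℂ) 1, a (I τ) + (h τ).re ≤ a 0 + d) ∧
      circleAverage (fun τ => J (h τ).re (I τ)) 0 1 ≤ g + d' / d * Δ + 3 * ε := by
  have hd : 0 < d := hd'.trans hdd
  obtain ⟨e, ⟨e1, e2, e3⟩, e0⟩ : ∃ e : ℝ, (e < d ∧ (d' + 2 * e) / (d - e) < 1 ∧
      (d' + 2 * e) / (d - e) * Δ < d' / d * Δ + ε) ∧ 0 < e := by
    have hc : ContinuousAt (fun e : ℝ => (d' + 2 * e) / (d - e)) 0 :=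
      ContinuousAt.div (by fun_prop) (by fun_prop) (by simpa using hd.ne')
    refine ((((eventually_lt_nhds hd).and ((hc.eventually_lt continuousAt_const ?_).and
      ((hc.mul continuousAt_const).eventually_lt continuousAt_const ?_))).filter_mono
        (nhdsWithin_le_nhds (s := Ioi 0))).and self_mem_nhdsWithin).exists
    · simpa using (div_lt_one hd).2 hdd
    · simpa using hε
  obtain ⟨κ₁, k1, hκ₁⟩ := Metric.eventually_nhds_iff.1 ((N_cont hJ).continuousAt.eventually_lt
    (x₀ := (0, 1)) (continuousAt_const (y := g + ε)) (by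
      simp only [N, Complex.ofReal_one, mul_one]; exact h1.trans_lt (by linarith)))
  obtain ⟨κ₂, k2, hκ₂⟩ := Metric.eventually_nhds_iff.1 (((isCompact_Icc (a := -1) (b := d)
    ).eventually_forall_of_forall_eventually (x₀ := (0 : ℂ)) (P := fun w c => J c w < g + Δ + ε)
      fun c hc => (hJ.comp continuous_swap).continuousAt.eventually_lt continuousAt_const
        (by have := h2 c hc.2; show J c 0 < _; linarith)).and
    (ha.continuousAt.eventually_lt (continuousAt_const (y := a 0 + e)) (by linarith)))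
  obtain ⟨B₀, hB⟩ := ((isCompact_Icc (a := (-1 : ℝ)) (b := 0)).prod
    (isCompact_closedBall (0 : ℂ) 1)).exists_bound_of_continuousOn hJ.continuousOn
  obtain ⟨B, B0, B1⟩ : ∃ B, 0 ≤ B ∧ B₀ ≤ g + B :=
    ⟨|B₀| + |g|, by positivity, by linarith [le_abs_self B₀, neg_abs_le g]⟩
  obtain ⟨w, w0, w1⟩ : ∃ w, 0 < w ∧ (Δ + 2 * B + 1) * w = ε :=
    ⟨ε / (Δ + 2 * B + 1), by positivity, by field_simp⟩
  obtain ⟨δ, δ0, δ1, δ2, δ3⟩ : ∃ δ, 0 < δ ∧ δ ≤ e ∧ δ ≤ κ₁ / 5 ∧ δ ≤ 1 / 4 :=
    ⟨min e (min (κ₁ / 5) (1 / 4)), by positivity, min_le_left _ _,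
      (min_le_right _ _).trans (min_le_left _ _), (min_le_right _ _).trans (min_le_right _ _)⟩
  have de : 0 < d - e := by linarith
  have l1 : (d' + 2 * δ) / (d - e) ≤ (d' + 2 * e) / (d - e) := by gcongr
  obtain ⟨c', hc'⟩ := ψ_ivt w0 (by positivity) (l1.trans e2.le)
  obtain ⟨O, h, hd3, hd1, hO1, h0, H⟩ := polys trig (c := c') (d' := d') w0 δ0 k2 de.le
    (by rw [hc']; field_simp)
  have o1 : ∀ τ ∈ sphere (0 : ℂ) 1, ‖O τ‖ ≤ 1 := fun τ hτ =>
    (hO1 τ (sphere_subset_closedBall hτ)).trans_eq (mem_sphere_zero_iff_norm.1 hτ)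
  have r3 : ∀ τ ∈ sphere (0 : ℂ) 1, (h τ).re ≤ d - e := fun τ hτ => (H τ hτ).2.1.trans
    (mul_le_of_le_one_right de.le (R_mem _ _).2)
  have r4 : ∀ τ ∈ sphere (0 : ℂ) 1, Real.arccos τ.re ≤ c' → (h τ).re ≤ 0 := fun τ hτ h3 => by
    have := (H τ hτ).2.1
    rwa [ψ, R_zero w0 (by linarith), mul_zero] at this
  have c1 := fun c => ψ_cont w c
  obtain ⟨u, hu, hf⟩ := fub hJ hd3.continuous (Complex.continuous_re.comp hd1.continuous)
    (m := fun τ => g + ε + Δ * ψ w (c' - w) τ + B * (ψ w (c' - w - w) τ - ψ w c' τ))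
    (by fun_prop) fun τ hτ => by
    obtain ⟨r1, -, on, off⟩ := H τ hτ
    have m := mul_nonneg B0 (sub_nonneg.2 (R_mem w (Real.arccos τ.re - c')).2)
    have m1 := mul_nonneg hΔ (R_mem w (Real.arccos τ.re - (c' - w))).1
    have m2 := mul_nonneg B0 (R_mem w (Real.arccos τ.re - (c' - w - w))).1
    simp only [ψ, Function.comp_apply]
    rcases le_total c' (Real.arccos τ.re) with h3 | h3
    · rw [R_one w0 (x := _ - (c' - w)) (by linarith), R_one w0 (x := _ - (c' - w - w)) (by linarith)]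
      exact (N_le hJ (norm_nonneg _) (b := g + Δ + ε) fun v hv =>
        ((hκ₂ (by rw [dist_zero_right, hv]; exact on h3)).1 _
          ⟨by linarith, by linarith [r3 τ hτ]⟩).le).trans (by linarith)
    rw [R_zero w0 (x := _ - c') (by linarith)]
    rcases le_total (c' - w) (Real.arccos τ.re) with h4 | h4
    · rw [R_one w0 (x := _ - (c' - w - w)) (by linarith)]
      exact (N_le hJ (norm_nonneg _) (b := B₀) fun v hv =>
        (le_abs_self _).trans (hB ((h τ).re, v) ⟨⟨by show -1 ≤ (h τ).re; linarith, r4 τ hτ h3⟩,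
          mem_closedBall_zero_iff.2 (hv.trans_le (o1 τ hτ))⟩)).trans (by linarith)
    · refine (hκ₁ (y := ((h τ).re, ‖O τ‖)) ?_).le.trans (by linarith)
      have := r4 τ hτ h3
      have := o1 τ hτ
      have := off h4
      rw [Prod.dist_eq, max_lt_iff, Real.dist_eq, Real.dist_eq, abs_lt, abs_lt]
      refine ⟨⟨?_, ?_⟩, ?_, ?_⟩ <;> simp only <;> linarith
  have un : ∀ τ, ‖u * O τ‖ = ‖O τ‖ := fun τ => by rw [norm_mul, hu, one_mul]
  refine ⟨fun τ => u * O τ, h, hd3.const_mul u, hd1, fun τ hτ => (un τ).trans_le (hO1 τ hτ),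
    h0, fun τ hτ => ?_, hf.trans ((av_maj w0 hΔ B0).trans ?_)⟩
  · rcases le_total c' (Real.arccos τ.re) with h3 | h3
    · have h4 := (hκ₂ (y := u * O τ) (by rw [dist_zero_right, un]; exact (H τ hτ).2.2.1 h3)).2
      linarith [r3 τ hτ]
    · linarith [r4 τ hτ h3, hle (u * O τ) (mem_closedBall_zero_iff.2 ((un τ).trans_le (o1 τ hτ)))]
  · have t5 := mul_le_mul_of_nonneg_right l1 hΔ
    rw [hc']
    linarith

end Vale.Agent.P253W.V.Lip
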