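import Vale.Agent.P253W.V.Defs
import Vale.Agent.P253W.FG.Calc
import Vale.Agent.P253Z.B2

/-!
# P253W, block V, row LV: the chain rule along a complex line in space-time
-/

open scoped ContDiff Topology ComplexConjugate ComplexOrder Matrix
open Set Metric Filter
open Vale.Agent.P272.K (Cm dz dzb cHess)
open Vale.Agent.P272.K.C2
open Vale.Agent.P253W.FG.Calc (DT hasDT DT_sm DT_dd at_of)
open Complex (I)

noncomputable section

namespace Vale.Agent.P253W.V

namespace Lv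

variable {n : ℕ}

/-- the curve `τ ↦ (exp (2 Re (ζ + c τ)), z + τ X)` -/
def gam (ζ c : ℂ) (z X : Cm n) (τ : Cm 1) : ℝ × Cm n :=
  (Real.exp (2 * (ζ + c * τ 0).re), z + τ 0 • X)

theorem gam_sm (ζ c : ℂ) (z X : Cm n) : ContDiff ℝ ∞ (gam ζ c z X) := by
  have h0 : ContDiff ℝ ∞ fun τ : Cm 1 => τ 0 := contDiff_apply ℝ ℂ 0
  refine ContDiff.prodMk (Real.contDiff_exp.comp (contDiff_const.mul
    (Complex.reCLM.contDiff.comp (contDiff_const.add (contDiff_const.mul h0))))) ?_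
  exact contDiff_const.add (h0.smul contDiff_const)

theorem gam_fderiv (ζ c : ℂ) (z X : Cm n) (τ v : Cm 1) :
    fderiv ℝ (gam ζ c z X) τ v = ((gam ζ c z X τ).1 * (2 * (c * v 0).re), v 0 • X) := by
  have h0 : HasFDerivAt (fun τ : Cm 1 => τ 0)
      (ContinuousLinearMap.proj (R := ℝ) (φ := fun _ : Fin 1 => ℂ) 0) τ := hasFDerivAt_apply 0 τ
  have h1 := ((Complex.reCLM.hasFDerivAt.comp τ ((h0.const_mul c).const_add ζ)).const_mul 2).exp
  have h2 := (h0.smul_const X).const_add z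
  have h3 : HasFDerivAt (gam ζ c z X) _ τ := h1.prodMk h2
  rw [h3.fderiv]
  simp [gam]

theorem cplxb (l : Cm n →L[ℝ] ℂ) (u : Cm n) :
    ∑ i, conj (u i) * (l (Pi.single i 1) + I * l (Pi.single i I)) = l u + I * l (I • u) := by
  have h := congrArg conj (Vale.Agent.P253Z.B2A.cplx
    ((Complex.conjCLE : ℂ →L[ℝ] ℂ).comp l) u)
  simpa [map_sum] using h

/-- the chain rule -/
theorem chain {ζ c : ℂ} {z X : Cm n} {w : ℝ × Cm n → ℂ} {τ : Cm 1}
    (hw : DifferentiableAt ℝ w (gam ζ c z X τ)) :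
    dz 0 (fun σ => w (gam ζ c z X σ)) τ = c * (gam ζ c z X τ).1 * DT w (gam ζ c z X τ) +
      ∑ k, X k * dz k (fun y => w ((gam ζ c z X τ).1, y)) (gam ζ c z X τ).2 ∧
    dzb 0 (fun σ => w (gam ζ c z X σ)) τ = conj c * (gam ζ c z X τ).1 * DT w (gam ζ c z X τ) +
      ∑ k, conj (X k) * dzb k (fun y => w ((gam ζ c z X τ).1, y)) (gam ζ c z X τ).2 := by
  set p := gam ζ c z X τ with hp
  have hg : DifferentiableAt ℝ (gam ζ c z X) τ := (gam_sm ζ c z X).differentiable (by simp) τ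
  have h1 : HasFDerivAt (fun y => w (p.1, y))
      ((fderiv ℝ w p).comp (ContinuousLinearMap.inr ℝ ℝ (Cm n))) p.2 :=
    hw.hasFDerivAt.comp p.2 (hasFDerivAt_prodMk_right p.1 p.2)
  set l := (fderiv ℝ w p).comp (ContinuousLinearMap.inr ℝ ℝ (Cm n)) with hl
  have h2 : ∀ v : Cm 1, fderiv ℝ (fun σ => w (gam ζ c z X σ)) τ v =
      (p.1 * (2 * (c * v 0).re) : ℝ) * DT w p + l (v 0 • X) := fun v => by
    have h3 : fderiv ℝ (fun σ => w (gam ζ c z X σ)) τ = _ := fderiv_comp τ hw hg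
    rw [h3, ContinuousLinearMap.comp_apply, gam_fderiv, ← hp]
    have : ((p.1 * (2 * (c * v 0).re), v 0 • X) : ℝ × Cm n) =
        (p.1 * (2 * (c * v 0).re)) • ((1 : ℝ), (0 : Cm n)) + (0, v 0 • X) := by simp
    rw [this, map_add, map_smul, Complex.real_smul]
    rfl
  have e1 := Vale.Agent.P253Z.B2A.cplx l X
  have e2 := cplxb l X
  have e3 : (c.re : ℂ) + c.im * I = c := Complex.re_add_im c
  have e4 : (c.re : ℂ) - c.im * I = conj c := by
    apply Complex.ext <;> simp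
  constructor
  · simp only [dz, h2, h1.fderiv, ← mul_div_assoc, ← Finset.sum_div, e1, Pi.single_eq_same,
      one_smul, mul_one, Complex.mul_re, Complex.I_re, Complex.I_im, mul_zero, zero_sub]
    push_cast
    linear_combination (p.1 * DT w p) * e3
  · simp only [dzb, h2, h1.fderiv, ← mul_div_assoc, ← Finset.sum_div, e2, Pi.single_eq_same,
      one_smul, mul_one, Complex.mul_re, Complex.I_re, Complex.I_im, mul_zero, zero_sub]
    push_cast
    linear_combination (p.1 * DT w p) * e4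

variable {U : Set (Cm n)}

/-- the second derivative -/
theorem chain2 {c : ℂ} {t : ℝ} {z X : Cm n} {w : ℝ × Cm n → ℂ} (hU : IsOpen U)
    (hw : ContDiffOn ℝ ∞ w (Ioi 0 ×ˢ U)) (ht : 0 < t) (hz : z ∈ U) {ζ : ℂ}
    (h0 : gam ζ c z X 0 = (t, z)) :
    dz 0 (dzb 0 fun σ => w (gam ζ c z X σ)) 0 =
      c * conj c * (t * DT w (t, z) + t ^ 2 * DT (DT w) (t, z)) +
      c * t * ∑ l, conj (X l) * dzb l (fun y => DT w (t, y)) z +
      conj c * t * ∑ k, X k * dz k (fun y => DT w (t, y)) z +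
      ∑ l, ∑ k, X k * conj (X l) * dz k (dzb l fun y => w (t, y)) z := by
  have hO : IsOpen (Ioi (0 : ℝ) ×ˢ U) := isOpen_Ioi.prod hU
  have hp : (t, z) ∈ Ioi (0 : ℝ) ×ˢ U := ⟨ht, hz⟩
  have hD := DT_sm isOpen_Ioi hU hw
  have hb := fun l => (FG.Calc.d isOpen_Ioi.uniqueDiffOn hU hw l).2
  set w₁ : ℝ × Cm n → ℂ := fun q => conj c * q.1 * DT w q +
    ∑ l, conj (X l) * dzb l (fun y => w (q.1, y)) q.2 with hw₁
  have hs : ContDiffOn ℝ ∞ w₁ (Ioi 0 ×ˢ U) :=
    ((contDiffOn_const.mul (Complex.ofRealCLM.contDiff.comp contDiff_fst).contDiffOn).mul hD).add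
      (ContDiffOn.sum fun l _ => contDiffOn_const.mul (hb l))
  have e1 : (dzb 0 fun σ => w (gam ζ c z X σ)) =ᶠ[𝓝 0] fun σ => w₁ (gam ζ c z X σ) := by
    filter_upwards [(gam_sm ζ c z X).continuous.continuousAt.preimage_mem_nhds
      (hO.mem_nhds (h0 ▸ hp))] with τ hτ
    exact (chain ((at_of isOpen_Ioi hU hw hτ).differentiableAt (by simp))).2
  have df : ∀ {f : ℝ × Cm n → ℂ}, ContDiffOn ℝ ∞ f (Ioi 0 ×ˢ U) → DifferentiableAt ℝ f (t, z) :=
    fun h => (at_of isOpen_Ioi hU h hp).differentiableAt (by simp)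
  have ds : ∀ {f : ℝ × Cm n → ℂ}, ContDiffOn ℝ ∞ f (Ioi 0 ×ˢ U) →
      DifferentiableAt ℝ (fun y => f (t, y)) z :=
    fun h => (FG.Calc.slice hU h ht hz).differentiableAt (by simp)
  have e2 : DT w₁ (t, z) = conj c * (DT w (t, z) + t * DT (DT w) (t, z)) +
      ∑ l, conj (X l) * dzb l (fun y => DT w (t, y)) z := by
    refine (hasDT (df hs)).unique ?_
    have a1 : HasDerivAt (fun s : ℝ => (s : ℂ)) 1 t := Complex.ofRealCLM.hasDerivAt
    have a2 := ((a1.const_mul (conj c)).mul (hasDT (df hD))).add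
      (HasDerivAt.fun_sum (u := Finset.univ) fun l _ => (hasDT (df (hb l))).const_mul (conj (X l)))
    refine HasDerivAt.congr_deriv a2 ?_
    congr 1
    · ring
    · refine Finset.sum_congr rfl fun l _ => ?_
      simp only [dzb_eq_DD]
      rw [DT_dd isOpen_Ioi hU hw hp]
  have e3 : ∀ k, dz k (fun y => w₁ (t, y)) z = conj c * t * dz k (fun y => DT w (t, y)) z +
      ∑ l, conj (X l) * dz k (dzb l fun y => w (t, y)) z := fun k => by
    simp only [hw₁]
    rw [dz_add k ((ds hD).const_mul _) (DifferentiableAt.fun_sum fun l _ => (ds (hb l)).const_mul _),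
      dz_const_mul k _ (ds hD), dz_sum k _ fun l _ => (ds (hb l)).const_mul _]
    congr 1
    exact Finset.sum_congr rfl fun l _ => dz_const_mul k _ (ds (hb l))
  rw [dz_congr 0 e1, (chain (h0 ▸ df hs)).1, h0]
  simp only [e2, e3, mul_add, Finset.sum_add_distrib, Finset.mul_sum]
  rw [Finset.sum_comm (f := fun l k => X k * conj (X l) * dz k (dzb l fun y => w (t, y)) z)]
  simp only [add_assoc]
  congr 1
  · ring
  congr 1
  · ring
  congr 1
  congr 1
  · exact Finset.sum_congr rfl fun k _ => by ring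
  · exact Finset.sum_congr rfl fun k _ => Finset.sum_congr rfl fun l _ => by ring

end Lv

end Vale.Agent.P253W.V
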