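import Vale.Agent.P253W.V.Defs
import Vale.Agent.P272.K.N.Det
import Mathlib.Analysis.Calculus.ContDiff.Convolution
import Mathlib.Analysis.Calculus.BumpFunction.Normed

/-!
# P253W, block V: calculus on space-time and mollification (first part of the row MOL)
-/

set_option maxSynthPendingDepth 3

open scoped ContDiff NNReal Topology ComplexOrder Matrix Convolution
open MeasureTheory Set Metric Filter ContinuousLinearMap
open Vale.Agent.P272.K (Cm cHess)
open Vale.Agent.P272.K.N (lev cHess_eq_lev lev_add lev_smul posDef_of_near)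

noncomputable section

namespace Vale.Agent.P253W.V.Mol

variable {n : ℕ}

/-! ### the derivatives of slices -/

theorem hasDerivAt_slice {φ : P n → ℝ} {q : P n} (h : DifferentiableAt ℝ φ q) :
    HasDerivAt (fun s => φ (s, q.2)) (fderiv ℝ φ q (1, 0)) q.1 :=
  h.hasFDerivAt.comp_hasDerivAt q.1 ((hasDerivAt_id q.1).prodMk (hasDerivAt_const q.1 q.2))

theorem dT_eq {φ : P n → ℝ} {q : P n} (h : DifferentiableAt ℝ φ q) :
    dT φ q = fderiv ℝ φ q (1, 0) := (hasDerivAt_slice h).deriv

/-- the restriction of a bilinear form to space -/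
def rs (b : P n →L[ℝ] P n →L[ℝ] ℝ) : Cm n →L[ℝ] Cm n →L[ℝ] ℝ :=
  b.bilinearComp (inr ℝ ℝ (Cm n)) (inr ℝ ℝ (Cm n))

theorem fderiv_slice {F : Type} [NormedAddCommGroup F] [NormedSpace ℝ F] {φ : P n → F}
    (h : Differentiable ℝ φ) (t : ℝ) (z : Cm n) :
    HasFDerivAt (fun w => φ (t, w)) ((fderiv ℝ φ (t, z)).comp (inr ℝ ℝ (Cm n))) z :=
  (h (t, z)).hasFDerivAt.comp z (hasFDerivAt_prodMk_right t z)

theorem diff_one {F : Type} [NormedAddCommGroup F] [NormedSpace ℝ F] {φ : P n → F}
    (h : ContDiff ℝ ∞ φ) : Differentiable ℝ φ := h.differentiable (by simp)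

theorem sm_fderiv {F : Type} [NormedAddCommGroup F] [NormedSpace ℝ F] {φ : P n → F}
    (h : ContDiff ℝ ∞ φ) : ContDiff ℝ ∞ (fderiv ℝ φ) := h.fderiv_right (m := ∞) (by simp)

theorem cH_eq {φ : P n → ℝ} (h : ContDiff ℝ ∞ φ) (q : P n) :
    cH φ q = lev (rs (fderiv ℝ (fderiv ℝ φ) q)) := by
  have h1 : fderiv ℝ (fun w => φ (q.1, w)) = fun w => (fderiv ℝ φ (q.1, w)).comp (inr ℝ ℝ (Cm n)) :=
    funext fun w => (fderiv_slice (diff_one h) q.1 w).fderiv
  have h2 := (((compL ℝ (Cm n) (P n) ℝ).flip (inr ℝ ℝ (Cm n))).hasFDerivAt).comp q.2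
    (fderiv_slice (diff_one (sm_fderiv h)) q.1 q.2)
  have h3 : HasFDerivAt (fderiv ℝ fun w => φ (q.1, w)) (rs (fderiv ℝ (fderiv ℝ φ) q)) q.2 := by
    rw [h1]
    exact h2
  rw [cH, cHess_eq_lev h3.differentiableAt, h3.fderiv]

theorem rs_add (b c : P n →L[ℝ] P n →L[ℝ] ℝ) : rs (b + c) = rs b + rs c := rfl

theorem rs_smul (r : ℝ) (b : P n →L[ℝ] P n →L[ℝ] ℝ) : rs (r • b) = r • rs b := rfl

/-- `b ↦ Re tr (A lev b)` -/
def trL (A : Mx n) : (P n →L[ℝ] P n →L[ℝ] ℝ) →L[ℝ] ℝ :=
  LinearMap.toContinuousLinearMap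
    { toFun := fun b => (A * lev (rs b)).trace.re
      map_add' := fun b c => by rw [rs_add, lev_add, mul_add, Matrix.trace_add, Complex.add_re]
      map_smul' := fun r b => by
        rw [rs_smul, lev_smul, Matrix.mul_smul, Matrix.trace_smul, smul_eq_mul,
          Complex.re_ofReal_mul, RingHom.id_apply, smul_eq_mul] }

theorem tr_cH (A : Mx n) {φ : P n → ℝ} (h : ContDiff ℝ ∞ φ) (q : P n) :
    (A * cH φ q).trace.re = trL A (fderiv ℝ (fderiv ℝ φ) q) := by
  rw [cH_eq h]
  rfl

theorem continuous_dT {φ : P n → ℝ} (h : ContDiff ℝ ∞ φ) : Continuous (dT φ) := by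
  rw [show dT φ = fun q => fderiv ℝ φ q (1, 0) from funext fun q => dT_eq (diff_one h q)]
  exact (sm_fderiv h).continuous.clm_apply continuous_const

theorem continuous_cH {φ : P n → ℝ} (h : ContDiff ℝ ∞ φ) : Continuous (cH φ) := by
  rw [show cH φ = fun q => lev (rs (fderiv ℝ (fderiv ℝ φ) q)) from funext (cH_eq h)]
  have h1 := (sm_fderiv (sm_fderiv h)).continuous
  have h2 : ∀ v w : Cm n, Continuous fun q => rs (fderiv ℝ (fderiv ℝ φ) q) v w := fun v w =>
    (h1.clm_apply continuous_const).clm_apply continuous_const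
  refine continuous_matrix fun j k => ?_
  simp only [P272.K.N.lev_apply]
  exact ((Complex.continuous_ofReal.comp ((h2 _ _).add (h2 _ _))).add (continuous_const.mul
    (Complex.continuous_ofReal.comp ((h2 _ _).sub (h2 _ _))))).div_const _

theorem dT_zero {φ : P n → ℝ} (h : ContDiff ℝ ∞ φ) {q : P n} (hq : q ∉ tsupport φ) :
    dT φ q = 0 := by
  rw [dT_eq (diff_one h q), fderiv_of_notMem_tsupport ℝ hq, zero_apply]

theorem trg_zero (g : Mx n) {φ : P n → ℝ} (h : ContDiff ℝ ∞ φ) {q : P n} (hq : q ∉ tsupport φ) :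
    trg g (cH φ q) = 0 := by
  rw [trg, tr_cH _ h, fderiv_of_notMem_tsupport ℝ fun h1 => hq (tsupport_fderiv_subset ℝ h1),
    map_zero]

theorem contOn_inv {U : Set (P n)} {g : P n → Mx n} (hg : ContinuousOn g U)
    (hp : ∀ q ∈ U, (g q).PosDef) : ContinuousOn (fun q => (g q)⁻¹) U := fun q hq => by
  refine ContinuousAt.comp_continuousWithinAt (f := g) (continuousAt_matrix_inv _ ?_) (hg q hq)
  rw [Ring.inverse_eq_inv']
  exact continuousAt_inv₀ (hp q hq).det_pos.ne'

theorem contOn_trg {U : Set (P n)} {g : P n → Mx n} (hg : ContinuousOn g U)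
    (hp : ∀ q ∈ U, (g q).PosDef) {φ : P n → ℝ} (h : ContDiff ℝ ∞ φ) :
    ContinuousOn (fun q => trg (g q) (cH φ q)) U := by
  rw [continuousOn_iff_continuous_domRestrict]
  have h1 : Continuous fun q : U => (g q)⁻¹ :=
    continuousOn_iff_continuous_domRestrict.1 (contOn_inv hg hp)
  have h2 : Continuous fun q : U => cH φ q := (continuous_cH h).comp continuous_subtype_val
  exact Complex.continuous_re.comp (h1.matrix_mul h2).matrix_trace

theorem contOn_det {U : Set (P n)} {g : P n → Mx n} (hg : ContinuousOn g U) :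
    ContinuousOn (fun q => (g q).det.re) U :=
  (Complex.continuous_re.comp continuous_id.matrix_det).comp_continuousOn hg

/-! ### convolution -/

instance haarP : (volume : Measure (P n)).IsAddHaarMeasure :=
  Measure.prod.instIsAddHaarMeasure _ _

/-- the convolution with a scalar function -/
def cv {F : Type} [NormedAddCommGroup F] [NormedSpace ℝ F] (l : P n → ℝ) (ρ : P n → F) :
    P n → F := l ⋆[lsmul ℝ ℝ, volume] ρ

theorem fderiv_cv {F : Type} [NormedAddCommGroup F] [NormedSpace ℝ F] [CompleteSpace F]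
    {l : P n → ℝ} (hl : Continuous l) {ρ : P n → F} (hc : HasCompactSupport ρ)
    (hρ : ContDiff ℝ ∞ ρ) : fderiv ℝ (cv l ρ) = cv l (fderiv ℝ ρ) :=
  funext fun q => (hc.hasFDerivAt_convolution_right (lsmul ℝ ℝ) hl.locallyIntegrable
    (hρ.of_le (by simp)) q).fderiv

theorem clm_cv {F : Type} [NormedAddCommGroup F] [NormedSpace ℝ F] [CompleteSpace F]
    {l : P n → ℝ} (hl : Continuous l) {ρ : P n → F} (hc : HasCompactSupport ρ)
    (hρ : Continuous ρ) (L : F →L[ℝ] ℝ) (q : P n) :
    Integrable (fun y => l y * L (ρ (q - y))) ∧ L (cv l ρ q) = ∫ y, l y * L (ρ (q - y)) := by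
  have h1 : Integrable fun y => l y • ρ (q - y) :=
    hc.convolutionExists_right (lsmul ℝ ℝ) hl.locallyIntegrable hρ q
  have h2 : (fun y => l y * L (ρ (q - y))) = fun y => L (l y • ρ (q - y)) :=
    funext fun y => by rw [map_smul, smul_eq_mul]
  rw [h2]
  exact ⟨L.integrable_comp h1, (L.integral_comp_comm h1).symm⟩

theorem fderiv_refl {F : Type} [NormedAddCommGroup F] [NormedSpace ℝ F] {ρ : P n → F}
    (hρ : Differentiable ℝ ρ) (q : P n) :
    fderiv ℝ (fun y => ρ (q - y)) = fun y => -fderiv ℝ ρ (q - y) := funext fun y => by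
  have h := (hρ (q - y)).hasFDerivAt.comp y ((hasFDerivAt_id y).const_sub q)
  refine h.fderiv.trans ?_
  ext v <;> simp

/-- the inequality of `VD2` for a translated kernel is an inequality for the convolution -/
theorem cv_ineq {l ρ : P n → ℝ} (hl : Continuous l) (hc : HasCompactSupport ρ)
    (hρ : ContDiff ℝ ∞ ρ) (A : Mx n) (q : P n) :
    ∫ y, l y * (dT (fun y => ρ (q - y)) y + (A * cH (fun y => ρ (q - y)) y).trace.re) =
      (A * cH (cv l ρ) q).trace.re - dT (cv l ρ) q := by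
  have hs : ContDiff ℝ ∞ (cv l ρ) :=
    hc.contDiff_convolution_right (lsmul ℝ ℝ) hl.locallyIntegrable hρ
  have hψ : ContDiff ℝ ∞ fun y => ρ (q - y) := hρ.comp (contDiff_const.sub contDiff_id)
  have h1 := clm_cv hl (hc.fderiv ℝ) (sm_fderiv hρ).continuous (apply ℝ ℝ ((1, 0) : P n)) q
  have h2 := clm_cv hl ((hc.fderiv ℝ).fderiv ℝ) (sm_fderiv (sm_fderiv hρ)).continuous (trL A) q
  have h3 : fderiv ℝ (fderiv ℝ fun y => ρ (q - y)) = fun y => fderiv ℝ (fderiv ℝ ρ) (q - y) := by
    rw [fderiv_refl (diff_one hρ)]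
    funext y
    rw [fderiv_fun_neg, fderiv_refl (diff_one (sm_fderiv hρ)), neg_neg]
  rw [tr_cH A hs, dT_eq (diff_one hs q), fderiv_cv hl hc hρ,
    fderiv_cv hl (hc.fderiv ℝ) (sm_fderiv hρ), h2.2, ← apply_apply (𝕜 := ℝ), h1.2,
    ← integral_sub h2.1 h1.1]
  refine integral_congr_ae (Eventually.of_forall fun y => ?_)
  simp only
  rw [tr_cH A hψ, dT_eq (diff_one hψ y), h3, fderiv_refl (diff_one hρ)]
  simp only [neg_apply, apply_apply]
  ring

theorem avg_le (ρ : ContDiffBump (0 : P n)) {u : P n → ℝ} (hu : Continuous u) {b : ℝ}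
    (h : ∀ y ∈ ball (0 : P n) ρ.rOut, u y ≤ b) : ∫ y, u y * ρ.normed volume y ≤ b := by
  have h1 : Integrable fun y => u y * ρ.normed volume y :=
    (hu.mul ρ.continuous_normed).integrable_of_hasCompactSupport ρ.hasCompactSupport_normed.mul_left
  calc ∫ y, u y * ρ.normed volume y ≤ ∫ y, b * ρ.normed volume y := by
        refine integral_mono h1 (ρ.integrable_normed.const_mul b) fun y => ?_
        by_cases hy : y ∈ ball (0 : P n) ρ.rOut
        · exact mul_le_mul_of_nonneg_right (h y hy) (ρ.nonneg_normed y)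
        · have : ρ.normed volume y = 0 := by
            rwa [← ρ.support_normed_eq (μ := volume), Function.mem_support, not_not] at hy
          simp only [this, mul_zero, le_refl]
    _ = b := by rw [integral_const_mul, ρ.integral_normed, mul_one]

theorem cv_sub_le (ρ : ContDiffBump (0 : P n)) {l : P n → ℝ} (hl : Continuous l) (q q' : P n)
    {b : ℝ} (h : ∀ y ∈ ball (0 : P n) ρ.rOut, l (q - y) - l (q' - y) ≤ b) :
    cv l (ρ.normed volume) q - cv l (ρ.normed volume) q' ≤ b := by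
  have h1 : ∀ q : P n, Integrable fun y => l (q - y) * ρ.normed volume y := fun q =>
    ((hl.comp (continuous_const.sub continuous_id)).mul
      ρ.continuous_normed).integrable_of_hasCompactSupport ρ.hasCompactSupport_normed.mul_left
  have h2 := avg_le ρ ((hl.comp (continuous_const.sub continuous_id)).sub
    (hl.comp (continuous_const.sub continuous_id))) h
  rw [cv, convolution_lsmul_swap, convolution_lsmul_swap]
  simp only [smul_eq_mul]
  rw [← integral_sub (h1 q) (h1 q')]
  refine le_trans (le_of_eq (integral_congr_ae (Eventually.of_forall fun y => ?_))) h2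
  exact (sub_mul _ _ _).symm

theorem cv_near (ρ : ContDiffBump (0 : P n)) {l : P n → ℝ} {c : ℝ≥0} (hl : LipschitzWith c l)
    (q : P n) : |cv l (ρ.normed volume) q - l q| ≤ c * ρ.rOut := by
  have h0 : ∀ y ∈ ball (0 : P n) ρ.rOut, |l (q - y) - l q| ≤ c * ρ.rOut := fun y hy => by
    refine (hl.dist_le_mul _ _).trans (mul_le_mul_of_nonneg_left ?_ c.2)
    rw [dist_eq_norm, sub_sub_cancel_left, norm_neg]
    exact (mem_ball_zero_iff.1 hy).le
  have hc : Continuous fun y => l (q - y) :=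
    hl.continuous.comp (continuous_const.sub continuous_id)
  have h1 := avg_le ρ hc (b := l q + c * ρ.rOut) fun y hy => by
    linarith [(abs_le.1 (h0 y hy)).2]
  have h2 := avg_le ρ hc.neg (b := -l q + c * ρ.rOut) fun y hy => by
    have := (abs_le.1 (h0 y hy)).1
    simp only [Pi.neg_apply]
    linarith
  simp only [Pi.neg_apply, neg_mul, integral_neg] at h2
  rw [cv, convolution_lsmul_swap]
  simp only [smul_eq_mul]
  exact abs_le.2 ⟨by linarith, by linarith⟩

theorem deriv_le {φ : ℝ → ℝ} {d t C : ℝ} (h : HasDerivAt φ d t)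
    (h1 : ∀ᶠ s in 𝓝[>] (0 : ℝ), φ (t + s) - φ t ≤ C * s) : d ≤ C := by
  refine le_of_tendsto h.tendsto_slope_zero_right ?_
  filter_upwards [h1, self_mem_nhdsWithin] with s hs h0
  rw [smul_eq_mul, inv_mul_le_iff₀ (mem_Ioi.1 h0), mul_comm]
  exact hs

/-- uniform comparison of a continuous family of positive matrices -/
theorem unif {K U : Set (P n)} (hK : IsCompact K) (hU : IsOpen U) (hKU : K ⊆ U) {G : P n → Mx n}
    (hG : ContinuousOn G U) (hp : ∀ q ∈ U, (G q).PosDef) {ε : ℝ} (h0 : 0 < ε) :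
    ∃ r : ℝ, 0 < r ∧ ∀ q ∈ K, ∀ y ∈ ball q r, y ∈ U ∧ (G y - ((1 - ε : ℝ) : ℂ) • G q).PosDef := by
  let H : P n × P n → Mx n := fun x => G x.2 - ((1 - ε : ℝ) : ℂ) • G x.1
  have hH : ContinuousOn H (U ×ˢ U) := by
    have h1 : ContinuousOn (fun x : P n × P n => G x.1) (U ×ˢ U) :=
      hG.comp continuous_fst.continuousOn fun _ h => h.1
    have h2 : ContinuousOn (fun x : P n × P n => G x.2) (U ×ˢ U) :=
      hG.comp continuous_snd.continuousOn fun _ h => h.2
    exact h2.sub (h1.fun_const_smul ((1 - ε : ℝ) : ℂ))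
  have hW : IsOpen {x ∈ U ×ˢ U | (H x).PosDef} := by
    rw [isOpen_iff_mem_nhds]
    rintro x ⟨hx, hx'⟩
    obtain ⟨e, he, h⟩ := posDef_of_near hx'
    have h1 := hH.continuousAt ((hU.prod hU).mem_nhds hx)
    have h2 : ∀ᶠ y in 𝓝 x, ∀ i j, ‖H y i j - H x i j‖ ≤ e :=
      eventually_all.2 fun i => eventually_all.2 fun j =>
        (((continuous_apply_apply i j).continuousAt.comp h1).eventually
          (closedBall_mem_nhds _ he)).mono fun y hy => by rwa [← dist_eq_norm]
    filter_upwards [h2, (hU.prod hU).mem_nhds hx] with y hy hy'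
    refine ⟨hy', h _ ((hp _ hy'.2).isHermitian.sub ((hp _ hy'.1).isHermitian.smul ?_)) hy⟩
    exact Complex.conj_ofReal _
  obtain ⟨r, hr, h⟩ := (hK.image (continuous_id.prodMk continuous_id)).exists_thickening_subset_open
    hW (by
      rintro _ ⟨q, hq, rfl⟩
      refine ⟨⟨hKU hq, hKU hq⟩, ?_⟩
      have : H (id q, id q) = (ε : ℂ) • G q := by
        change G q - ((1 - ε : ℝ) : ℂ) • G q = _
        rw [Complex.ofReal_sub, Complex.ofReal_one, sub_smul, one_smul, sub_sub_cancel]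
      rw [this]
      exact (hp q (hKU hq)).smul (Complex.zero_lt_real.2 h0))
  refine ⟨r, hr, fun q hq y hy => ?_⟩
  have h1 : (q, y) ∈ thickening r ((fun x => (id x, id x)) '' K) :=
    mem_thickening_iff.2 ⟨(q, q), ⟨q, hq, rfl⟩, by
      rw [Prod.dist_eq, dist_self]; exact max_lt hr hy⟩
  exact ⟨(h h1).1.2, (h h1).2⟩

/-- **Mollification** of a viscosity supersolution. -/
theorem moll (hV : VD2) {K U : Set (P n)} (hK : IsCompact K) (hU : IsOpen U) (hKU : K ⊆ U)
    {l : P n → ℝ} {c : ℝ≥0} (hl : LipschitzWith c l) {G : P n → Mx n} (hG : ContinuousOn G U)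
    (hp : ∀ q ∈ U, (G q).PosDef)
    (vis : ∀ q ∈ U, ∀ φ, Tch l φ q → ∀ A : Mx n, A.PosSemidef → (G q - A).PosSemidef →
      (A * cH φ q).trace.re ≤ dT φ q) {C h₀ : ℝ} (hh : 0 < h₀)
    (one : ∀ q ∈ U, ∀ h ∈ Icc 0 h₀, (q.1 + h, q.2) ∈ U → l (q.1 + h, q.2) ≤ l q + C * h)
    {ε : ℝ} (h0 : 0 < ε) (h1 : ε < 1) :
    ∃ f : P n → ℝ, ContDiff ℝ ∞ f ∧ ∀ q ∈ K, |f q - l q| ≤ ε ∧ |dT f q| ≤ c ∧ dT f q ≤ C ∧
      (1 - ε) * (G q * cH f q).trace.re ≤ dT f q := by
  obtain ⟨r, hr, hu⟩ := unif hK hU hKU hG hp h0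
  have hc : (0 : ℝ) < c + 1 := by positivity
  let h : ℝ := min (r / 2) (ε / (c + 1))
  have hh0 : 0 < h := lt_min (half_pos hr) (div_pos h0 hc)
  let ρ : ContDiffBump (0 : P n) := ⟨h / 2, h, half_pos hh0, half_lt_self hh0⟩
  have hρ : ContDiff ℝ ∞ (ρ.normed volume) := ρ.contDiff_normed
  have hs : ContDiff ℝ ∞ (cv l (ρ.normed volume)) :=
    ρ.hasCompactSupport_normed.contDiff_convolution_right (lsmul ℝ ℝ)
      hl.continuous.locallyIntegrable hρ
  refine ⟨_, hs, fun q hq => ?_⟩
  have hd : HasDerivAt (fun s => cv l (ρ.normed volume) (s, q.2)) (dT (cv l (ρ.normed volume)) q)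
      q.1 := by
    rw [dT_eq (diff_one hs q)]
    exact hasDerivAt_slice (diff_one hs q)
  have hL : ∀ (s : ℝ) (y : P n), 0 < s → |l ((q.1 + s, q.2) - y) - l ((q.1, q.2) - y)| ≤ c * s :=
    fun s y h2 => (hl.dist_le_mul _ _).trans (mul_le_mul_of_nonneg_left (by
      rw [dist_sub_right, Prod.dist_eq, dist_self, dist_self_add_left, Real.norm_of_nonneg h2.le]
      exact max_le le_rfl h2.le) c.2)
  refine ⟨(cv_near ρ hl q).trans ?_, abs_le.2 ⟨?_, deriv_le hd ?_⟩, deriv_le hd ?_, ?_⟩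
  · have h2 : h ≤ ε / (c + 1) := min_le_right _ _
    rw [le_div_iff₀ hc] at h2
    change c * h ≤ ε
    nlinarith
  · refine neg_le.1 (deriv_le hd.neg ?_)
    filter_upwards [self_mem_nhdsWithin] with s h2
    have := cv_sub_le ρ hl.continuous (q.1, q.2) (q.1 + s, q.2) (b := c * s) fun y _ => by
      linarith [(abs_le.1 (hL s y h2)).1]
    simp only [Pi.neg_apply]
    linarith
  · filter_upwards [self_mem_nhdsWithin] with s h2
    exact cv_sub_le ρ hl.continuous _ _ fun y _ => (abs_le.1 (hL s y h2)).2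
  · filter_upwards [Ioo_mem_nhdsGT (lt_min hh (half_pos hr))] with s h2
    refine cv_sub_le ρ hl.continuous _ _ fun y hy => ?_
    have h3 : ‖y‖ < r / 2 := (mem_ball_zero_iff.1 hy).trans_le (min_le_left _ _)
    have h4 : q - y ∈ ball q r := by
      rw [mem_ball, dist_eq_norm, sub_sub_cancel_left, norm_neg]
      linarith
    have h5 : (((q - y).1 + s, (q - y).2) : P n) = (q.1 + s, q.2) - y :=
      Prod.ext (by simp only [Prod.fst_sub]; ring) rfl
    have h6 : ((q.1 + s, q.2) - y : P n) ∈ ball q r := by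
      have h7 : dist ((q.1 + s, q.2) - y : P n) ((q.1, q.2) - y) ≤ s := by
        rw [dist_sub_right, Prod.dist_eq, dist_self, dist_self_add_left,
          Real.norm_of_nonneg h2.1.le]
        exact max_le le_rfl h2.1.le
      have h8 : dist (q - y) q < r / 2 := by
        rwa [dist_eq_norm, sub_sub_cancel_left, norm_neg]
      have h9 : s < r / 2 := h2.2.trans_le (min_le_right _ _)
      exact (dist_triangle _ (q - y) _).trans_lt (by linarith)
    have := one (q - y) (hu q hq _ h4).1 s ⟨h2.1.le, h2.2.le.trans (min_le_left _ _)⟩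
      (h5 ▸ (hu q hq _ h6).1)
    rw [h5] at this
    exact sub_le_iff_le_add'.2 this
  · have hA : (((1 - ε : ℝ) : ℂ) • G q).PosDef :=
      (hp q (hKU hq)).smul (Complex.zero_lt_real.2 (sub_pos.2 h1))
    have h2 := hV n (ball q r) l _ isOpen_ball hl.continuous.continuousOn hA
      (fun y hy φ hφ => vis y (hu q hq y hy).1 φ hφ _ hA.posSemidef (hu q hq y hy).2.posSemidef)
      (fun y => ρ.normed volume (q - y)) ⟨hρ.comp (contDiff_const.sub contDiff_id),
        fun y => ρ.nonneg_normed _, ?_, ?_⟩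
    · rw [cv_ineq hl.continuous ρ.hasCompactSupport_normed hρ, Matrix.smul_mul, Matrix.trace_smul,
        smul_eq_mul, Complex.re_ofReal_mul] at h2
      exact sub_nonpos.1 h2
    · exact ρ.hasCompactSupport_normed.comp_homeomorph (Homeomorph.subLeft q)
    · refine (closure_minimal (fun y hy => ?_) isClosed_closedBall).trans
        (closedBall_subset_ball (show h < r from (min_le_left _ _).trans_lt (half_lt_self hr)))
      have h3 : q - y ∈ Function.support (ρ.normed volume) := hy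
      rw [ρ.support_normed_eq, mem_ball_zero_iff] at h3
      rw [mem_closedBall, dist_comm, dist_eq_norm]
      exact h3.le

end Vale.Agent.P253W.V.Mol
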