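import Vale.Agent.P253W.V.Bas1
import Vale.Agent.P253Z.B3

/-!
# P253W, block V, row VD4: lower limits, integrals in a chart, sums of test functions
-/

open scoped Manifold ContDiff Bundle ENNReal Topology ComplexConjugate ComplexOrder Matrix
open Bundle IsManifold MeasureTheory Set Metric Filter Vale.Agent.P253.Mfd Vale.Agent.P253Z
open Vale.Agent.P272.K (Cm dz dzb cHess jacM Chart)
open Vale.Agent.P272.K.C2 (cHess_congr cHess_const cHess_add)

noncomputable section

namespace Vale.Agent.P253W.V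

namespace Vd4

section Lim

variable {X : Type} [TopologicalSpace X] {l f : X → ℝ} {q : X}

theorem fq (l : X → ℝ) (q : X) : ∃ᶠ p in 𝓝 q, l p ≤ l q := fun h => h.self_of_nhds le_rfl

theorem bd (hf : ContinuousAt f q) (h : ∀ᶠ p in 𝓝 q, f p ≤ l p) :
    (𝓝 q).IsBoundedUnder (· ≥ ·) l := hf.tendsto.isBoundedUnder_ge.mono_ge h

theorem lim_le (hf : ContinuousAt f q) (h : ∀ᶠ p in 𝓝 q, f p ≤ l p) : liminf l (𝓝 q) ≤ l q :=
  liminf_le_of_frequently_le (fq l q) (bd hf h)

theorem le_lim (hf : ContinuousAt f q) (h : ∀ᶠ p in 𝓝 q, f p ≤ l p) : f q ≤ liminf l (𝓝 q) := by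
  rw [← hf.tendsto.liminf_eq]
  exact liminf_le_liminf h hf.tendsto.isBoundedUnder_ge (.of_frequently_le (fq l q))

theorem lsc (hf : ContinuousAt f q) (h : ∀ᶠ p in 𝓝 q, f p ≤ l p) :
    LowerSemicontinuousAt (fun p => liminf l (𝓝 p)) q := fun a ha => by
  obtain ⟨c, h1, h2⟩ := exists_between ha
  filter_upwards [(eventually_lt_of_lt_liminf h2 (bd hf h)).eventually_nhds] with p hp
  exact h1.trans_le (le_lim continuousAt_const (hp.mono fun _ => le_of_lt))

theorem meas_ind [MeasurableSpace X] [OpensMeasurableSpace X] {O : Set X} (hO : IsOpen O)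
    (h : ∀ q ∈ O, LowerSemicontinuousAt f q) : Measurable (O.indicator f) := by
  refine measurable_of_Ioi fun a => ?_
  have h1 : IsOpen (O ∩ {q | a < f q}) := isOpen_iff_mem_nhds.2 fun q hq =>
    inter_mem (hO.mem_nhds hq.1) (h q hq.1 a hq.2)
  have h2 : O.indicator f ⁻¹' Ioi a = O ∩ {q | a < f q} ∪ Oᶜ ∩ {_q | a < 0} := by
    ext q
    by_cases hq : q ∈ O <;> simp [hq]
  rw [h2]
  exact h1.measurableSet.union (hO.measurableSet.compl.inter (MeasurableSet.const _))

end Lim

variable {n : ℕ} {M : Type} [MetricSpace M] [ChartedSpace (Cm n) M] {e : Chart n M}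

omit [ChartedSpace (Cm n) M] in
theorem lim_ch (l : ℝ → M → ℝ) {q : P n} (hq : q.2 ∈ e.target) :
    liminf (ch e l) (𝓝 q) = liminf (Function.uncurry l) (𝓝 (q.1, e.symm q.2)) := by
  have h : ch e l = Function.uncurry l ∘ Prod.map id e.symm := rfl
  rw [h, liminf_comp, nhds_prod_eq, nhds_prod_eq, ← prod_map_map_eq', Filter.map_id,
    e.symm.map_nhds_eq hq]

variable [RiemannianBundle (fun x : M => TangentSpace 𝓘(ℝ, Cm n) x)]

/-- the integrand of `Dist` -/
def ig (F : Flow n M) (v χ : ℝ → M → ℝ) (q : ℝ × M) : ℝ :=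
  (dt χ q.1 q.2 * (Real.exp (v q.1 q.2) - 1) + v q.1 q.2 * F.lap q.1 (χ q.1) q.2) *
    Real.exp (F.u 0 q.2 - F.u q.1 q.2)

variable {F : Flow n M} {v χ : ℝ → M → ℝ}

theorem trg_zero (g : Mx n) : trg g 0 = 0 := by simp [trg]

theorem ig_zero {C : Set (ℝ × M)} (hC : IsClosed C) (h : ∀ t x, χ t x ≠ 0 → (t, x) ∈ C)
    {q : ℝ × M} (hq : q ∉ C) : ig F v χ q = 0 := by
  have h0 : ∀ᶠ p : ℝ × M in 𝓝 q, χ p.1 p.2 = 0 := by
    filter_upwards [hC.isOpen_compl.mem_nhds hq] with p hp
    exact by_contra fun c => hp (h _ _ c)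
  have hx := mem_chart_source (Cm n) q.2
  have h1 : (fun s => χ s q.2) =ᶠ[𝓝 q.1] fun _ => 0 :=
    (continuousAt_id.prodMk continuousAt_const : ContinuousAt (fun s => (s, q.2)) q.1).eventually h0
  have h2 : (fun y => χ q.1 ((pc n q.2).symm y)) =ᶠ[𝓝 (pc n q.2 q.2)] fun _ => 0 := by
    have c : ContinuousAt (fun y => (q.1, (pc n q.2).symm y)) (pc n q.2 q.2) :=
      continuousAt_const.prodMk ((pc n q.2).continuousAt_symm ((pc n q.2).map_source hx))
    refine c.eventually (p := fun p : ℝ × M => χ p.1 p.2 = 0) ?_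
    beta_reduce
    rwa [(pc n q.2).left_inv hx]
  rw [ig, dt, h1.deriv_eq, Flow.lap, hs, cHess_congr h2, cHess_const, trg_zero]
  simp

theorem cHess_sum {ι : Type} (s : Finset ι) {u : ι → Cm n → ℝ} {z : Cm n}
    (hu : ∀ i, ContDiffAt ℝ 2 (u i) z) :
    cHess (fun y => ∑ i ∈ s, u i y) z = ∑ i ∈ s, cHess (u i) z := by
  classical
  induction s using Finset.induction_on with
  | empty => simpa using cHess_const 0
  | insert a s ha ih =>
    simp only [Finset.sum_insert ha]
    rw [cHess_add (hu a) (ContDiffAt.sum fun i _ => hu i), ih]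

theorem ig_sum (a : B1a n M) {ι : Type} [Fintype ι] {c : ι → ℝ → M → ℝ}
    (h : ∀ i, SmT n univ (c i)) (q : ℝ × M) :
    ig F v (fun t x => ∑ i, c i t x) q = ∑ i, ig F v (c i) q := by
  have hx := mem_chart_source (Cm n) q.2
  have hz := (pc n q.2).map_source hx
  have h1 : ∀ i, DifferentiableAt ℝ (fun s => c i s q.2) q.1 := fun i => by
    have h2 := (FG.Calc.hasDT ((FG.Calc.at_of isOpen_univ (pc n q.2).open_target
      (h i _ (a.chart q.2)) (q := (q.1, pc n q.2 q.2)) ⟨trivial, hz⟩).differentiableAt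
        (by simp))).differentiableAt
    simpa only [ch, (pc n q.2).left_inv hx] using h2
  have h2 : hs (fun x => ∑ i, c i q.1 x) (pc n q.2) (pc n q.2 q.2) =
      ∑ i, hs (c i q.1) (pc n q.2) (pc n q.2 q.2) := cHess_sum _ fun i =>
    (FG.Calc.slice (pc n q.2).open_target (h i _ (a.chart q.2)) trivial hz).of_le FG.Calc.two_le
  simp only [ig, dt, Flow.lap, trg, h2, deriv_fun_sum fun i _ => h1 i,
    Matrix.trace_sum, Complex.re_sum, Finset.sum_mul, Finset.mul_sum, ← Finset.sum_add_distrib]

variable [MeasurableSpace M] [BorelSpace M] {μ : Measure M} [SFinite μ]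

/-- integrals over space-time in a chart -/
theorem cv (hv : IsVol n μ) (b : B1b n M) (he : Hc e) {f : ℝ × M → ℝ} {J : P n → ℝ}
    (h0 : ∀ q, q.2 ∉ e.source → f q = 0) (h1 : ∀ q, q.2 ∉ e.target → J q = 0)
    (h2 : ∀ q, q.2 ∈ e.target → J q = f (q.1, e.symm q.2) * vd e q.2) (hi : Integrable J) :
    Integrable f (volume.prod μ) ∧ ∫ q, f q ∂(volume.prod μ) = ∫ q, J q := by
  classical
  have ms := e.open_source.measurableSet
  have mt := e.open_target.measurableSet
  set E := e.source.piecewise e fun _ => (0 : Cm n) with hE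
  have hg : Measurable E := ContinuousOn.measurable_piecewise e.continuousOn continuousOn_const ms
  have hm : AEMeasurable (fun z => ENNReal.ofReal (vd e z)) (volume.restrict e.target) :=
    ((B3Aux.vd_contOn b he).aemeasurable mt).ennreal_ofReal
  have p1 : MeasurePreserving E (μ.restrict e.source)
      ((volume.restrict e.target).withDensity fun z => ENNReal.ofReal (vd e z)) := by
    refine ⟨hg, Measure.ext fun A hA => ?_⟩
    rw [Measure.map_apply hg hA, Measure.restrict_apply (hg hA), withDensity_apply _ hA,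
      Measure.restrict_restrict hA, ← B3Aux.meas_eq hv e he _ (hA.inter mt) inter_subset_right,
      e.symm_image_eq_source_inter_preimage inter_subset_right, inter_comm]
    congr 1
    ext x
    refine and_congr_right fun hx => ?_
    rw [mem_preimage, mem_preimage, hE, piecewise_eq_of_mem _ _ _ hx, mem_inter_iff,
      and_iff_left (e.map_source hx)]
  have p2 := (MeasurePreserving.id (volume : Measure ℝ)).prod p1
  have e1 : ∀ {Y : Type} [MeasurableSpace Y] (ν : Measure Y) [SFinite ν] (s : Set Y),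
      (volume : Measure ℝ).prod (ν.restrict s) = (volume.prod ν).restrict (univ ×ˢ s) :=
    fun ν _ s => by rw [← Measure.prod_restrict, Measure.restrict_univ]
  rw [prod_withDensity_right₀ hm] at p2
  have hm' : AEMeasurable (fun q : P n => ENNReal.ofReal (vd e q.2))
      ((volume : Measure ℝ).prod (volume.restrict e.target)) := hm.comp_snd
  have ht : ∀ᵐ q : P n ∂((volume : Measure ℝ).prod (volume.restrict e.target)),
      ENNReal.ofReal (vd e q.2) < ⊤ := Eventually.of_forall fun _ => ENNReal.ofReal_lt_top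
  have e2 : J =ᵐ[(volume : Measure ℝ).prod (volume.restrict e.target)]
      fun q => (ENNReal.ofReal (vd e q.2)).toReal • f (q.1, e.symm q.2) := by
    rw [e1]
    refine ae_restrict_of_forall_mem (MeasurableSet.univ.prod mt) fun q hq => ?_
    beta_reduce
    rw [h2 q hq.2, ENNReal.toReal_ofReal (b.vd_pos e he _ hq.2).le, smul_eq_mul, mul_comm]
  have i1 := (integrable_withDensity_iff_integrable_smul₀' hm' ht).2
    (Integrable.congr (by rw [e1]; exact hi.restrict) e2)
  have e3 : (fun q : P n => f (q.1, e.symm q.2)) ∘ Prod.map id E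
      =ᵐ[(volume : Measure ℝ).prod (μ.restrict e.source)] f := by
    rw [e1]
    refine ae_restrict_of_forall_mem (MeasurableSet.univ.prod ms) fun q hq => ?_
    simp only [Function.comp, Prod.map, id, hE, piecewise_eq_of_mem _ _ _ hq.2, e.left_inv hq.2]
  have i2 := (p2.integrable_comp_of_integrable i1).congr e3
  have s1 : ∀ q, q ∉ univ ×ˢ e.source → f q = 0 := fun q hq => h0 q fun c => hq ⟨trivial, c⟩
  refine ⟨?_, ?_⟩
  · rw [e1] at i2
    exact (integrableOn_iff_integrable_of_support_subset fun q hq =>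
      by_contra fun c => hq (s1 q c)).1 i2
  · rw [← setIntegral_eq_integral_of_forall_compl_eq_zero s1, ← e1, ← integral_congr_ae e3,
      ← setIntegral_eq_integral_of_forall_compl_eq_zero (s := univ ×ˢ e.target)
        fun q hq => h1 q fun c => hq ⟨trivial, c⟩]
    refine Eq.trans ?_ (congrArg (integral · J) (e1 volume e.target))
    rw [integral_congr_ae e2, ← integral_withDensity_eq_integral_toReal_smul₀ hm' ht, ← p2.map_eq,
      integral_map p2.measurable.aemeasurable (p2.map_eq.symm ▸ i1.aestronglyMeasurable)]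
    rfl

end Vd4

end Vale.Agent.P253W.V
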